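import Vale.Agent.P011.MPQ.Defs

/-!
Quaternions which are integral outside a set of primes: definitions.
-/

open NumberField IsDedekindDomain

namespace Vale.Agent.P011.MPQ

open Arith

section cjdef

variable {F : Type} [Field F] {a b : Fˣ}

/-- The quaternion with given coordinates. -/
def mk4 (a b : Fˣ) (x y z t : F) : Qt a b := ⟨x, y, z, t⟩

/-- The conjugate. -/
def cj (x : Qt a b) : Qt a b := ⟨x.re, -x.imI, -x.imJ, -x.imK⟩

/-- The reduced trace. -/
def trd (x : Qt a b) : F := 2 * x.re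

section cj

variable (x y : Qt a b)

@[simp] theorem cj_re : (cj x).re = x.re := rfl
@[simp] theorem cj_imI : (cj x).imI = -x.imI := rfl
@[simp] theorem cj_imJ : (cj x).imJ = -x.imJ := rfl
@[simp] theorem cj_imK : (cj x).imK = -x.imK := rfl

theorem cj_eq_star : cj x = star x := by
  ext <;> simp [cj]

theorem cj_cj : cj (cj x) = x := by
  ext <;> simp [cj]

theorem cj_mul : cj (x * y) = cj y * cj x := by
  rw [cj_eq_star, cj_eq_star, cj_eq_star, star_mul]

theorem cj_one : cj (1 : Qt a b) = 1 := by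
  ext <;> simp [cj]

theorem nrd_cj : nrd (cj x) = nrd x := by
  simp only [nrd, cj]; ring

theorem mul_cj : x * cj x = algebraMap F (Qt a b) (nrd x) := by
  rw [QuaternionAlgebra.algebraMap_eq]
  ext <;> simp only [nrd, cj, QuaternionAlgebra.re_mul, QuaternionAlgebra.imI_mul,
    QuaternionAlgebra.imJ_mul, QuaternionAlgebra.imK_mul] <;> ring

theorem cj_mul_self : cj x * x = algebraMap F (Qt a b) (nrd x) := by
  rw [QuaternionAlgebra.algebraMap_eq]
  ext <;> simp only [nrd, cj, QuaternionAlgebra.re_mul, QuaternionAlgebra.imI_mul,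
    QuaternionAlgebra.imJ_mul, QuaternionAlgebra.imK_mul] <;> ring

theorem trd_mul_comm : trd (x * y) = trd (y * x) := by
  simp only [trd, QuaternionAlgebra.re_mul]; ring

end cj

theorem inv_eq_cj {x : (Qt a b)ˣ} (hx : nrd (x : Qt a b) = 1) :
    ((x⁻¹ : (Qt a b)ˣ) : Qt a b) = cj (x : Qt a b) := by
  have h := mul_cj (x : Qt a b)
  rw [hx, map_one] at h
  exact Units.inv_eq_of_mul_eq_one_right h

end cjdef

variable {F : Type} [Field F] [NumberField F]

/-- The element is integral outside `S`. -/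
def IntF (S : Set (HeightOneSpectrum (𝓞 F))) (x : F) : Prop := ∀ v ∉ S, v.valuation F x ≤ 1

/-- The quaternion has coordinates which are integral outside `S`. -/
def IntQ {a b : Fˣ} (S : Set (HeightOneSpectrum (𝓞 F))) (x : Qt a b) : Prop :=
  IntF S x.re ∧ IntF S x.imI ∧ IntF S x.imJ ∧ IntF S x.imK

/-- The quaternion is congruent to zero modulo `v`. -/
def Dv {a b : Fˣ} (v : HeightOneSpectrum (𝓞 F)) (x : Qt a b) : Prop :=
  v.valuation F x.re < 1 ∧ v.valuation F x.imI < 1 ∧ v.valuation F x.imJ < 1 ∧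
    v.valuation F x.imK < 1

/-- Outside `S` the symbols and two are units. -/
structure Adm (a b : Fˣ) (S : Set (HeightOneSpectrum (𝓞 F))) : Prop where
  two : ∀ v ∉ S, v.valuation F (2 : F) = 1
  a : ∀ v ∉ S, v.valuation F (a : F) = 1
  b : ∀ v ∉ S, v.valuation F (b : F) = 1

/-- The primes dividing a natural number. -/
def SM (F : Type) [Field F] [NumberField F] (M : ℕ) : Set (HeightOneSpectrum (𝓞 F)) :=
  {v | v.valuation F (M : F) ≠ 1}

variable {S : Set (HeightOneSpectrum (𝓞 F))} {a b : Fˣ}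

namespace IntF

theorem add {x y : F} (hx : IntF S x) (hy : IntF S y) : IntF S (x + y) :=
  fun v hv => (v.valuation F).map_add_le (hx v hv) (hy v hv)

theorem neg {x : F} (hx : IntF S x) : IntF S (-x) := fun v hv => by
  rw [Valuation.map_neg]; exact hx v hv

theorem sub {x y : F} (hx : IntF S x) (hy : IntF S y) : IntF S (x - y) := by
  rw [sub_eq_add_neg]; exact hx.add hy.neg

theorem mul {x y : F} (hx : IntF S x) (hy : IntF S y) : IntF S (x * y) := fun v hv => by
  rw [map_mul]; exact mul_le_one' (hx v hv) (hy v hv)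

theorem zero : IntF S (0 : F) := fun v _ => by simp

theorem one : IntF S (1 : F) := fun v _ => by simp

theorem nat (n : ℕ) : IntF S (n : F) := by
  induction n with
  | zero => simpa using zero
  | succ n ih => rw [Nat.cast_succ]; exact ih.add one

theorem int (n : ℤ) : IntF S (n : F) := by
  obtain ⟨m, rfl | rfl⟩ := n.eq_nat_or_neg
  · exact_mod_cast nat m
  · rw [Int.cast_neg]; exact_mod_cast (nat m).neg

theorem pow {x : F} (hx : IntF S x) (n : ℕ) : IntF S (x ^ n) := by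
  induction n with
  | zero => simpa using one
  | succ n ih => rw [pow_succ]; exact ih.mul hx

theorem mono {T : Set (HeightOneSpectrum (𝓞 F))} (h : S ⊆ T) {x : F} (hx : IntF S x) : IntF T x :=
  fun v hv => hx v fun h' => hv (h h')

theorem ofInt (x : 𝓞 F) : IntF S (x : F) := fun v _ => v.valuation_le_one x

end IntF

theorem Adm.mono {T : Set (HeightOneSpectrum (𝓞 F))} (hA : Adm a b S) (h : S ⊆ T) : Adm a b T :=
  ⟨fun v hv => hA.two v fun h' => hv (h h'), fun v hv => hA.a v fun h' => hv (h h'),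
    fun v hv => hA.b v fun h' => hv (h h')⟩

theorem Adm.intA (hA : Adm a b S) : IntF S (a : F) := fun v hv => (hA.a v hv).le

theorem Adm.intB (hA : Adm a b S) : IntF S (b : F) := fun v hv => (hA.b v hv).le

theorem Adm.intA' (hA : Adm a b S) : IntF S ((a : F)⁻¹) := fun v hv => by
  rw [map_inv₀, hA.a v hv, inv_one]

theorem Adm.intB' (hA : Adm a b S) : IntF S ((b : F)⁻¹) := fun v hv => by
  rw [map_inv₀, hA.b v hv, inv_one]

theorem Adm.intTwo' (hA : Adm a b S) : IntF S ((2 : F)⁻¹) := fun v hv => by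
  rw [map_inv₀, hA.two v hv, inv_one]

namespace IntQ

theorem add {x y : Qt a b} (hx : IntQ S x) (hy : IntQ S y) : IntQ S (x + y) :=
  ⟨hx.1.add hy.1, hx.2.1.add hy.2.1, hx.2.2.1.add hy.2.2.1, hx.2.2.2.add hy.2.2.2⟩

theorem neg {x : Qt a b} (hx : IntQ S x) : IntQ S (-x) :=
  ⟨hx.1.neg, hx.2.1.neg, hx.2.2.1.neg, hx.2.2.2.neg⟩

theorem sub {x y : Qt a b} (hx : IntQ S x) (hy : IntQ S y) : IntQ S (x - y) :=
  ⟨hx.1.sub hy.1, hx.2.1.sub hy.2.1, hx.2.2.1.sub hy.2.2.1, hx.2.2.2.sub hy.2.2.2⟩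

theorem zero : IntQ S (0 : Qt a b) := ⟨IntF.zero, IntF.zero, IntF.zero, IntF.zero⟩

theorem one : IntQ S (1 : Qt a b) := ⟨IntF.one, IntF.zero, IntF.zero, IntF.zero⟩

theorem cj {x : Qt a b} (hx : IntQ S x) : IntQ S (cj x) :=
  ⟨hx.1, hx.2.1.neg, hx.2.2.1.neg, hx.2.2.2.neg⟩

theorem smul {c : F} (hc : IntF S c) {x : Qt a b} (hx : IntQ S x) : IntQ S (c • x) := by
  refine ⟨?_, ?_, ?_, ?_⟩
  · simpa using hc.mul hx.1
  · simpa using hc.mul hx.2.1
  · simpa using hc.mul hx.2.2.1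
  · simpa using hc.mul hx.2.2.2

theorem alg {c : F} (hc : IntF S c) : IntQ S (algebraMap F (Qt a b) c) := by
  refine ⟨?_, ?_, ?_, ?_⟩ <;> simp [hc, IntF.zero]

theorem mul (hA : Adm a b S) {x y : Qt a b} (hx : IntQ S x) (hy : IntQ S y) : IntQ S (x * y) := by
  have ha := hA.intA
  have hb := hA.intB
  obtain ⟨x1, x2, x3, x4⟩ := hx
  obtain ⟨y1, y2, y3, y4⟩ := hy
  refine ⟨?_, ?_, ?_, ?_⟩
  · rw [QuaternionAlgebra.re_mul]
    exact ((((x1.mul y1).add ((ha.mul x2).mul y2)).add ((hb.mul x3).mul y3)).add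
      ((IntF.zero.mul x3 |>.mul IntF.zero).mul IntF.zero |>.mul IntF.zero)).sub
      (((ha.mul hb).mul x4).mul y4) |> fun h => by convert h using 1; ring
  · rw [QuaternionAlgebra.imI_mul]
    exact (((x1.mul y2).add (x2.mul y1)).sub ((hb.mul x3).mul y4)).add ((hb.mul x4).mul y3) |>
      fun h => by convert h using 1; ring
  · rw [QuaternionAlgebra.imJ_mul]
    exact (((x1.mul y3).add ((ha.mul x2).mul y4)).add (x3.mul y1)).sub ((ha.mul x4).mul y2) |>
      fun h => by convert h using 1; ring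
  · rw [QuaternionAlgebra.imK_mul]
    exact (((x1.mul y4).add (x2.mul y3)).sub (x3.mul y2)).add (x4.mul y1) |>
      fun h => by convert h using 1; ring

theorem mono {T : Set (HeightOneSpectrum (𝓞 F))} (h : S ⊆ T) {x : Qt a b} (hx : IntQ S x) :
    IntQ T x :=
  ⟨hx.1.mono h, hx.2.1.mono h, hx.2.2.1.mono h, hx.2.2.2.mono h⟩

theorem nrd (hA : Adm a b S) {x : Qt a b} (hx : IntQ S x) : IntF S (nrd x) := by
  have ha := hA.intA
  have hb := hA.intB
  obtain ⟨x1, x2, x3, x4⟩ := hx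
  exact (((x1.pow 2).sub (ha.mul (x2.pow 2))).sub (hb.mul (x3.pow 2))).add
    ((ha.mul hb).mul (x4.pow 2))

theorem trd {x : Qt a b} (hx : IntQ S x) : IntF S (trd x) := by
  have := (IntF.nat (S := S) (F := F) 2).mul hx.1
  simpa [MPQ.trd] using this

end IntQ

/-- The norm-one group of the quaternions which are integral outside `S`. -/
def Gam (a b : Fˣ) (S : Set (HeightOneSpectrum (𝓞 F))) (hA : Adm a b S) : Subgroup (Qt a b)ˣ where
  carrier := {x | nrd (x : Qt a b) = 1 ∧ IntQ S (x : Qt a b)}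
  mul_mem' := by
    rintro x y ⟨hx, hx'⟩ ⟨hy, hy'⟩
    refine ⟨?_, ?_⟩
    · rw [Units.val_mul, nrd_mul, hx, hy, one_mul]
    · rw [Units.val_mul]; exact hx'.mul hA hy'
  one_mem' := ⟨nrd_one, IntQ.one⟩
  inv_mem' := by
    rintro x ⟨hx, hx'⟩
    refine ⟨?_, ?_⟩
    · rw [inv_eq_cj hx, nrd_cj, hx]
    · rw [inv_eq_cj hx]; exact hx'.cj

theorem mem_Gam {hA : Adm a b S} {x : (Qt a b)ˣ} :
    x ∈ Gam a b S hA ↔ nrd (x : Qt a b) = 1 ∧ IntQ S (x : Qt a b) := Iff.rfl

/-- The set `S` is large enough: the right ideals are principal, and the normal subgroups of the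
norm-one group which contain all `e`-th powers permute the neighbours transitively. -/
structure Big (a b : Fˣ) (e : ℕ) (S : Set (HeightOneSpectrum (𝓞 F))) : Prop where
  adm : Adm a b S
  pid : ∀ I : AddSubgroup (Qt a b), I ≠ ⊥ → (∀ x ∈ I, IntQ S x) →
    (∀ x ∈ I, ∀ y, IntQ S y → x * y ∈ I) →
    ∃ q : (Qt a b)ˣ, ∀ x, x ∈ I ↔ IntQ S (((q⁻¹ : (Qt a b)ˣ) : Qt a b) * x)
  tr : ∀ v ∉ S, ∀ H : Subgroup (Qt a b)ˣ, H ≤ Gam a b S adm →
    (∀ g ∈ Gam a b S adm, ∀ h ∈ H, g * h * g⁻¹ ∈ H) → (∀ g ∈ Gam a b S adm, g ^ e ∈ H) →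
    ∀ x x' : Qt a b, IntQ S x → IntQ S x' → v.valuation F (nrd x) < 1 →
      v.valuation F (nrd x') < 1 → ¬ Dv v x → ¬ Dv v x' →
      ∃ h ∈ H, Dv v (cj x' * (h : Qt a b) * x)

end Vale.Agent.P011.MPQ
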