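import Vale.Agent.P011.Arith.Places
import Vale.Agent.P011.Arith.SUnit
import Vale.Agent.P011.MPQ.IDefs

/-!
Weak approximation at finite and all infinite places, and continuity of algebraic expressions.
-/

open NumberField IsDedekindDomain

set_option linter.unusedSectionVars false

namespace Vale.Agent.P011.MPQ

open Arith

variable {F : Type} [Field F] [NumberField F]

/-- The finite places and the infinite places, including the complex ones. -/
abbrev PlI (F : Type) [Field F] [NumberField F] := HeightOneSpectrum (𝓞 F) ⊕ InfinitePlace F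

/-- The absolute value of a place. -/
noncomputable def pabv : PlI F → AbsoluteValue F ℝ
  | .inl v => plAbv (.inl v)
  | .inr w => w.1

theorem pabv_lt (v : HeightOneSpectrum (𝓞 F)) (x y : F) :
    pabv (Sum.inl v) x < pabv (Sum.inl v) y ↔ v.valuation F x < v.valuation F y := plAbv_lt v x y

theorem pabv_le (v : HeightOneSpectrum (𝓞 F)) (x y : F) :
    pabv (Sum.inl v) x ≤ pabv (Sum.inl v) y ↔ v.valuation F x ≤ v.valuation F y := by
  rw [← not_lt, ← not_lt, pabv_lt]

theorem pabv_inr (w : InfinitePlace F) (x : F) : pabv (Sum.inr w) x = w x := rfl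

theorem pabv_inequiv (p q : PlI F) (h : p ≠ q) : ¬ (pabv p).IsEquiv (pabv q) := by
  intro he
  have key := (AbsoluteValue.isEquiv_iff_lt_one_iff).mp he
  have hhalf : ∀ (v : HeightOneSpectrum (𝓞 F)), ¬ pabv (Sum.inl v) (1 / 2 : F) < 1 := by
    intro v
    change ¬ plAbv (Sum.inl v) (1 / 2 : F) < 1
    rw [plAbv_lt_one, not_lt, map_div₀, map_one]
    have h2 : v.valuation F (2 : F) ≤ 1 := by
      have h : v.valuation F (algebraMap (𝓞 F) F 2) ≤ 1 := v.valuation_le_one (2 : 𝓞 F)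
      rwa [map_ofNat] at h
    have h0 : v.valuation F (2 : F) ≠ 0 := (Valuation.ne_zero_iff _).mpr two_ne_zero
    rw [one_div, one_le_inv₀ (zero_lt_iff.mpr h0)]
    exact h2
  have hhalf' : ∀ w : InfinitePlace F, pabv (Sum.inr w) (1 / 2 : F) < 1 := by
    intro w
    have h2 : w (2 : F) = 2 := by
      have := w.norm_embedding_eq (2 : F)
      rw [map_ofNat] at this
      rw [← this]
      simp
    rw [pabv_inr, map_div₀, map_one, h2]
    norm_num
  rcases p with v | φ <;> rcases q with v' | φ'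
  · exact plAbv_inequiv (Sum.inl v) (Sum.inl v') (fun h' => h (by rw [Sum.inl_injective h'])) he
  · exact hhalf v ((key _).mpr (hhalf' φ'))
  · exact hhalf v' ((key _).mp (hhalf' φ))
  · apply h
    rw [InfinitePlace.eq_iff_isEquiv.mpr he]

theorem pabv_nontrivial (p : PlI F) : (pabv p).IsNontrivial := by
  rcases p with v | w
  · exact plAbv_nontrivial (Sum.inl v)
  · refine ⟨2, two_ne_zero, ?_⟩
    have h2 : w (2 : F) = 2 := by
      have := w.norm_embedding_eq (2 : F)
      rw [map_ofNat] at this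
      rw [← this]
      simp
    rw [pabv_inr, h2]
    norm_num

/-- Weak approximation. -/
theorem approxI (T : Set (PlI F)) (hT : T.Finite) (z : PlI F → F) (δ : PlI F → ℝ)
    (hδ : ∀ p, 0 < δ p) : ∃ f : F, ∀ p ∈ T, pabv p (f - z p) < δ p := by
  have _hfin : Finite T := hT
  have hd := AbsoluteValue.denseRange_algebraMap_pi (F := F) (v := fun p : T => pabv (p : PlI F))
    (fun p => pabv_nontrivial _) (fun p q hpq => pabv_inequiv _ _ (fun h => hpq (Subtype.ext h)))
  have _hft : Fintype T := Fintype.ofFinite T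
  by_cases hne : Nonempty T
  · obtain ⟨p0, hp0⟩ := Finite.exists_min (fun p : T => δ (p : PlI F))
    obtain ⟨f, hf⟩ := (Metric.denseRange_iff.mp hd)
      (fun p : T => WithAbs.toAbs _ (z p)) (δ p0) (hδ _)
    refine ⟨f, fun p hp => ?_⟩
    rw [dist_pi_lt_iff (hδ _)] at hf
    have h1 := hf ⟨p, hp⟩
    rw [dist_comm, dist_eq_norm] at h1
    refine lt_of_lt_of_le ?_ (hp0 ⟨p, hp⟩)
    exact h1
  · exact ⟨0, fun p hp => absurd ⟨⟨p, hp⟩⟩ hne⟩

/-- The places attached to a natural number: the primes dividing it, and the infinite places. -/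
def TP (F : Type) [Field F] [NumberField F] (r : ℕ) : Set (PlI F) :=
  {p | match p with
    | .inl v => v.valuation F (r : F) < 1
    | .inr _ => True}

theorem inl_mem_TP {r : ℕ} {v : HeightOneSpectrum (𝓞 F)} :
    (Sum.inl v : PlI F) ∈ TP F r ↔ v.valuation F (r : F) < 1 := Iff.rfl

theorem inr_mem_TP {r : ℕ} {w : InfinitePlace F} : (Sum.inr w : PlI F) ∈ TP F r := trivial

theorem TP_finite {r : ℕ} (hr : r ≠ 0) : (TP F r).Finite := by
  have h1 : (Sum.inl '' {v : HeightOneSpectrum (𝓞 F) |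
      v.valuation F ((Units.mk0 (r : F) (Nat.cast_ne_zero.mpr hr) : Fˣ) : F) ≠ 1} ∪
      Set.range Sum.inr : Set (PlI F)).Finite :=
    ((finite_ne_one _).image _).union (Set.finite_range _)
  refine h1.subset ?_
  rintro (v | w) hp
  · exact Or.inl ⟨v, (inl_mem_TP.mp hp).ne, rfl⟩
  · exact Or.inr ⟨w, rfl⟩

theorem TP_pow {r k : ℕ} (hk : k ≠ 0) : TP F (r ^ k) = TP F r := by
  ext p
  rcases p with v | w
  · rw [inl_mem_TP, inl_mem_TP, Nat.cast_pow, map_pow, pow_lt_one_iff hk]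
  · exact ⟨fun _ => inr_mem_TP, fun _ => inr_mem_TP⟩

theorem TP_mul {r s : ℕ} : TP F (r * s) = TP F r ∪ TP F s := by
  have hle : ∀ (v : HeightOneSpectrum (𝓞 F)) (n : ℕ), v.valuation F (n : F) ≤ 1 := fun v n => by
    have h : v.valuation F (algebraMap (𝓞 F) F (n : 𝓞 F)) ≤ 1 := v.valuation_le_one (n : 𝓞 F)
    rwa [map_natCast] at h
  ext p
  rcases p with v | w
  · rw [Set.mem_union, inl_mem_TP, inl_mem_TP, inl_mem_TP, Nat.cast_mul, map_mul]
    constructor
    · intro h
      by_contra hc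
      push Not at hc
      rw [le_antisymm (hle v r) hc.1, le_antisymm (hle v s) hc.2, mul_one] at h
      exact lt_irrefl _ h
    · rintro (h | h)
      · exact mul_lt_one_of_lt_of_le h (hle v s)
      · rw [mul_comm]
        exact mul_lt_one_of_lt_of_le h (hle v r)
  · exact ⟨fun _ => Or.inl inr_mem_TP, fun _ => inr_mem_TP⟩

/-- closeness at all places of `TP F r` implies `Cl` -/
theorem exists_of_cl {r : ℕ} (hr : r ≠ 0) {ρ : ℝ} (hρ : 0 < ρ) : ∃ ε : PlI F → ℝ, (∀ p, 0 < ε p) ∧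
    ∀ x : F, (∀ p ∈ TP F r, pabv p x < ε p) → Cl r ρ x := by
  refine ⟨fun p => match p with
    | .inl v => pabv (Sum.inl v) (r : F)
    | .inr _ => ρ, ?_, fun x hx => ⟨fun v hv => ?_, fun w => hx (Sum.inr w) inr_mem_TP⟩⟩
  · rintro (v | w)
    · exact (pabv (Sum.inl v)).pos (Nat.cast_ne_zero.mpr hr)
    · exact hρ
  · exact ((pabv_lt v _ _).mp (hx (Sum.inl v) hv)).le

/-- `Cl` with a high power implies closeness at all places of `TP F r` -/
theorem exists_cl {r : ℕ} (hr : r ≠ 0) (ε : PlI F → ℝ) (hε : ∀ p, 0 < ε p) :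
    ∃ k : ℕ, k ≠ 0 ∧ ∃ ρ : ℝ, 0 < ρ ∧ ∀ x : F, Cl (r ^ k) ρ x → ∀ p ∈ TP F r, pabv p x < ε p := by
  classical
  have hTf := TP_finite (F := F) hr
  -- the exponents
  have h1 : ∀ p : PlI F, ∃ k : ℕ, ∀ m, k ≤ m → p ∈ TP F r → (∃ v, p = Sum.inl v) →
      pabv p ((r : F) ^ m) < ε p := by
    rintro (v | w)
    · by_cases hv : v.valuation F (r : F) < 1
      · have h2 : pabv (Sum.inl v) (r : F) < 1 := by
          have := (pabv_lt v (r : F) 1).mpr (by rwa [map_one])
          rwa [map_one] at this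
        obtain ⟨k, hk⟩ := exists_pow_lt_of_lt_one (hε (Sum.inl v)) h2
        refine ⟨k, fun m hm _ _ => ?_⟩
        rw [map_pow]
        exact (pow_le_pow_of_le_one ((pabv (Sum.inl v)).nonneg _) h2.le hm).trans_lt hk
      · exact ⟨0, fun m _ h => absurd h hv⟩
    · exact ⟨0, fun m _ _ ⟨v, hv⟩ => absurd hv Sum.inr_ne_inl⟩
  choose k hk using h1
  obtain ⟨K, hK⟩ : ∃ K : ℕ, ∀ p ∈ TP F r, k p ≤ K := by
    obtain ⟨K, hK⟩ := (hTf.image k).bddAbove
    exact ⟨K, fun p hp => hK ⟨p, hp, rfl⟩⟩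
  obtain ⟨ρ, hρ, hρw⟩ : ∃ ρ : ℝ, 0 < ρ ∧ ∀ w : InfinitePlace F, ρ ≤ ε (Sum.inr w) := by
    obtain ⟨w0, hw0⟩ := Finite.exists_min (fun w : InfinitePlace F => ε (Sum.inr w))
    exact ⟨ε (Sum.inr w0), hε _, hw0⟩
  refine ⟨K + 1, Nat.succ_ne_zero _, ρ, hρ, fun x hx p hp => ?_⟩
  rcases p with v | w
  · have h2 := hk (Sum.inl v) (K + 1) ((hK _ hp).trans (Nat.le_succ _)) hp ⟨v, rfl⟩
    refine lt_of_le_of_lt ?_ h2
    rw [pabv_le]
    have h3 := hx.1 v (by
      rw [Nat.cast_pow, map_pow]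
      exact pow_lt_one₀ zero_le (inl_mem_TP.mp hp) (Nat.succ_ne_zero _))
    rwa [Nat.cast_pow] at h3
  · exact (hx.2 w).trans_le (hρw w)

/-! ### Continuity -/

/-- Continuity at a point with respect to an absolute value. -/
def CA {n : ℕ} (A : AbsoluteValue F ℝ) (z : Fin n → F) (f : (Fin n → F) → F) : Prop :=
  ∀ ε : ℝ, 0 < ε → ∃ δ : ℝ, 0 < δ ∧ ∀ u : Fin n → F, (∀ i, A (u i - z i) < δ) → A (f u - f z) < ε

namespace CA

variable {n : ℕ} {A : AbsoluteValue F ℝ} {z : Fin n → F} {f g : (Fin n → F) → F}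

theorem const (c : F) : CA A z fun _ => c := fun ε hε => ⟨1, one_pos, fun u _ => by
  rw [sub_self, map_zero]; exact hε⟩

theorem coord (i : Fin n) : CA A z fun u => u i := fun ε hε => ⟨ε, hε, fun _ hu => hu i⟩

theorem add (hf : CA A z f) (hg : CA A z g) : CA A z fun u => f u + g u := fun ε hε => by
  obtain ⟨δ, hδ, h1⟩ := hf (ε / 2) (half_pos hε)
  obtain ⟨δ', hδ', h2⟩ := hg (ε / 2) (half_pos hε)
  refine ⟨min δ δ', lt_min hδ hδ', fun u hu => ?_⟩
  have e : f u + g u - (f z + g z) = (f u - f z) + (g u - g z) := by ring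
  rw [e]
  have h3 := h1 u fun i => (hu i).trans_le (min_le_left _ _)
  have h4 := h2 u fun i => (hu i).trans_le (min_le_right _ _)
  exact (A.add_le _ _).trans_lt (by linarith)

theorem neg (hf : CA A z f) : CA A z fun u => -f u := fun ε hε => by
  obtain ⟨δ, hδ, h1⟩ := hf ε hε
  refine ⟨δ, hδ, fun u hu => ?_⟩
  have e : -f u - -f z = -(f u - f z) := by ring
  rw [e, AbsoluteValue.map_neg]
  exact h1 u hu

theorem sub (hf : CA A z f) (hg : CA A z g) : CA A z fun u => f u - g u := by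
  simpa only [sub_eq_add_neg] using hf.add hg.neg

theorem mul (hf : CA A z f) (hg : CA A z g) : CA A z fun u => f u * g u := fun ε hε => by
  have hM : 0 < A (f z) + A (g z) + 1 := by
    have := A.nonneg (f z)
    have := A.nonneg (g z)
    linarith
  obtain ⟨δ, hδ, h1⟩ := hf (min 1 (ε / (2 * (A (f z) + A (g z) + 1))))
    (lt_min one_pos (by positivity))
  obtain ⟨δ', hδ', h2⟩ := hg (min 1 (ε / (2 * (A (f z) + A (g z) + 1))))
    (lt_min one_pos (by positivity))
  refine ⟨min δ δ', lt_min hδ hδ', fun u hu => ?_⟩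
  have h3 := h1 u fun i => (hu i).trans_le (min_le_left _ _)
  have h4 := h2 u fun i => (hu i).trans_le (min_le_right _ _)
  have e : f u * g u - f z * g z = (f u - f z) * (g u - g z) + (f u - f z) * g z +
      f z * (g u - g z) := by ring
  rw [e]
  have h5 : A ((f u - f z) * (g u - g z) + (f u - f z) * g z + f z * (g u - g z)) ≤
      A (f u - f z) * A (g u - g z) + A (f u - f z) * A (g z) + A (f z) * A (g u - g z) := by
    refine (A.add_le _ _).trans (add_le_add ((A.add_le _ _).trans (add_le_add ?_ ?_)) ?_) <;>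
      rw [map_mul]
  refine h5.trans_lt ?_
  obtain ⟨M, hMd⟩ : ∃ M, M = A (f z) + A (g z) + 1 := ⟨_, rfl⟩
  rw [← hMd] at hM h3 h4
  obtain ⟨h31, h32⟩ := lt_min_iff.mp h3
  obtain ⟨h41, h42⟩ := lt_min_iff.mp h4
  have n1 := A.nonneg (f u - f z)
  have n2 := A.nonneg (g u - g z)
  have n3 := A.nonneg (f z)
  have n4 := A.nonneg (g z)
  rw [lt_div_iff₀ (by positivity)] at h32 h42
  nlinarith [mul_nonneg n1 n2, mul_nonneg n1 n4, mul_nonneg n3 n2, mul_nonneg n1 n3,
    mul_nonneg n2 n4, mul_le_mul_of_nonneg_left h41.le n1]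

theorem inv (hf : CA A z f) (h0 : f z ≠ 0) : CA A z fun u => (f u)⁻¹ := fun ε hε => by
  have hz : 0 < A (f z) := A.pos h0
  obtain ⟨δ, hδ, h1⟩ := hf (min (A (f z) / 2) (ε * A (f z) ^ 2 / 4)) (lt_min (by positivity)
    (by positivity))
  refine ⟨δ, hδ, fun u hu => ?_⟩
  obtain ⟨h2, h3⟩ := lt_min_iff.mp (h1 u hu)
  have h4 : A (f z) / 2 ≤ A (f u) := by
    have := A.add_le (f u) (-(f u - f z))
    rw [AbsoluteValue.map_neg] at this
    have e : f u + -(f u - f z) = f z := by ring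
    rw [e] at this
    linarith
  have hu0 : f u ≠ 0 := by
    intro h
    rw [h, map_zero] at h4
    linarith
  have e : (f u)⁻¹ - (f z)⁻¹ = -(f u - f z) * ((f u)⁻¹ * (f z)⁻¹) := by
    field_simp
    ring
  rw [e, map_mul, AbsoluteValue.map_neg, map_mul, map_inv₀, map_inv₀]
  have hup : 0 < A (f u) := A.pos hu0
  rw [← mul_inv, ← div_eq_mul_inv, div_lt_iff₀ (by positivity)]
  nlinarith [A.nonneg (f u - f z)]

theorem pow (hf : CA A z f) (m : ℕ) : CA A z fun u => f u ^ m := by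
  induction m with
  | zero => simpa using const (1 : F)
  | succ m ih => simpa only [pow_succ] using ih.mul hf

/-- a strict upper bound persists -/
theorem lt (hf : CA A z f) {M : ℝ} (h : A (f z) < M) :
    ∃ δ : ℝ, 0 < δ ∧ ∀ u : Fin n → F, (∀ i, A (u i - z i) < δ) → A (f u) < M := by
  obtain ⟨δ, hδ, h1⟩ := hf (M - A (f z)) (sub_pos.mpr h)
  refine ⟨δ, hδ, fun u hu => ?_⟩
  have h2 := h1 u hu
  have h3 := A.add_le (f u - f z) (f z)
  rw [sub_add_cancel] at h3
  linarith

/-- a strict lower bound persists -/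
theorem gt (hf : CA A z f) {M : ℝ} (h : M < A (f z)) :
    ∃ δ : ℝ, 0 < δ ∧ ∀ u : Fin n → F, (∀ i, A (u i - z i) < δ) → M < A (f u) := by
  obtain ⟨δ, hδ, h1⟩ := hf (A (f z) - M) (sub_pos.mpr h)
  refine ⟨δ, hδ, fun u hu => ?_⟩
  have h2 := h1 u hu
  have h3 := A.add_le (f u) (-(f u - f z))
  rw [AbsoluteValue.map_neg] at h3
  have e : f u + -(f u - f z) = f z := by ring
  rw [e] at h3
  linarith

end CA

/-- simultaneous weak approximation of vectors -/
theorem approxV {n : ℕ} (T : Set (PlI F)) (hT : T.Finite) (z : PlI F → Fin n → F) (δ : PlI F → ℝ)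
    (hδ : ∀ p, 0 < δ p) : ∃ u : Fin n → F, ∀ p ∈ T, ∀ i, pabv p (u i - z p i) < δ p := by
  choose u hu using fun i => approxI T hT (fun p => z p i) δ hδ
  exact ⟨u, fun p hp i => hu i p hp⟩

end Vale.Agent.P011.MPQ
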