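import Vale.Agent.P011.MPQ.EMain

/-!
# Block E: the reduction of the target to open subgroups
-/

open NumberField IsDedekindDomain
open scoped Quaternion

namespace Vale.Agent.P011.MPQ

open Arith Vale.Agent.P011.Even

section lists

variable {F : Type} [Field F] {a b : F} {e : ℕ}

/-- Products of `e`-th powers of elements which have stereographic coordinates. -/
def IsPw (e : ℕ) (q : ℍ[F,a,b]) : Prop :=
  ∃ l : List (Fin 3 → F), (∀ p ∈ l, 1 + pn a b p ≠ 0) ∧ pw a b e l = q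

theorem IsPw.one : IsPw e (1 : ℍ[F,a,b]) := ⟨[], by simp, by simp [pw]⟩

theorem IsPw.mul {p q : ℍ[F,a,b]} (hp : IsPw e p) (hq : IsPw e q) : IsPw e (p * q) := by
  obtain ⟨l, hl, rfl⟩ := hp
  obtain ⟨m, hm, rfl⟩ := hq
  refine ⟨l ++ m, ?_, ?_⟩
  · intro p hp
    rcases List.mem_append.mp hp with h | h
    · exact hl p h
    · exact hm p h
  · rw [pw, List.map_append, List.prod_append]
    rfl

theorem pn_neg (p : Fin 3 → F) : pn a b (-p) = pn a b p := by
  simp [pn]

theorem star_cf (p : Fin 3 → F) : star (e_cf a b p) = e_cf a b (-p) := by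
  ext <;> simp [e_cf, pn_neg, neg_div]

theorem IsPw.star {q : ℍ[F,a,b]} (hq : IsPw e q) : IsPw e (star q) := by
  obtain ⟨l, hl, rfl⟩ := hq
  induction l with
  | nil => simpa [pw] using IsPw.one
  | cons p l ih =>
    have h1 : pw a b e (p :: l) = e_cf a b p ^ e * pw a b e l := by
      rw [pw, List.map_cons, List.prod_cons]
      rfl
    rw [h1, star_mul]
    refine (ih fun q hq => hl q (List.mem_cons_of_mem _ hq)).mul ⟨[-p], ?_, ?_⟩
    · intro q hq
      rw [List.mem_singleton.mp hq, pn_neg]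
      exact hl p List.mem_cons_self
    · simp [pw, star_pow, star_cf]

theorem isPw_cf {p : Fin 3 → F} (hp : 1 + pn a b p ≠ 0) : IsPw e (e_cf a b p ^ e) :=
  ⟨[p], by simpa using hp, by simp [pw]⟩

end lists

section cl

variable {F : Type} [Field F] {a b : Fˣ} {e : ℕ}

theorem norm_nrd (q : Qt a b) : q * star q = 1 ↔ nrd q = 1 := by
  rw [norm_one_iff]
  rfl

theorem nrd_star (q : Qt a b) : nrd (star q) = nrd q := by
  simp [nrd]

variable [CharZero F]

theorem isPw_pow (hab : Aniso a b) (y : Qt a b) (hy : nrd y = 1) : IsPw e (y ^ e) := by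
  by_cases hre : y.re = -1
  · have h1 : y = -1 := by
      have h2 : nrd (y + 1) = 0 := by
        have h3 : nrd (y + 1) = nrd y + 2 * y.re + 1 := by
          simp only [nrd, QuaternionAlgebra.re_add, QuaternionAlgebra.imI_add,
            QuaternionAlgebra.imJ_add, QuaternionAlgebra.imK_add, QuaternionAlgebra.re_one,
            QuaternionAlgebra.imI_one, QuaternionAlgebra.imJ_one, QuaternionAlgebra.imK_one]
          ring
        rw [h3, hy, hre]
        ring
      exact eq_neg_of_add_eq_zero_left (hab _ h2)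
    have ha1 : 1 - (a : F) ≠ 0 := by
      intro h0
      have h2 : nrd (⟨1, 1, 0, 0⟩ : Qt a b) = 0 := by
        simp only [nrd]
        linear_combination h0
      have h3 := congrArg QuaternionAlgebra.re (hab _ h2)
      simp at h3
    have hp : 1 + pn (a : F) (b : F) ![1, 0, 0] ≠ 0 := by
      have : 1 + pn (a : F) (b : F) ![1, 0, 0] = 1 - (a : F) := by
        simp [pn]
        ring
      rw [this]
      exact ha1
    set y0 : Qt a b := e_cf (a : F) (b : F) ![1, 0, 0] with hy0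
    have h2 : y0 * star y0 = 1 := cf_norm hp
    have hre' : (-star y0).re ≠ -1 := by
      have hpn : pn (a : F) (b : F) ![1, 0, 0] = -(a : F) := by
        simp [pn]
      have hre0 : (-star y0).re = -((1 + (a : F)) / (1 - (a : F))) := by
        rw [hy0, QuaternionAlgebra.re_neg, QuaternionAlgebra.re_star, zero_mul, add_zero]
        simp only [e_cf]
        rw [hpn, sub_neg_eq_add, ← sub_eq_add_neg]
      rw [hre0]
      intro h0
      rw [neg_inj, div_eq_one_iff_eq ha1] at h0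
      have h6 : (a : F) ≠ 0 := a.ne_zero
      have h7 : (2 : F) * a = 0 := by linear_combination h0
      rcases mul_eq_zero.mp h7 with h8 | h8
      · exact absurd h8 two_ne_zero
      · exact h6 h8
    have h3 : (-star y0) * star (-star y0) = 1 := by
      rw [star_neg, star_star, neg_mul_neg]
      rw [norm_nrd] at h2
      have h4 := nrd_star y0
      rw [h2, ← norm_nrd, star_star] at h4
      exact h4
    obtain ⟨p, hp2, hp3⟩ := exists_cf h3 hre'
    have h4 : y ^ e = y0 ^ e * (-star y0) ^ e := by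
      have hcomm : Commute y0 (-star y0) := by
        apply Commute.neg_right
        have h5 : star y0 * y0 = 1 := by
          have := h3
          rw [star_neg, star_star, neg_mul_neg] at this
          exact this
        exact h2.trans h5.symm
      rw [← hcomm.mul_pow, mul_neg, h2, h1]
    rw [h4]
    refine (isPw_cf hp).mul ?_
    have h5 := isPw_cf (e := e) hp2
    rwa [hp3] at h5
  · obtain ⟨p, hp, hpy⟩ := exists_cf ((norm_nrd y).mpr hy) hre
    have h5 := isPw_cf (e := e) hp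
    rwa [hpy] at h5

omit [CharZero F] in
theorem coe_inv_sl (g : SL1 a b) : (((g⁻¹ : SL1 a b) : (Qt a b)ˣ) : Qt a b) =
    star (((g : SL1 a b) : (Qt a b)ˣ) : Qt a b) := by
  have h1 : nrd (((g : SL1 a b) : (Qt a b)ˣ) : Qt a b) = 1 := g.2
  rw [← norm_nrd] at h1
  rw [Subgroup.coe_inv]
  exact Units.inv_eq_of_mul_eq_one_right h1

theorem closure_pw (hab : Aniso a b) (h : SL1 a b)
    (hh : h ∈ Subgroup.closure {x : SL1 a b | ∃ y : SL1 a b, x = y ^ e}) :
    IsPw e (((h : SL1 a b) : (Qt a b)ˣ) : Qt a b) := by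
  induction hh using Subgroup.closure_induction with
  | mem x hx =>
    obtain ⟨y, rfl⟩ := hx
    exact isPw_pow hab _ y.2
  | one => exact IsPw.one
  | mul x y _ _ hx hy => exact hx.mul hy
  | inv x _ hx =>
    rw [coe_inv_sl]
    exact hx.star

omit [CharZero F] in
theorem exists_mem_pw (N : Subgroup (SL1 a b)) (hexp : ∀ g : SL1 a b, g ^ e ∈ N)
    {q : Qt a b} (hq : IsPw e q) : ∃ H ∈ N, (((H : SL1 a b) : (Qt a b)ˣ) : Qt a b) = q := by
  obtain ⟨l, hl, rfl⟩ := hq
  induction l with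
  | nil => exact ⟨1, N.one_mem, by simp [pw]⟩
  | cons p l ih =>
    obtain ⟨H, hH, hH2⟩ := ih fun q hq => hl q (List.mem_cons_of_mem _ hq)
    have hp := hl p List.mem_cons_self
    have h1 := cf_norm hp
    have h2 : star (e_cf (a : F) (b : F) p) * e_cf (a : F) (b : F) p = 1 := by
      have h3 : nrd (a := a) (b := b) (e_cf (a : F) (b : F) p) = 1 := (norm_nrd _).mp h1
      rw [← nrd_star, ← norm_nrd, star_star] at h3
      exact h3
    let u : SL1 a b := ⟨⟨e_cf (a : F) (b : F) p, star (e_cf (a : F) (b : F) p), h1, h2⟩,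
      (norm_nrd _).mp h1⟩
    refine ⟨u ^ e * H, N.mul_mem (hexp u) hH, ?_⟩
    have h4 : (((u ^ e * H : SL1 a b) : (Qt a b)ˣ) : Qt a b) =
        e_cf (a : F) (b : F) p ^ e * (((H : SL1 a b) : (Qt a b)ˣ) : Qt a b) := by
      rw [Subgroup.coe_mul, Units.val_mul, Subgroup.coe_pow, Units.val_pow_eq_pow_val]
    rw [h4, hH2]
    simp only [pw, List.map_cons, List.prod_cons]

end cl

section main

variable {F : Type} [Field F] [NumberField F] {a b : Fˣ}

theorem mapQ_pw_ofFn {R S : Type} [Field R] [Field S] {a b : R} (f : R →+* S) (e : ℕ) {m : ℕ}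
    (P : Fin m → Fin 3 → R) : mapQ f (pw a b e (List.ofFn P)) =
      pw (f a) (f b) e (List.ofFn fun i j => f (P i j)) := by
  rw [mapQ_pw, List.map_ofFn]
  rfl

/-- Local solution at a finite place. -/
theorem local_fin (hab : Aniso a b) {e : ℕ} (he : 0 < e) (g : SL1 a b)
    (hg : ∀ w : HeightOneSpectrum (𝓞 F), Ram a b w → ∀ ε : Z0, ε ≠ 0 →
      ∃ h ∈ Subgroup.closure {x : SL1 a b | ∃ y : SL1 a b, x = y ^ e},
        w.valuation F (nrd (((g : (Qt a b)ˣ) : Qt a b) - ((h : (Qt a b)ˣ) : Qt a b))) < ε)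
    (v : HeightOneSpectrum (𝓞 F)) {ε : ℝ} (hε : 0 < ε) :
    ∃ l : List (Fin 3 → v.adicCompletion F), (∀ p ∈ l, 1 + pn (iv v a) (iv v b) p ≠ 0) ∧
      Sm ε (mapQ (iv v) ((g : (Qt a b)ˣ) : Qt a b) * star (pw (iv v a) (iv v b) e l) - 1) := by
  by_cases hv : Ram a b v
  · obtain ⟨γ, hγ0, hγ⟩ := ram_bound v hv hε
    obtain ⟨h, hh, hlt⟩ := hg v hv γ hγ0
    obtain ⟨l, hl, hl2⟩ := closure_pw hab h hh
    refine ⟨l.map fun p i => iv v (p i), ?_, ?_⟩
    · intro p hp
      obtain ⟨p', hp', rfl⟩ := List.mem_map.mp hp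
      rw [pn_map, ← map_one (iv v), ← map_add]
      exact (map_ne_zero _).mpr (hl p' hp')
    · rw [← mapQ_pw, hl2, ← mapQ_star, ← map_mul, ← map_one (mapQ (iv v)), ← map_sub]
      apply hγ
      have h1 : nrd (((h : (Qt a b)ˣ) : Qt a b)) = 1 := h.2
      have h2 := (norm_nrd _).mpr h1
      have h3 : ((g : (Qt a b)ˣ) : Qt a b) * star ((h : (Qt a b)ˣ) : Qt a b) - 1 =
          (((g : (Qt a b)ˣ) : Qt a b) - ((h : (Qt a b)ˣ) : Qt a b)) *
            star ((h : (Qt a b)ˣ) : Qt a b) := by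
        rw [sub_mul, h2]
      rw [h3, nrd_mul, nrd_star, h1, mul_one]
      exact hlt
  · obtain ⟨l, hl, hl2⟩ := allPow_fin v hv he.ne' (mapQ (iv v) ((g : (Qt a b)ˣ) : Qt a b)) (by
      rw [← mapQ_star, ← map_mul, (norm_nrd _).mpr g.2, map_one])
    refine ⟨l, hl, ?_⟩
    rw [hl2, ← mapQ_star, ← map_mul, (norm_nrd _).mpr g.2, map_one, sub_self]
    simp [Sm, hε]

omit [NumberField F] in
/-- Local solution at an infinite place. -/
theorem local_inf {e : ℕ} (he : 0 < e) (g : SL1 a b) (w : InfinitePlace F) {ε : ℝ} (hε : 0 < ε) :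
    ∃ l : List (Fin 3 → w.Completion), (∀ p ∈ l, 1 + pn (iw w a) (iw w b) p ≠ 0) ∧
      Sm ε (mapQ (iw w) ((g : (Qt a b)ˣ) : Qt a b) * star (pw (iw w a) (iw w b) e l) - 1) := by
  obtain ⟨l, hl, hl2⟩ := allPow_inf w a b he.ne' (mapQ (iw w) ((g : (Qt a b)ˣ) : Qt a b)) (by
    rw [← mapQ_star, ← map_mul, (norm_nrd _).mpr g.2, map_one])
  refine ⟨l, hl, ?_⟩
  rw [hl2, ← mapQ_star, ← map_mul, (norm_nrd _).mpr g.2, map_one, sub_self]
  simp [Sm, hε]

/-- The reduction of the target to open subgroups. -/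
theorem mpq_of_open (a b : Fˣ) (hab : Aniso a b) (N : Subgroup (SL1 a b))
    (hopen : ∃ r : ℕ, r ≠ 0 ∧ ∃ ρ : ℝ, 0 < ρ ∧ ∀ x : SL1 a b,
      ClQ r ρ ((x : (Qt a b)ˣ) : Qt a b) → x ∈ N)
    (e : ℕ) (he : 0 < e) (hexp : ∀ g : SL1 a b, g ^ e ∈ N) (g : SL1 a b)
    (hg : ∀ w : HeightOneSpectrum (𝓞 F), Ram a b w → ∀ ε : Z0, ε ≠ 0 →
      ∃ h ∈ Subgroup.closure {x : SL1 a b | ∃ y : SL1 a b, x = y ^ e},
        w.valuation F (nrd (((g : (Qt a b)ˣ) : Qt a b) - ((h : (Qt a b)ˣ) : Qt a b))) < ε) :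
    g ∈ N := by
  obtain ⟨r, hr, ρ, hρ, hN⟩ := hopen
  have hr' : (r : F) ≠ 0 := Nat.cast_ne_zero.mpr hr
  have hS : {v : HeightOneSpectrum (𝓞 F) | v.valuation F (r : F) < 1}.Finite :=
    (finite_ne_one (Units.mk0 (r : F) hr')).subset fun v hv => ne_of_lt hv
  have hε : ∀ v : HeightOneSpectrum (𝓞 F), 0 < ‖iv v (r : F)‖ := fun v =>
    norm_pos_iff.mpr ((map_ne_zero _).mpr hr')
  choose l hl hl2 using fun v => local_fin hab he g hg v (hε v)
  choose l' hl' hl2' using fun w => local_inf he g w hρ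
  obtain ⟨m, hm, hm'⟩ : ∃ m : ℕ, (∀ v ∈ {v : HeightOneSpectrum (𝓞 F) |
      v.valuation F (r : F) < 1}, (l v).length ≤ m) ∧ ∀ w, (l' w).length ≤ m := by
    obtain ⟨m1, h1⟩ := (hS.image fun v => (l v).length).bddAbove
    obtain ⟨m2, h2⟩ := (Set.finite_range fun w => (l' w).length).bddAbove
    exact ⟨max m1 m2, fun v hv => (h1 (Set.mem_image_of_mem _ hv)).trans (le_max_left _ _),
      fun w => (h2 (Set.mem_range_self w)).trans (le_max_right _ _)⟩
  have hP : ∀ v : HeightOneSpectrum (𝓞 F), ∃ P : Fin m → Fin 3 → v.adicCompletion F,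
      (∀ i, 1 + pn (iv v a) (iv v b) (P i) ≠ 0) ∧ (v.valuation F (r : F) < 1 →
        Sm ‖iv v (r : F)‖ (mapQ (iv v) ((g : (Qt a b)ˣ) : Qt a b) *
          star (pw (iv v a) (iv v b) e (List.ofFn P)) - 1)) := by
    intro v
    by_cases hv : v.valuation F (r : F) < 1
    · obtain ⟨P, hP1, hP2⟩ := exists_pad (e := e) (l v) (hl v) (hm v hv)
      refine ⟨P, hP1, fun _ => ?_⟩
      rw [hP2]
      exact hl2 v
    · exact ⟨fun _ => 0, fun i => by simp [pn], fun h => absurd h hv⟩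
  choose P hP1 hP2 using hP
  have hP' : ∀ w : InfinitePlace F, ∃ P : Fin m → Fin 3 → w.Completion,
      (∀ i, 1 + pn (iw w a) (iw w b) (P i) ≠ 0) ∧
        Sm ρ (mapQ (iw w) ((g : (Qt a b)ˣ) : Qt a b) *
          star (pw (iw w a) (iw w b) e (List.ofFn P)) - 1) := by
    intro w
    obtain ⟨P, hP1, hP2⟩ := exists_pad (e := e) (l' w) (hl' w) (hm' w)
    refine ⟨P, hP1, ?_⟩
    rw [hP2]
    exact hl2' w
  choose P' hP1' hP2' using hP'
  have hd : ∀ v : HeightOneSpectrum (𝓞 F), ∃ δ : ℝ, 0 < δ ∧ (v.valuation F (r : F) < 1 →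
      ∀ Q : Fin m → Fin 3 → v.adicCompletion F, (∀ i j, ‖Q i j - P v i j‖ < δ) →
        Sm ‖iv v (r : F)‖ (mapQ (iv v) ((g : (Qt a b)ˣ) : Qt a b) *
          star (pw (iv v a) (iv v b) e (List.ofFn Q)) - 1)) := by
    intro v
    by_cases hv : v.valuation F (r : F) < 1
    · obtain ⟨δ, hδ, h⟩ := exists_delta e _ (P v) (hP1 v) (hP2 v hv)
      exact ⟨δ, hδ, fun _ Q hQ => (h Q hQ).2⟩
    · exact ⟨1, one_pos, fun h => absurd h hv⟩
  choose δ hδ hδ2 using hd
  choose δ' hδ' hδ2' using fun w => exists_delta e _ (P' w) (hP1' w) (hP2' w)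
  choose f hf1 hf2 using fun (i : Fin m) (j : Fin 3) =>
    approx_all hS (fun v => P v i j) δ hδ (fun w => P' w i j) δ' hδ'
  have hf0 : ∀ i, 1 + pn (a : F) (b : F) (f i) ≠ 0 := by
    intro i
    obtain ⟨w⟩ := (inferInstance : Nonempty (InfinitePlace F))
    have h1 := (hδ2' w (fun i j => iw w (f i j)) (fun i j => hf2 i j w)).1 i
    rw [pn_map, ← map_one (iw w), ← map_add] at h1
    exact fun h0 => h1 (by rw [h0, map_zero])
  obtain ⟨H, hHN, hH⟩ := exists_mem_pw N hexp (q := pw (a : F) (b : F) e (List.ofFn f))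
    ⟨List.ofFn f, by
      intro p hp
      obtain ⟨i, rfl⟩ := List.mem_ofFn.mp hp
      exact hf0 i, rfl⟩
  have key : g * H⁻¹ ∈ N := by
    apply hN
    have hq : (((g * H⁻¹ : SL1 a b) : (Qt a b)ˣ) : Qt a b) =
        ((g : (Qt a b)ˣ) : Qt a b) * star (pw (a : F) (b : F) e (List.ofFn f)) := by
      rw [Subgroup.coe_mul, Units.val_mul, coe_inv_sl, hH]
    rw [hq]
    set q := ((g : (Qt a b)ˣ) : Qt a b) * star (pw (a : F) (b : F) e (List.ofFn f)) with hqd
    have h1 : ∀ v : HeightOneSpectrum (𝓞 F), v.valuation F (r : F) < 1 →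
        Sm ‖iv v (r : F)‖ (mapQ (iv v) (q - 1)) := by
      intro v hv
      have h2 := hδ2 v hv (fun i j => iv v (f i j)) (fun i j => hf1 i j v hv)
      rwa [← mapQ_pw_ofFn, ← mapQ_star, ← map_mul, ← map_one (mapQ (iv v)), ← map_sub] at h2
    have h2 : ∀ w : InfinitePlace F, Sm ρ (mapQ (iw w) (q - 1)) := by
      intro w
      have h2 := (hδ2' w (fun i j => iw w (f i j)) (fun i j => hf2 i j w)).2
      rwa [← mapQ_pw_ofFn, ← mapQ_star, ← map_mul, ← map_one (mapQ (iw w)), ← map_sub] at h2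
    have h3 : ∀ (v : HeightOneSpectrum (𝓞 F)) (x : F), ‖iv v x‖ < ‖iv v (r : F)‖ →
        v.valuation F x ≤ v.valuation F (r : F) := by
      intro v x hx
      rw [norm_lt_iff, valued_alg, valued_alg] at hx
      exact hx.le
    have e0 : (q - 1).re = q.re - 1 := rfl
    have e1 : (q - 1).imI = q.imI := by simp
    have e2 : (q - 1).imJ = q.imJ := by simp
    have e3 : (q - 1).imK = q.imK := by simp
    refine ⟨⟨fun v hv => h3 v _ ?_, fun w => ?_⟩, ⟨fun v hv => h3 v _ ?_, fun w => ?_⟩,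
      ⟨fun v hv => h3 v _ ?_, fun w => ?_⟩, ⟨fun v hv => h3 v _ ?_, fun w => ?_⟩⟩
    · have h4 := (h1 v hv).1
      rwa [mapQ_apply, e0] at h4
    · have h4 := (h2 w).1
      rwa [mapQ_apply, e0, norm_iw] at h4
    · have h4 := (h1 v hv).2.1
      rwa [mapQ_apply, e1] at h4
    · have h4 := (h2 w).2.1
      rwa [mapQ_apply, e1, norm_iw] at h4
    · have h4 := (h1 v hv).2.2.1
      rwa [mapQ_apply, e2] at h4
    · have h4 := (h2 w).2.2.1
      rwa [mapQ_apply, e2, norm_iw] at h4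
    · have h4 := (h1 v hv).2.2.2
      rwa [mapQ_apply, e3] at h4
    · have h4 := (h2 w).2.2.2
      rwa [mapQ_apply, e3, norm_iw] at h4
  have := N.mul_mem key hHN
  rwa [inv_mul_cancel_right] at this

end main

end Vale.Agent.P011.MPQ
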