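import Vale.Agent.P011.MPQ.FGFin

/-!
The norm-one group of the quaternions which are integral outside `M` is finitely generated.
-/

open NumberField IsDedekindDomain

namespace Vale.Agent.P011.MPQ.FG

open Arith

section trans

variable {F : Type} [Field F] {a b : Fˣ} (f : AbsoluteValue F ℝ)

/-- Transition between the norm-one parts. -/
theorem transition {D : ℝ} {x y θ θ' δ δ' : (Qt a b)ˣ} {ε ε' : Fˣ}
    (h : szv f ((x⁻¹ * y : (Qt a b)ˣ) : Qt a b) ^ 2 ≤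
      D * f (nrd ((x⁻¹ * y : (Qt a b)ˣ) : Qt a b)))
    (hx : x = θ * δ * scU a b ε) (hy : y = θ' * δ' * scU a b ε') (hθ : nrdU a b θ = 1)
    (hθ' : nrdU a b θ' = 1) :
    szv f ((θ⁻¹ * θ' : (Qt a b)ˣ) : Qt a b) ^ 2 ≤
      (Kc f a b ^ 2 * szv f (δ : Qt a b) * szv f ((δ'⁻¹ : (Qt a b)ˣ) : Qt a b)) ^ 2 * D *
        (f (nrd (δ' : Qt a b)) / f (nrd (δ : Qt a b))) := by
  set z : (Qt a b)ˣ := x⁻¹ * y with hz
  have hK := one_le_Kc f (a := a) (b := b)
  have hK0 : 0 ≤ Kc f a b := zero_le_one.trans hK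
  have e1 : ((θ⁻¹ * θ' : (Qt a b)ˣ) : Qt a b) =
      ((ε : F) / ε') • ((δ : Qt a b) * (z : Qt a b) * ((δ'⁻¹ : (Qt a b)ˣ) : Qt a b)) := by
    have h1 : θ⁻¹ * θ' = δ * scU a b ε * z * (scU a b ε')⁻¹ * δ'⁻¹ := by
      rw [hz, hx, hy]
      group
    have h2 : (((scU a b ε')⁻¹ : (Qt a b)ˣ) : Qt a b) = ((ε' : F)⁻¹) • (1 : Qt a b) := by
      rw [← map_inv, scU_coe, Units.val_inv_eq_inv_val]
    rw [h1]
    simp only [Units.val_mul]
    rw [scU_coe, h2]
    simp only [mul_smul_comm, smul_mul_assoc, mul_one, smul_smul]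
    congr 1
    rw [div_eq_mul_inv, mul_comm]
  have e2 : f ((ε : F) / ε') ^ 2 * f (nrd (z : Qt a b)) =
      f (nrd (δ' : Qt a b)) / f (nrd (δ : Qt a b)) := by
    have h1 : nrdU a b z = (nrdU a b x)⁻¹ * nrdU a b y := by rw [hz, map_mul, map_inv]
    have hsc : ∀ η : Fˣ, nrdU a b (scU a b η) = η ^ 2 := by
      intro η
      ext
      rw [nrdU_coe, scU_coe, nrd_smul, nrd_one, mul_one, Units.val_pow_eq_pow_val]
    have h2 : nrdU a b x = nrdU a b δ * ε ^ 2 := by rw [hx, map_mul, map_mul, hθ, one_mul, hsc]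
    have h3 : nrdU a b y = nrdU a b δ' * ε' ^ 2 := by rw [hy, map_mul, map_mul, hθ', one_mul, hsc]
    have h4 : ((ε : F) / ε') ^ 2 * nrd (z : Qt a b) = nrd (δ' : Qt a b) / nrd (δ : Qt a b) := by
      rw [← nrdU_coe, h1, h2, h3]
      push_cast
      rw [nrdU_coe, nrdU_coe]
      have := ε.ne_zero
      have := ε'.ne_zero
      have := nrd_unit_ne δ
      field_simp
    rw [← map_div₀, ← h4, map_mul, map_pow]
  have h5 : szv f ((δ : Qt a b) * (z : Qt a b) * ((δ'⁻¹ : (Qt a b)ˣ) : Qt a b)) ≤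
      Kc f a b ^ 2 * szv f (δ : Qt a b) * szv f ((δ'⁻¹ : (Qt a b)ˣ) : Qt a b) *
        szv f (z : Qt a b) := by
    refine (szv_mul_le f _ _).trans ?_
    have h6 := mul_le_mul_of_nonneg_right (szv_mul_le f (δ : Qt a b) (z : Qt a b))
      (szv_nonneg f ((δ'⁻¹ : (Qt a b)ˣ) : Qt a b))
    refine (mul_le_mul_of_nonneg_left h6 hK0).trans (le_of_eq (by ring))
  rw [e1, szv_smul, mul_pow]
  have h7 : szv f ((δ : Qt a b) * (z : Qt a b) * ((δ'⁻¹ : (Qt a b)ˣ) : Qt a b)) ^ 2 ≤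
      (Kc f a b ^ 2 * szv f (δ : Qt a b) * szv f ((δ'⁻¹ : (Qt a b)ˣ) : Qt a b)) ^ 2 *
        (D * f (nrd (z : Qt a b))) := by
    refine (pow_le_pow_left₀ (szv_nonneg f _) h5 2).trans ?_
    rw [mul_pow]
    exact mul_le_mul_of_nonneg_left h (sq_nonneg _)
  calc f ((ε : F) / ε') ^ 2 *
        szv f ((δ : Qt a b) * (z : Qt a b) * ((δ'⁻¹ : (Qt a b)ˣ) : Qt a b)) ^ 2
      ≤ f ((ε : F) / ε') ^ 2 * ((Kc f a b ^ 2 * szv f (δ : Qt a b) *
        szv f ((δ'⁻¹ : (Qt a b)ˣ) : Qt a b)) ^ 2 * (D * f (nrd (z : Qt a b)))) :=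
        mul_le_mul_of_nonneg_left h7 (sq_nonneg _)
    _ = (Kc f a b ^ 2 * szv f (δ : Qt a b) * szv f ((δ'⁻¹ : (Qt a b)ˣ) : Qt a b)) ^ 2 * D *
        (f ((ε : F) / ε') ^ 2 * f (nrd (z : Qt a b))) := by ring
    _ = _ := by rw [e2]

end trans

section fin

variable {F : Type} [Field F] [NumberField F] {a b : Fˣ}

/-- Quaternions which are integral outside `M` and bounded at the relevant places. -/
theorem finite_bounded' (a b : Fˣ) (M : ℕ) (hM : M ≠ 0)
    (B : HeightOneSpectrum (𝓞 F) ⊕ InfinitePlace F → ℝ) :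
    {x : Qt a b | IntQ (SM F M) x ∧ ∀ p ∈ TM F M, szv (pabv p) x ≤ B p}.Finite := by
  classical
  have hS := finite_SM (F := F) M hM
  have hM' : (M : F) ≠ 0 := by exact_mod_cast hM
  obtain ⟨k, hk⟩ : ∃ k : ℕ, ∀ v ∈ SM F M, (pabv (.inl v) (M : F)) ^ k * B (.inl v) ≤ 1 := by
    have h : ∀ v ∈ SM F M, ∀ᶠ k : ℕ in Filter.atTop,
        (pabv (.inl v) (M : F)) ^ k * B (.inl v) ≤ 1 := by
      intro v hv
      have h1 : pabv (.inl v) (M : F) < 1 :=
        (pabv_inl_lt_one v _).mpr (lt_of_le_of_ne (val_nat_le v M) hv)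
      have h2 := (tendsto_pow_atTop_nhds_zero_of_lt_one ((pabv (.inl v)).nonneg _) h1).mul_const
        (B (.inl v))
      rw [zero_mul] at h2
      exact h2.eventually (eventually_le_nhds one_pos)
    exact ((Filter.eventually_all_finite hS).mpr h).exists
  let B' : ℝ := ∑ w : InfinitePlace F, pabv (.inr w) ((M : F) ^ k) * |B (.inr w)|
  have hg : Function.Injective fun x : Qt a b => (M : F) ^ k • x := fun x y h =>
    smul_right_injective _ (pow_ne_zero k hM') h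
  refine ((finite_bounded a b B').preimage hg.injOn).subset ?_
  rintro x ⟨h1, h2⟩
  refine ⟨intQ_empty (IntQ.smul ((IntF.nat M).pow k) h1) fun v hv => ?_, fun w => ?_⟩
  · change szv (pabv (.inl v)) ((M : F) ^ k • x) ≤ 1
    rw [szv_smul, map_pow]
    refine le_trans (mul_le_mul_of_nonneg_left (h2 (.inl v) (Or.inl ⟨v, hv, rfl⟩)) ?_) (hk v hv)
    exact pow_nonneg ((pabv (.inl v)).nonneg _) k
  · change szv (pabv (.inr w)) ((M : F) ^ k • x) ≤ B'
    rw [szv_smul]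
    have h3 : pabv (.inr w) ((M : F) ^ k) * szv (pabv (.inr w)) x ≤
        pabv (.inr w) ((M : F) ^ k) * |B (.inr w)| :=
      mul_le_mul_of_nonneg_left ((h2 (.inr w) (Or.inr ⟨w, rfl⟩)).trans (le_abs_self _))
        ((pabv (.inr w)).nonneg _)
    refine h3.trans ?_
    exact Finset.single_le_sum (f := fun w : InfinitePlace F =>
      pabv (.inr w) ((M : F) ^ k) * |B (.inr w)|)
      (fun w _ => mul_nonneg ((pabv (.inr w)).nonneg _) (abs_nonneg _)) (Finset.mem_univ w)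

/-- I1. The norm-one group is finitely generated if `M` is sufficiently divisible. -/
theorem gam_fg (a b : Fˣ) (hab : Aniso a b) : ∃ M₀ : ℕ, M₀ ≠ 0 ∧ ∀ M : ℕ, M ≠ 0 → M₀ ∣ M →
    ∀ hA : Adm a b (SM F M), (Gam a b (SM F M) hA).FG := by
  classical
  obtain ⟨M₀, hM₀, hgood⟩ := exists_good4 a b
  refine ⟨M₀, hM₀, fun M hM hdvd hA => ?_⟩
  obtain ⟨ρ, r₀, H₀, hG⟩ := hgood M hM hdvd
  obtain ⟨C, hC, hred⟩ := exists_red hab hG hA
  obtain ⟨Δ, hΔ, hΔ1, hΔi, hΔr⟩ := exists_reps (a := a) (b := b) M hM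
  -- the bound
  have hB : ∀ p : HeightOneSpectrum (𝓞 F) ⊕ InfinitePlace F, ∃ B : ℝ, ∀ δ ∈ Δ, ∀ δ' ∈ Δ,
      (Kc (pabv p) a b ^ 2 * szv (pabv p) (δ : Qt a b) *
        szv (pabv p) ((δ'⁻¹ : (Qt a b)ˣ) : Qt a b)) ^ 2 * (4 * Ec (pabv p) a b ^ 2 * C p ^ 2) *
        (pabv p (nrd (δ' : Qt a b)) / pabv p (nrd (δ : Qt a b))) ≤ B := by
    intro p
    have hfin := (hΔ.prod hΔ).image (fun q : (Qt a b)ˣ × (Qt a b)ˣ =>
      (Kc (pabv p) a b ^ 2 * szv (pabv p) (q.1 : Qt a b) *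
        szv (pabv p) ((q.2⁻¹ : (Qt a b)ˣ) : Qt a b)) ^ 2 * (4 * Ec (pabv p) a b ^ 2 * C p ^ 2) *
        (pabv p (nrd (q.2 : Qt a b)) / pabv p (nrd (q.1 : Qt a b))))
    obtain ⟨B, hB⟩ := hfin.bddAbove
    exact ⟨B, fun δ hδ δ' hδ' => hB ⟨(δ, δ'), ⟨hδ, hδ'⟩, rfl⟩⟩
  choose B hB using hB
  let X : Set (Qt a b)ˣ := {g | g ∈ Gam a b (SM F M) hA ∧
    ∀ p ∈ TM F M, szv (pabv p) (g : Qt a b) ^ 2 ≤ B p}
  have hXfin : X.Finite := by
    refine ((finite_bounded' a b M hM fun p => 1 + |B p|).preimage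
      (Units.val_injective (α := Qt a b)).injOn).subset ?_
    rintro g ⟨h1, h2⟩
    refine ⟨(mem_Gam.mp h1).2, fun p hp => ?_⟩
    have h3 := h2 p hp
    have h4 := le_abs_self (B p)
    have h5 := szv_nonneg (pabv p) (g : Qt a b)
    by_contra h6
    rw [not_le] at h6
    nlinarith [abs_nonneg (B p)]
  have hXle : Subgroup.closure X ≤ Gam a b (SM F M) hA := (Subgroup.closure_le _).mpr fun g hg => hg.1
  -- decomposition
  have hdec : ∀ x : (Qt a b)ˣ, IntQ (SM F M) (x : Qt a b) →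
      IntQ (SM F M) ((x⁻¹ : (Qt a b)ˣ) : Qt a b) → ∃ θ ∈ Gam a b (SM F M) hA, ∃ δ ∈ Δ, ∃ ε : Fˣ,
        x = θ * δ * scU a b ε := by
    intro x h1 h2
    have hval : ∀ v ∉ SM F M, v.valuation F (nrd (x : Qt a b)) = 1 := by
      intro v hv
      have h3 := (h1.nrd hA) v hv
      have h4 := (h2.nrd hA) v hv
      have h5 : nrd (x : Qt a b) * nrd ((x⁻¹ : (Qt a b)ˣ) : Qt a b) = 1 := by
        rw [← nrd_mul, Units.mul_inv, nrd_one]
      have h6 : v.valuation F (nrd (x : Qt a b)) *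
          v.valuation F (nrd ((x⁻¹ : (Qt a b)ˣ) : Qt a b)) = 1 := by
        rw [← map_mul, h5, map_one]
      exact eq_one_of_one_le_mul_left h3 h4 h6.ge
    obtain ⟨δ, hδ, ε, hε⟩ := hΔr x hval h1 h2
    have hsc : ∀ η : Fˣ, nrdU a b (scU a b η) = η ^ 2 := by
      intro η
      ext
      rw [nrdU_coe, scU_coe, nrd_smul, nrd_one, mul_one, Units.val_pow_eq_pow_val]
    have hvε : ∀ v ∉ SM F M, v.valuation F (ε : F) = 1 := by
      intro v hv
      have h3 : v.valuation F (nrd (δ : Qt a b)) = 1 := by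
        have h3 := ((hΔi δ hδ).1.nrd hA) v hv
        have h4 := ((hΔi δ hδ).2.nrd hA) v hv
        have h5 : nrd (δ : Qt a b) * nrd ((δ⁻¹ : (Qt a b)ˣ) : Qt a b) = 1 := by
          rw [← nrd_mul, Units.mul_inv, nrd_one]
        have h6 : v.valuation F (nrd (δ : Qt a b)) *
            v.valuation F (nrd ((δ⁻¹ : (Qt a b)ˣ) : Qt a b)) = 1 := by
          rw [← map_mul, h5, map_one]
        exact eq_one_of_one_le_mul_left h3 h4 h6.ge
      have h4 : nrd (x : Qt a b) = nrd (δ : Qt a b) * (ε : F) ^ 2 := by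
        rw [← nrdU_coe, hε, Units.val_mul, nrdU_coe, Units.val_pow_eq_pow_val]
      have h5 := hval v hv
      rw [h4, map_mul, h3, one_mul, map_pow] at h5
      exact (pow_eq_one_iff_of_nonneg zero_le two_ne_zero).mp h5
    refine ⟨x * (scU a b ε)⁻¹ * δ⁻¹, ?_, δ, hδ, ε, ?_⟩
    · rw [mem_Gam]
      constructor
      · have h3 : nrdU a b (x * (scU a b ε)⁻¹ * δ⁻¹) = 1 := by
          rw [map_mul, map_mul, map_inv, map_inv, hsc, hε, mul_inv_cancel_right, mul_inv_cancel]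
        have h4 := congrArg (Units.val) h3
        rwa [nrdU_coe] at h4
      · have h3 : ((x * (scU a b ε)⁻¹ * δ⁻¹ : (Qt a b)ˣ) : Qt a b) =
            ((ε : F)⁻¹) • ((x : Qt a b) * ((δ⁻¹ : (Qt a b)ˣ) : Qt a b)) := by
          rw [Units.val_mul, Units.val_mul, ← map_inv, scU_coe, Units.val_inv_eq_inv_val,
            mul_smul_comm, mul_one, smul_mul_assoc]
        rw [h3]
        refine IntQ.smul (fun v hv => ?_) (h1.mul hA (hΔi δ hδ).2)
        rw [map_inv₀, hvε v hv, inv_one]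
    · have hcomm : ∀ z : (Qt a b)ˣ, (scU a b ε)⁻¹ * z = z * (scU a b ε)⁻¹ := by
        intro z
        ext1
        rw [Units.val_mul, Units.val_mul, ← map_inv, scU_coe, smul_mul_assoc, one_mul,
          mul_smul_comm, mul_one]
      rw [mul_assoc x, hcomm, mul_assoc, mul_assoc, mul_assoc]
      rw [← mul_assoc δ⁻¹ ((scU a b ε)⁻¹)]
      rw [← hcomm δ⁻¹]
      simp [mul_assoc, hcomm]
  -- the chain
  have main : ∀ u ∈ Gam a b (SM F M) hA, u ∈ Subgroup.closure X := by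
    intro u hu
    have hu1 : nrd (u : Qt a b) = 1 := (mem_Gam.mp hu).1
    have hu2 := (mem_Gam.mp hu).2
    have hui := (mem_Gam.mp (inv_mem hu)).2
    obtain ⟨K, hK⟩ : ∃ K : ℕ, ∀ p ∈ TM F M, szv (pabv p) (u : Qt a b) ≤ 2 ^ K := by
      have h : ∀ p ∈ TM F M, ∀ᶠ k : ℕ in Filter.atTop, szv (pabv p) (u : Qt a b) ≤ 2 ^ k := by
        intro p _
        exact (tendsto_pow_atTop_atTop_of_one_lt (one_lt_two (α := ℝ))).eventually_ge_atTop _
      exact ((Filter.eventually_all_finite (finite_TM M hM)).mpr h).exists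
    have h2K : (0 : ℝ) < 2 ^ K := by positivity
    let c : ℕ → ℝ := fun i => 2 ^ i / 2 ^ K
    have hc : ∀ i, 0 < c i := fun i => by positivity
    have hcs : ∀ i, c (i + 1) = 2 * c i := fun i => by simp only [c, pow_succ]; ring
    -- the start
    have hstart : Red M C (u : Qt a b) (c 0) 1 := by
      refine ⟨IntQ.one, by rw [inv_one]; exact IntQ.one, fun p hp => ?_⟩
      have h1 : Nv (pabv p) (c 0) (u : Qt a b) ((1 : (Qt a b)ˣ) : Qt a b) = 1 := by
        rw [Units.val_one, Nv, mul_one, szv_one]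
        refine max_eq_left ?_
        simp only [c, pow_zero]
        rw [one_div, inv_mul_le_iff₀ h2K, mul_one]
        exact hK p hp
      rw [h1, Units.val_one, nrd_one, map_one, one_mul, one_pow]
      have h3 := hC p
      have h4 := one_le_Wv (pabv p) (c 0) (u : Qt a b)
      nlinarith
    have hend : Red M C (u : Qt a b) (c (2 * K)) u⁻¹ := by
      refine ⟨hui, by rw [inv_inv]; exact hu2, fun p hp => ?_⟩
      have hcK : c (2 * K) = 2 ^ K := by
        simp only [c]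
        rw [two_mul, pow_add]
        field_simp
      have h1 : Nv (pabv p) (c (2 * K)) (u : Qt a b) ((u⁻¹ : (Qt a b)ˣ) : Qt a b) =
          c (2 * K) := by
        rw [Nv, Units.mul_inv, szv_one, mul_one]
        refine max_eq_right ?_
        rw [inv_eq_cj hu1, szv_cj, hcK]
        exact hK p hp
      have h2 : nrd ((u⁻¹ : (Qt a b)ˣ) : Qt a b) = 1 := by rw [inv_eq_cj hu1, nrd_cj, hu1]
      rw [h1, h2, map_one, one_mul]
      have h3 := hC p
      have h4 : c (2 * K) ^ 2 ≤ Wv (pabv p) (c (2 * K)) (u : Qt a b) := by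
        refine le_trans ?_ ((le_max_right _ _).trans (le_max_right _ _))
        rw [hu1, map_one, mul_one]
      have h5 : 0 ≤ c (2 * K) ^ 2 := sq_nonneg _
      nlinarith
    -- transition
    have hstep : ∀ (c₁ c₂ : ℝ), 0 < c₁ → c₁ ≤ c₂ → c₂ ≤ 2 * c₁ → ∀ x y : (Qt a b)ˣ,
        Red M C (u : Qt a b) c₁ x → Red M C (u : Qt a b) c₂ y →
        ∀ θ ∈ Gam a b (SM F M) hA, ∀ θ' ∈ Gam a b (SM F M) hA, ∀ δ ∈ Δ, ∀ δ' ∈ Δ, ∀ ε ε' : Fˣ,
          x = θ * δ * scU a b ε → y = θ' * δ' * scU a b ε' → θ⁻¹ * θ' ∈ X := by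
      intro c₁ c₂ h1 h2 h3 x y hx hy θ hθ θ' hθ' δ hδ δ' hδ' ε ε' e e'
      refine ⟨mul_mem (inv_mem hθ) hθ', fun p hp => ?_⟩
      have h4 := Red.step hC h1 h2 h3 hx hy p hp
      refine (transition (pabv p) h4 e e' ?_ ?_).trans (hB p δ hδ δ' hδ')
      · ext
        exact (mem_Gam.mp hθ).1
      · ext
        exact (mem_Gam.mp hθ').1
    have hone : (1 : (Qt a b)ˣ) = 1 * 1 * scU a b 1 := by rw [map_one, mul_one, mul_one]
    have hind : ∀ i : ℕ, ∀ x : (Qt a b)ˣ, Red M C (u : Qt a b) (c i) x →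
        ∀ θ ∈ Gam a b (SM F M) hA, ∀ δ ∈ Δ, ∀ ε : Fˣ, x = θ * δ * scU a b ε →
          θ ∈ Subgroup.closure X := by
      intro i
      induction i with
      | zero =>
        intro x hx θ hθ δ hδ ε e
        have h1 := hstep (c 0) (c 0) (hc 0) le_rfl (by linarith [hc 0]) 1 x hstart hx 1 (one_mem _)
          θ hθ 1 hΔ1 δ hδ 1 ε hone e
        rw [inv_one, one_mul] at h1
        exact Subgroup.subset_closure h1
      | succ i ih =>
        intro x hx θ hθ δ hδ ε e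
        obtain ⟨y, hy⟩ := hred (u : Qt a b) (c i) (hc i)
        obtain ⟨θ', hθ', δ', hδ', ε', e'⟩ := hdec y hy.int hy.int'
        have h1 := ih y hy θ' hθ' δ' hδ' ε' e'
        have h2 := hstep (c i) (c (i + 1)) (hc i) (by rw [hcs]; linarith [hc i])
          (by rw [hcs]) y x hy hx θ' hθ' θ hθ δ' hδ' δ hδ ε' ε e' e
        have h3 : θ = θ' * (θ'⁻¹ * θ) := by group
        rw [h3]
        exact mul_mem h1 (Subgroup.subset_closure h2)
    have h1 := hind (2 * K) u⁻¹ hend u⁻¹ (inv_mem hu) 1 hΔ1 1 (by rw [map_one, mul_one, mul_one])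
    exact inv_mem_iff.mp h1
  have heq : Subgroup.closure X = Gam a b (SM F M) hA := le_antisymm hXle main
  rw [← heq]
  exact (Subgroup.fg_iff _).mpr ⟨X, rfl, hXfin⟩

end fin

end Vale.Agent.P011.MPQ.FG

namespace Vale.Agent.P011.MPQ

/-- I1. The norm-one group is finitely generated if `M` is sufficiently divisible. -/
theorem gam_fg {F : Type} [Field F] [NumberField F] (a b : Fˣ) (hab : Aniso a b) :
    ∃ M₀ : ℕ, M₀ ≠ 0 ∧ ∀ M : ℕ, M ≠ 0 → M₀ ∣ M →
      ∀ hA : Adm a b (SM F M), (Gam a b (SM F M) hA).FG := FG.gam_fg a b hab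

end Vale.Agent.P011.MPQ
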