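import Vale.Agent.P011.MPQ.I34
import Vale.Agent.P011.MPQ.GamFG

/-!
The norm-one group of a quaternion division algebra over a number field has finitely many
homomorphisms to a finite group.
-/

open NumberField IsDedekindDomain

namespace Vale.Agent.P011.MPQ

open Arith

/-- A finitely generated group has finitely many homomorphisms to a finite group. -/
theorem finite_hom_of_fg {G R : Type} [Group G] [Group R] [Finite R] (H : Subgroup G) (hH : H.FG) :
    Finite (H →* R) := by
  obtain ⟨X, hX, hfin⟩ := (Subgroup.fg_iff _).mp hH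
  have := hfin.to_subtype
  have hmem : ∀ x : X, (x : G) ∈ H := fun x => hX ▸ Subgroup.subset_closure x.2
  refine Finite.of_injective (fun (f : H →* R) (x : X) => f ⟨x, hmem x⟩) ?_
  intro f g hfg
  subst hX
  have key : ∀ (x : G) (hx : x ∈ Subgroup.closure X), f ⟨x, hx⟩ = g ⟨x, hx⟩ := by
    intro x hx
    induction hx using Subgroup.closure_induction with
    | mem x hx => exact congrFun hfg ⟨x, hx⟩
    | one => exact (map_one f).trans (map_one g).symm
    | mul x y hx hy ihx ihy =>
      have e : (⟨x * y, mul_mem hx hy⟩ : Subgroup.closure X) = ⟨x, hx⟩ * ⟨y, hy⟩ := rfl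
      rw [e, map_mul, map_mul, ihx, ihy]
    | inv x hx ihx =>
      have e : (⟨x⁻¹, inv_mem hx⟩ : Subgroup.closure X) = ⟨x, hx⟩⁻¹ := rfl
      rw [e, map_inv, map_inv, ihx]
  ext x
  exact key x x.2

variable {F : Type} [Field F] [NumberField F]

/-- The norm-one group has finitely many homomorphisms to a finite group. -/
theorem finite_hom (a b : Fˣ) (hab : Aniso a b) (R : Type) [Group R] [Finite R] :
    Finite (SL1 a b →* R) := by
  obtain ⟨M, hM, h⟩ := hom_ext a b hab (Nat.card R) Nat.card_pos
  obtain ⟨M₀, hM₀, h₀⟩ := gam_fg a b hab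
  obtain ⟨hA, hext⟩ := h (M * M₀) (mul_ne_zero hM hM₀) (dvd_mul_right _ _)
  have hfg := h₀ (M * M₀) (mul_ne_zero hM hM₀) (dvd_mul_left _ _) hA
  have hle : Gam a b (SM F (M * M₀)) hA ≤ SL1 a b := fun x hx => (mem_Gam.mp hx).1
  have := finite_hom_of_fg (R := R) _ hfg
  refine Finite.of_injective
    (fun c : SL1 a b →* R => c.comp (Subgroup.inclusion hle)) ?_
  intro c c' hcc
  refine hext (fun r => pow_card_eq_one') c c' fun x hx => ?_
  exact DFunLike.congr_fun hcc ⟨(x : (Qt a b)ˣ), mem_Gam.mpr ⟨x.2, hx⟩⟩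

end Vale.Agent.P011.MPQ
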