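import Vale.Agent.P011.MPQ.IDefs

/-!
A normal subgroup of finite index of the norm-one group contains one which is normal in the
multiplicative group.
-/

open NumberField IsDedekindDomain

namespace Vale.Agent.P011.MPQ

open Arith

variable {F : Type} [Field F] {a b : Fˣ}

theorem conj_mem_SL1 (q : (Qt a b)ˣ) {x : (Qt a b)ˣ} (hx : x ∈ SL1 a b) :
    q * x * q⁻¹ ∈ SL1 a b := by
  change nrd ((q * x * q⁻¹ : (Qt a b)ˣ) : Qt a b) = 1
  have h1 : nrd (q : Qt a b) * nrd ((q⁻¹ : (Qt a b)ˣ) : Qt a b) = 1 := by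
    rw [← nrd_mul, Units.mul_inv, nrd_one]
  have h2 : nrd (x : Qt a b) = 1 := hx
  rw [Units.val_mul, nrd_mul, Units.val_mul, nrd_mul, h2, mul_one, h1]

/-- Conjugation. -/
def i5_cnj (q : (Qt a b)ˣ) : SL1 a b →* SL1 a b where
  toFun x := ⟨q * x * q⁻¹, conj_mem_SL1 q x.2⟩
  map_one' := by
    refine Subtype.ext ?_
    simp
  map_mul' := by
    intro x y
    refine Subtype.ext ?_
    simp

theorem i5_cnj_val (q : (Qt a b)ˣ) (x : SL1 a b) : ((i5_cnj q x : SL1 a b) : (Qt a b)ˣ) = q * x * q⁻¹ :=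
  rfl

/-- I, consequence. -/
theorem exists_core_of (a b : Fˣ) (N : Subgroup (SL1 a b)) (hN : N.Normal) (hfin : N.index ≠ 0)
    (hF : Finite (SL1 a b →* (SL1 a b ⧸ N))) : ∃ N₀ : Subgroup (Qt a b)ˣ,
      N₀ ≤ N.map (SL1 a b).subtype ∧ N₀.Normal ∧ N₀.relIndex (SL1 a b) ≠ 0 := by
  classical
  let c : (Qt a b)ˣ → (SL1 a b →* (SL1 a b ⧸ N)) := fun q => (QuotientGroup.mk' N).comp (i5_cnj q)
  let K : Subgroup (SL1 a b) := ⨅ q, (c q).ker
  have hc : ∀ q x, x ∈ (c q).ker ↔ i5_cnj q x ∈ N := by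
    intro q x
    rw [MonoidHom.mem_ker]
    exact QuotientGroup.eq_one_iff _
  have hK : ∀ x, x ∈ K ↔ ∀ q, i5_cnj q x ∈ N := by
    intro x
    rw [Subgroup.mem_iInf]
    exact forall_congr' fun q => hc q x
  refine ⟨K.map (SL1 a b).subtype, ?_, ⟨?_⟩, ?_⟩
  · refine Subgroup.map_mono fun x hx => ?_
    have h1 := (hK x).mp hx 1
    have h2 : i5_cnj 1 x = x := Subtype.ext (by simp [i5_cnj_val])
    rwa [h2] at h1
  · rintro _ ⟨x, hx, rfl⟩ q
    refine ⟨i5_cnj q x, (hK _).mpr fun q' => ?_, rfl⟩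
    have h1 := (hK x).mp hx (q' * q)
    have h2 : i5_cnj (q' * q) x = i5_cnj q' (i5_cnj q x) := Subtype.ext (by
      simp only [i5_cnj_val, mul_inv_rev]
      group)
    rwa [h2] at h1
  · have hN' : N.FiniteIndex := ⟨hfin⟩
    have h0 : Finite (SL1 a b ⧸ N) := inferInstance
    have h1 : K = ⨅ f : Set.range c, (f : SL1 a b →* (SL1 a b ⧸ N)).ker := by
      refine le_antisymm ?_ ?_
      · refine le_iInf ?_
        rintro ⟨_, q, rfl⟩
        exact iInf_le _ q
      · refine le_iInf fun q => ?_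
        exact iInf_le_of_le ⟨c q, q, rfl⟩ le_rfl
    have h2 : K.FiniteIndex := by
      rw [h1]
      exact Subgroup.finiteIndex_iInf fun f => inferInstance
    rw [Subgroup.relIndex, ← Subgroup.comap_subtype, Subgroup.comap_map_eq_self_of_injective
      (Subgroup.subtype_injective _)]
    exact h2.index_ne_zero

end Vale.Agent.P011.MPQ
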