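import Vale.Agent.P011.MPQ.IIId
import Vale.Agent.P011.MPQ.EFinal
import Vale.Agent.P011.MPQ.I5
import Vale.Agent.P011.MPQ.FinHom

/-!
The congruence theorem for the norm-one group of a quaternion division algebra over a number field:
a normal subgroup `N` of finite index contains every element which, at each prime where the algebra
does not split, is in the closure of the subgroup generated by the `e`-th powers, `e` being any
exponent of the quotient by `N`.
-/

open NumberField IsDedekindDomain

namespace Vale.Agent.P011.MPQ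

open Arith

variable {F : Type} [Field F] [NumberField F]

/-- A normal subgroup of finite index contains a subgroup of finite index which is normal in the
whole multiplicative group. -/
theorem exists_core (a b : Fˣ) (hab : Aniso a b) (N : Subgroup (SL1 a b)) (hN : N.Normal)
    (hfin : N.index ≠ 0) : ∃ N₀ : Subgroup (Qt a b)ˣ, N₀ ≤ N.map (SL1 a b).subtype ∧ N₀.Normal ∧
      N₀.relIndex (SL1 a b) ≠ 0 := by
  have : N.FiniteIndex := ⟨hfin⟩
  exact exists_core_of a b N hN hfin (finite_hom a b hab (SL1 a b ⧸ N))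

/-- Normal subgroups of finite index are open in the congruence topology. -/
theorem exists_open (a b : Fˣ) (hab : Aniso a b) (N : Subgroup (SL1 a b)) (hN : N.Normal)
    (hfin : N.index ≠ 0) : ∃ r : ℕ, r ≠ 0 ∧ ∃ ρ : ℝ, 0 < ρ ∧ ∀ x : SL1 a b,
      ClQ r ρ ((x : (Qt a b)ˣ) : Qt a b) → x ∈ N := by
  obtain ⟨N₀, h1, h2, h3⟩ := exists_core a b hab N hN hfin
  have hle : N₀ ≤ SL1 a b := h1.trans (Subgroup.map_subtype_le N)
  obtain ⟨r, hr, ρ, hρ, h⟩ := open_of_normal a b hab N₀ hle h2 h3
  refine ⟨r, hr, ρ, hρ, fun x hx => ?_⟩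
  obtain ⟨y, hy, hyx⟩ := h1 (h x x.2 hx)
  rwa [Subtype.ext hyx] at hy

/-- The main theorem on the norm-one group of a quaternion division algebra. -/
theorem mpq (a b : Fˣ) (hab : Aniso a b) (N : Subgroup (SL1 a b)) (hN : N.Normal)
    (hfin : N.index ≠ 0) (e : ℕ) (he : 0 < e) (hexp : ∀ g : SL1 a b, g ^ e ∈ N) (g : SL1 a b)
    (hg : ∀ w : HeightOneSpectrum (𝓞 F), Ram a b w → ∀ ε : Z0, ε ≠ 0 →
      ∃ h ∈ Subgroup.closure {x : SL1 a b | ∃ y : SL1 a b, x = y ^ e},
        w.valuation F (nrd (((g : (Qt a b)ˣ) : Qt a b) - ((h : (Qt a b)ˣ) : Qt a b))) < ε) :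
    g ∈ N :=
  mpq_of_open a b hab N (exists_open a b hab N hN hfin) e he hexp g hg

end Vale.Agent.P011.MPQ
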