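import Vale.Agent.P011.MPQ.I0a

/-!
Division with small remainder in quaternion algebras.
-/

open NumberField IsDedekindDomain

namespace Vale.Agent.P011.MPQ

open Arith

/-- Simultaneous approximation. -/
theorem simul {κ : Type} [Fintype κ] (r : κ → ℝ) (K : ℕ) (hK : 0 < K) :
    ∃ n : ℕ, 0 < n ∧ n ≤ K ^ Fintype.card κ ∧ ∃ m : κ → ℤ, ∀ i, |n * r i - m i| ≤ 1 / K := by
  classical
  have hK' : (0 : ℝ) < K := by exact_mod_cast hK
  let f : Fin (K ^ Fintype.card κ + 1) → (κ → Fin K) := fun n i =>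
    ⟨⌊(K : ℝ) * Int.fract ((n : ℕ) * r i)⌋₊, by
      rw [Nat.floor_lt (mul_nonneg hK'.le (Int.fract_nonneg _))]
      calc (K : ℝ) * Int.fract ((n : ℕ) * r i) < K * 1 :=
            mul_lt_mul_of_pos_left (Int.fract_lt_one _) hK'
        _ = K := mul_one _⟩
  obtain ⟨n1, n2, hne, hf⟩ := Fintype.exists_ne_map_eq_of_card_lt f (by simp)
  wlog hlt : (n1 : ℕ) < n2 generalizing n1 n2
  · exact this n2 n1 hne.symm hf.symm
      (lt_of_le_of_ne (not_lt.mp hlt) (fun h => hne (Fin.ext h.symm)))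
  refine ⟨(n2 : ℕ) - n1, Nat.sub_pos_of_lt hlt, ?_,
    fun i => ⌊(n2 : ℕ) * r i⌋ - ⌊(n1 : ℕ) * r i⌋, fun i => ?_⟩
  · have := n2.is_lt
    omega
  · have h1 : ⌊(K : ℝ) * Int.fract ((n1 : ℕ) * r i)⌋₊ = ⌊(K : ℝ) * Int.fract ((n2 : ℕ) * r i)⌋₊ := by
      have := congrFun hf i
      exact congrArg Fin.val this
    have e : (((n2 : ℕ) - (n1 : ℕ) : ℕ) : ℝ) * r i - ((⌊(n2 : ℕ) * r i⌋ - ⌊(n1 : ℕ) * r i⌋ : ℤ) : ℝ) =
        Int.fract ((n2 : ℕ) * r i) - Int.fract ((n1 : ℕ) * r i) := by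
      rw [Nat.cast_sub hlt.le, Int.fract, Int.fract]
      push_cast
      ring
    rw [e]
    have ha := Nat.floor_le (mul_nonneg hK'.le (Int.fract_nonneg ((n1 : ℕ) * r i)))
    have hb := Nat.lt_floor_add_one ((K : ℝ) * Int.fract ((n1 : ℕ) * r i))
    have ha' := Nat.floor_le (mul_nonneg hK'.le (Int.fract_nonneg ((n2 : ℕ) * r i)))
    have hb' := Nat.lt_floor_add_one ((K : ℝ) * Int.fract ((n2 : ℕ) * r i))
    rw [h1] at ha hb
    rw [le_div_iff₀ hK', ← abs_of_pos hK', ← abs_mul, abs_le]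
    constructor <;> nlinarith

variable {F : Type} [Field F] [NumberField F]

/-- An element whose rational coordinates are small is small at all embeddings. -/
theorem exists_size (F : Type) [Field F] [NumberField F] : ∃ B : ℝ, 0 < B ∧
    ∀ (x : F) (t : ℝ), (∀ i, |((integralBasis F).repr x i : ℝ)| ≤ t) → 0 ≤ t →
      ∀ φ : F →ₐ[ℚ] ℂ, ‖φ x‖ ≤ B * t := by
  classical
  refine ⟨1 + ∑ φ : F →ₐ[ℚ] ℂ, ∑ i, ‖φ (integralBasis F i)‖, by positivity, ?_⟩
  intro x t hx ht φ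
  have e : x = ∑ i, (integralBasis F).repr x i • integralBasis F i :=
    ((integralBasis F).sum_repr x).symm
  calc ‖φ x‖ = ‖∑ i, ((integralBasis F).repr x i : ℂ) * φ (integralBasis F i)‖ := by
        conv_lhs => rw [e]
        rw [map_sum]
        congr 1
        refine Finset.sum_congr rfl fun i _ => ?_
        rw [Algebra.smul_def, map_mul, AlgHom.commutes]
        simp
    _ ≤ ∑ i, ‖((integralBasis F).repr x i : ℂ) * φ (integralBasis F i)‖ := norm_sum_le _ _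
    _ ≤ ∑ i, t * ‖φ (integralBasis F i)‖ := by
        refine Finset.sum_le_sum fun i _ => ?_
        rw [norm_mul]
        refine mul_le_mul_of_nonneg_right ?_ (norm_nonneg _)
        have := hx i
        have h2 : ‖(((integralBasis F).repr x i : ℚ) : ℂ)‖ = |(((integralBasis F).repr x i : ℚ) : ℝ)| := by
          rw [← Complex.ofReal_ratCast, Complex.norm_real, Real.norm_eq_abs]
        rw [h2]
        exact this
    _ = t * ∑ i, ‖φ (integralBasis F i)‖ := by rw [Finset.mul_sum]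
    _ ≤ t * (1 + ∑ φ : F →ₐ[ℚ] ℂ, ∑ i, ‖φ (integralBasis F i)‖) := by
        refine mul_le_mul_of_nonneg_left ?_ ht
        have h1 : ∑ i, ‖φ (integralBasis F i)‖ ≤ ∑ φ : F →ₐ[ℚ] ℂ, ∑ i, ‖φ (integralBasis F i)‖ :=
          Finset.single_le_sum (f := fun φ : F →ₐ[ℚ] ℂ => ∑ i, ‖φ (integralBasis F i)‖)
            (fun _ _ => by positivity) (Finset.mem_univ φ)
        linarith
    _ = _ := by ring

/-- The absolute value of the norm of an element which is small at all embeddings. -/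
theorem abs_norm_le {x : F} {t : ℝ} (h : ∀ φ : F →ₐ[ℚ] ℂ, ‖φ x‖ ≤ t) (h1 : t ≤ 1) :
    ((|Algebra.norm ℚ x| : ℚ) : ℝ) ≤ t := by
  classical
  have h2 : ‖algebraMap ℚ ℂ (Algebra.norm ℚ x)‖ = ∏ φ : F →ₐ[ℚ] ℂ, ‖φ x‖ := by
    rw [Algebra.norm_eq_prod_embeddings, norm_prod]
  have h3 : ‖algebraMap ℚ ℂ (Algebra.norm ℚ x)‖ = ((|Algebra.norm ℚ x| : ℚ) : ℝ) := by
    rw [eq_ratCast, ← Complex.ofReal_ratCast, Complex.norm_real, Real.norm_eq_abs]
    push_cast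
    rfl
  rw [← h3, h2]
  obtain ⟨φ0⟩ : Nonempty (F →ₐ[ℚ] ℂ) := ⟨IsAlgClosed.lift⟩
  rw [← Finset.mul_prod_erase _ _ (Finset.mem_univ φ0)]
  have h4 : ∏ φ ∈ Finset.univ.erase φ0, ‖φ x‖ ≤ 1 :=
    Finset.prod_le_one (fun _ _ => norm_nonneg _) (fun φ _ => (h φ).trans h1)
  calc ‖φ0 x‖ * ∏ φ ∈ Finset.univ.erase φ0, ‖φ x‖ ≤ ‖φ0 x‖ * 1 :=
        mul_le_mul_of_nonneg_left h4 (norm_nonneg _)
    _ ≤ t := by rw [mul_one]; exact h φ0

/-- The four coordinates. -/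
def co4 {a b : Fˣ} (x : Qt a b) : Fin 4 → F := ![x.re, x.imI, x.imJ, x.imK]

theorem intQ_iff_co {S : Set (HeightOneSpectrum (𝓞 F))} {a b : Fˣ} {x : Qt a b} :
    IntQ S x ↔ ∀ k, IntF S (co4 x k) := by
  constructor
  · rintro ⟨h1, h2, h3, h4⟩ k
    fin_cases k
    · exact h1
    · exact h2
    · exact h3
    · exact h4
  · intro h
    exact ⟨h 0, h 1, h 2, h 3⟩

theorem intF_empty {x : F} : IntF ∅ x ↔ ∃ y : 𝓞 F, x = y := by
  constructor
  · intro h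
    exact int_of_val (fun v => h v (Set.notMem_empty v))
  · rintro ⟨y, rfl⟩
    exact IntF.ofInt y

theorem exists_den_co {a b : Fˣ} (y : Qt a b) : ∃ n : ℕ, n ≠ 0 ∧ ∀ k, IntF ∅ ((n : F) * co4 y k) := by
  choose n hn z hz using fun k => i0_exists_den (co4 y k)
  refine ⟨∏ k, n k, Finset.prod_ne_zero_iff.mpr fun k _ => hn k, fun k => ?_⟩
  rw [← Finset.prod_erase_mul _ _ (Finset.mem_univ k)]
  have : ((((∏ x ∈ Finset.univ.erase k, n x) * n k : ℕ)) : F) * co4 y k =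
      ((∏ x ∈ Finset.univ.erase k, n x : ℕ) : F) * ((n k : F) * co4 y k) := by
    push_cast; ring
  rw [this, hz k]
  exact (IntF.nat _).mul (IntF.ofInt _)

omit [NumberField F] in
theorem co4_smul {a b : Fˣ} (c : F) (y : Qt a b) (k : Fin 4) : co4 (c • y) k = c * co4 y k := by
  fin_cases k <;> simp [co4]

omit [NumberField F] in
theorem co4_sub {a b : Fˣ} (x y : Qt a b) (k : Fin 4) : co4 (x - y) k = co4 x k - co4 y k := by
  fin_cases k <;> simp [co4]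

/-- Division with small remainder. -/
theorem euclid (a b : Fˣ) (A : ℕ) (hA : A ≠ 0) : ∃ C : ℕ, 0 < C ∧ ∀ M : ℕ, M ≠ 0 →
    (∀ n, 0 < n → n ≤ C → ∃ j, n ∣ M ^ j) → ∀ y : Qt a b, ∃ (u m : ℕ) (l : Qt a b), u ≠ 0 ∧
      (∃ j, u ∣ M ^ j) ∧ IntQ ∅ l ∧ m ≠ 0 ∧ m.Coprime M ∧
      IntQ ∅ ((m : F) • ((u : F) • y - l)) ∧
      |Algebra.norm ℚ (nrd ((u : F) • y - l))| * A < 1 := by
  classical
  obtain ⟨B, hB, hsize⟩ := exists_size F
  let E : ℝ := ∑ φ : F →ₐ[ℚ] ℂ, (‖φ a‖ + ‖φ b‖ + ‖φ a‖ * ‖φ b‖)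
  have hE : 0 ≤ E := by positivity
  have hE' : ∀ φ : F →ₐ[ℚ] ℂ, ‖φ a‖ + ‖φ b‖ + ‖φ a‖ * ‖φ b‖ ≤ E := fun φ =>
    Finset.single_le_sum (f := fun φ : F →ₐ[ℚ] ℂ => ‖φ a‖ + ‖φ b‖ + ‖φ a‖ * ‖φ b‖)
      (fun _ _ => by positivity) (Finset.mem_univ φ)
  let B2 : ℝ := B ^ 2 * (1 + E)
  have hB2 : 0 < B2 := by positivity
  obtain ⟨K, hK⟩ := exists_nat_gt (B2 * A + 1)
  have hA1 : (1 : ℝ) ≤ A := by exact_mod_cast Nat.one_le_iff_ne_zero.mpr hA
  have hK1 : (1 : ℝ) < K := by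
    have : 0 ≤ B2 * A := by positivity
    linarith
  have hK0 : 0 < K := by
    have : (0 : ℝ) < K := by linarith
    exact_mod_cast this
  have hK' : (0 : ℝ) < K := by linarith
  let κ := Fin 4 × Module.Free.ChooseBasisIndex ℤ (𝓞 F)
  refine ⟨K ^ Fintype.card κ, by positivity, ?_⟩
  intro M hM hC y
  obtain ⟨D, hD0, hD⟩ := exists_den_co y
  obtain ⟨j, D1, D2, rfl, ⟨D3, hD3⟩, hc⟩ := decomp M D hD0
  have hD2 : D2 ≠ 0 := by rintro rfl; simp at hD0
  obtain ⟨n, hn0, hnK, m, hm⟩ := simul (κ := κ)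
    (fun k => (((integralBasis F).repr ((M : F) ^ j * co4 y k.1) k.2 : ℚ) : ℝ)) K hK0
  let l' : Fin 4 → F := fun k => ∑ i, ((m (k, i) : ℤ) : ℚ) • integralBasis F i
  have hl' : ∀ k, IntF ∅ (l' k) := by
    intro k
    refine Finset.sum_induction _ (IntF ∅) (fun _ _ => IntF.add) IntF.zero fun i _ => ?_
    have : ((m (k, i) : ℤ) : ℚ) • integralBasis F i = ((m (k, i) : ℤ) : F) * integralBasis F i := by
      rw [Algebra.smul_def]; simp
    rw [this]
    refine (IntF.int _).mul ?_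
    rw [integralBasis_apply]
    exact IntF.ofInt _
  let l : Qt a b := ⟨l' 0, l' 1, l' 2, l' 3⟩
  have hl : ∀ k, co4 l k = l' k := by
    intro k; fin_cases k <;> rfl
  have hlint : IntQ ∅ l := intQ_iff_co.mpr fun k => by rw [hl]; exact hl' k
  have hu : ((n * M ^ j : ℕ) : F) = (n : F) * (M : F) ^ j := by push_cast; ring
  have hz : ∀ k, co4 (((n * M ^ j : ℕ) : F) • y - l) k = (n : F) * ((M : F) ^ j * co4 y k) - l' k := by
    intro k
    rw [co4_sub, co4_smul, hl, hu]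
    ring
  have hsm : ∀ k (φ : F →ₐ[ℚ] ℂ), ‖φ (co4 (((n * M ^ j : ℕ) : F) • y - l) k)‖ ≤ B * (1 / K) := by
    intro k φ
    refine hsize _ _ (fun i => ?_) (by positivity) φ
    have h1 := hm (k, i)
    have h2 : ((integralBasis F).repr (co4 (((n * M ^ j : ℕ) : F) • y - l) k)) i =
        (n : ℚ) * (integralBasis F).repr ((M : F) ^ j * co4 y k) i - (m (k, i) : ℚ) := by
      rw [hz, map_sub]
      have e1 : (n : F) * ((M : F) ^ j * co4 y k) = (n : ℚ) • ((M : F) ^ j * co4 y k) := by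
        rw [Algebra.smul_def]; simp
      rw [e1, map_smul]
      have e2 : (integralBasis F).repr (l' k) i = (m (k, i) : ℚ) := by
        simp only [l']
        rw [map_sum]
        simp [Finsupp.single_apply]
      rw [Finsupp.sub_apply, e2]
      simp
    rw [h2]
    push_cast
    exact h1
  refine ⟨n * M ^ j, D2, l, mul_ne_zero hn0.ne' (pow_ne_zero _ hM), ?_, hlint, hD2, hc, ?_, ?_⟩
  · obtain ⟨i, hi⟩ := hC n hn0 hnK
    exact ⟨i + j, by rw [pow_add]; exact mul_dvd_mul_right hi _⟩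
  · rw [intQ_iff_co]
    intro k
    rw [co4_smul, hz, mul_sub]
    refine IntF.sub ?_ ((IntF.nat _).mul (hl' k))
    have h1 : (M : F) ^ j = (D1 : F) * (D3 : F) := by exact_mod_cast congrArg (Nat.cast (R := F)) hD3
    have : (D2 : F) * ((n : F) * ((M : F) ^ j * co4 y k)) =
        (n : F) * ((D3 : F) * (((D1 * D2 : ℕ) : F) * co4 y k)) := by
      rw [h1]; push_cast; ring
    rw [this]
    exact (IntF.nat _).mul ((IntF.nat _).mul (hD k))
  · have h1 : ∀ φ : F →ₐ[ℚ] ℂ, ‖φ (nrd (((n * M ^ j : ℕ) : F) • y - l))‖ ≤ B2 / K := by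
      intro φ
      set z : Qt a b := ((n * M ^ j : ℕ) : F) • y - l with hzdef
      have h0 : ‖φ z.re‖ ≤ B * (1 / K) := hsm 0 φ
      have h1 : ‖φ z.imI‖ ≤ B * (1 / K) := hsm 1 φ
      have h2 : ‖φ z.imJ‖ ≤ B * (1 / K) := hsm 2 φ
      have h3 : ‖φ z.imK‖ ≤ B * (1 / K) := hsm 3 φ
      have hsq : ∀ x : F, ‖φ x‖ ≤ B * (1 / K) → ‖φ x‖ ^ 2 ≤ B ^ 2 / K := by
        intro x hx
        calc ‖φ x‖ ^ 2 ≤ (B * (1 / K)) ^ 2 := pow_le_pow_left₀ (norm_nonneg _) hx 2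
          _ = B ^ 2 / K * (1 / K) := by ring
          _ ≤ B ^ 2 / K * 1 := by
              refine mul_le_mul_of_nonneg_left ?_ (by positivity)
              rw [div_le_one hK']; exact hK1.le
          _ = _ := mul_one _
      have g0 := hsq _ h0
      have g1 := hsq _ h1
      have g2 := hsq _ h2
      have g3 := hsq _ h3
      have e : φ (nrd z) = φ z.re ^ 2 - φ a * φ z.imI ^ 2 - φ b * φ z.imJ ^ 2 +
          φ a * φ b * φ z.imK ^ 2 := by
        simp only [nrd, map_add, map_sub, map_mul, map_pow]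
      rw [e]
      calc ‖φ z.re ^ 2 - φ a * φ z.imI ^ 2 - φ b * φ z.imJ ^ 2 + φ a * φ b * φ z.imK ^ 2‖
          ≤ ‖φ z.re‖ ^ 2 + ‖φ a‖ * ‖φ z.imI‖ ^ 2 + ‖φ b‖ * ‖φ z.imJ‖ ^ 2 +
            ‖φ a‖ * ‖φ b‖ * ‖φ z.imK‖ ^ 2 := by
            refine (norm_add_le _ _).trans ?_
            refine add_le_add ((norm_sub_le _ _).trans (add_le_add ((norm_sub_le _ _).trans
              (add_le_add ?_ ?_)) ?_)) ?_
            · rw [norm_pow]
            · rw [norm_mul, norm_pow]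
            · rw [norm_mul, norm_pow]
            · rw [norm_mul, norm_mul, norm_pow]
        _ ≤ B ^ 2 / K + ‖φ a‖ * (B ^ 2 / K) + ‖φ b‖ * (B ^ 2 / K) +
            ‖φ a‖ * ‖φ b‖ * (B ^ 2 / K) := by
            gcongr
        _ = B ^ 2 / K * (1 + (‖φ a‖ + ‖φ b‖ + ‖φ a‖ * ‖φ b‖)) := by ring
        _ ≤ B ^ 2 / K * (1 + E) := by
            refine mul_le_mul_of_nonneg_left ?_ (by positivity)
            linarith [hE' φ]
        _ = B2 / K := by simp only [B2]; ring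
    have h2 : B2 / K ≤ 1 := by
      rw [div_le_one hK']
      nlinarith
    have h3 := abs_norm_le h1 h2
    have h4 : ((|Algebra.norm ℚ (nrd (((n * M ^ j : ℕ) : F) • y - l))| : ℚ) : ℝ) * A < 1 := by
      calc _ ≤ B2 / K * A := mul_le_mul_of_nonneg_right h3 (by positivity)
        _ = B2 * A / K := by ring
        _ < 1 := by rw [div_lt_one hK']; linarith
    exact_mod_cast h4

end Vale.Agent.P011.MPQ
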