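import Vale.Agent.P011.MPQ.I2a
import Vale.Agent.P011.MPQ.I2t
import Vale.Agent.P011.MPQ.I0b

/-!
Elements of the norm-one group with a prescribed trace.
-/

open NumberField IsDedekindDomain

namespace Vale.Agent.P011.MPQ

open Arith

variable {F : Type} [Field F] [NumberField F]

/-- Approximation by elements which are integral outside a number. -/
theorem exists_round (y0 : F) {ε : ℝ} (hε : 0 < ε) {l : ℕ} (hl : 1 < l) :
    ∃ (k : ℕ) (r : 𝓞 F), ∀ φ : F →+* ℝ, |φ (r / (l : F) ^ k - y0)| < ε := by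
  classical
  obtain ⟨B, hB, hsize⟩ := exists_size F
  have hl' : (1 : ℝ) < l := by exact_mod_cast hl
  obtain ⟨k, hk⟩ := pow_unbounded_of_one_lt (B / ε) hl'
  have hlk : (0 : ℝ) < (l : ℝ) ^ k := by positivity
  have hlF : ((l : F) ^ k) ≠ 0 := pow_ne_zero _ (Nat.cast_ne_zero.mpr (by omega))
  let x := (l : F) ^ k * y0
  let r' : F := ∑ i, ((⌊(integralBasis F).repr x i⌋ : ℤ) : ℚ) • integralBasis F i
  have hr' : IntF ∅ r' := by
    refine Finset.sum_induction _ (IntF ∅) (fun _ _ => IntF.add) IntF.zero fun i _ => ?_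
    have : ((⌊(integralBasis F).repr x i⌋ : ℤ) : ℚ) • integralBasis F i =
        ((⌊(integralBasis F).repr x i⌋ : ℤ) : F) * integralBasis F i := by
      rw [Algebra.smul_def]; simp
    rw [this]
    refine (IntF.int _).mul ?_
    rw [integralBasis_apply]
    exact IntF.ofInt _
  obtain ⟨r, hr⟩ := intF_empty.mp hr'
  refine ⟨k, r, fun φ => ?_⟩
  have h1 : ∀ i, |((integralBasis F).repr (r' - x) i : ℝ)| ≤ 1 := by
    intro i
    have e2 : (integralBasis F).repr r' i = ((⌊(integralBasis F).repr x i⌋ : ℤ) : ℚ) := by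
      simp only [r']
      rw [map_sum]
      simp [Finsupp.single_apply]
    rw [map_sub, Finsupp.sub_apply, e2]
    have h3 := Int.floor_le ((integralBasis F).repr x i)
    have h4 := Int.lt_floor_add_one ((integralBasis F).repr x i)
    have h5 : |((⌊(integralBasis F).repr x i⌋ : ℤ) : ℚ) - (integralBasis F).repr x i| ≤ 1 := by
      rw [abs_le]; constructor <;> linarith
    have h6 : ((|((⌊(integralBasis F).repr x i⌋ : ℤ) : ℚ) - (integralBasis F).repr x i| : ℚ) : ℝ) ≤
        ((1 : ℚ) : ℝ) := by exact_mod_cast h5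
    rw [Rat.cast_abs, Rat.cast_one] at h6
    exact h6
  let ψ : F →ₐ[ℚ] ℂ := (Complex.ofRealHom.comp φ).toRatAlgHom
  have h2 := hsize (r' - x) 1 h1 zero_le_one ψ
  have h3 : ‖ψ (r' - x)‖ = |φ (r' - x)| := by
    change ‖((φ (r' - x) : ℝ) : ℂ)‖ = _
    rw [Complex.norm_real, Real.norm_eq_abs]
  rw [h3, mul_one] at h2
  have e : ((r : F) / (l : F) ^ k - y0) = (r' - x) / (l : F) ^ k := by
    rw [← hr]
    simp only [x]
    field_simp
  rw [e, map_div₀, map_pow, map_natCast, abs_div, abs_of_pos hlk, div_lt_iff₀ hlk]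
  calc |φ (r' - x)| ≤ B := h2
    _ < ε * (l : ℝ) ^ k := by rwa [div_lt_iff₀' hε] at hk

theorem exists_small (R : Set (HeightOneSpectrum (𝓞 F))) (hR : R.Finite)
    (γ : HeightOneSpectrum (𝓞 F) → Z0) (hγ : ∀ v, γ v ≠ 0) :
    ∃ A : ℕ, A ≠ 0 ∧ ∀ v ∈ R, v.valuation F (A : F) < γ v := by
  induction R, hR using Set.Finite.induction_on with
  | empty => exact ⟨1, one_ne_zero, fun v hv => absurd hv (Set.notMem_empty v)⟩
  | @insert v R _ _ ih =>
    obtain ⟨A, hA, h⟩ := ih
    obtain ⟨n, hn⟩ : ∃ n : ℤ, γ v = WithZero.exp n :=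
      ⟨WithZero.log (γ v), (WithZero.exp_log (hγ v)).symm⟩
    obtain ⟨B, hB0, hB⟩ := exists_SM {v} (Set.finite_singleton v)
    have hBv : v.valuation F (B : F) < 1 := lt_of_le_of_ne (i0_val_nat_le v B) (hB rfl)
    rw [lt_one_iff_le_exp] at hBv
    refine ⟨A * B ^ (n.natAbs + 1), mul_ne_zero hA (pow_ne_zero _ hB0), ?_⟩
    intro w hw
    rw [Nat.cast_mul, map_mul]
    rcases Set.mem_insert_iff.mp hw with rfl | hw
    · calc w.valuation F (A : F) * w.valuation F ((B ^ (n.natAbs + 1) : ℕ) : F)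
          ≤ 1 * w.valuation F ((B ^ (n.natAbs + 1) : ℕ) : F) := mul_le_mul_left (i0_val_nat_le w A) _
        _ = (w.valuation F (B : F)) ^ (n.natAbs + 1) := by rw [one_mul, Nat.cast_pow, map_pow]
        _ ≤ (WithZero.exp (-1 : ℤ)) ^ (n.natAbs + 1) := pow_le_pow_left' hBv _
        _ < γ w := by
            rw [hn, ← WithZero.exp_nsmul, WithZero.exp_lt_exp]
            simp only [nsmul_eq_mul]
            push_cast
            rcases abs_cases n with h | h <;> omega
    · calc _ ≤ w.valuation F (A : F) * 1 := mul_le_mul_right (i0_val_nat_le w _) _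
        _ < γ w := by rw [mul_one]; exact h w hw

theorem exists_eps {ι : Type} [Finite ι] (f : ι → ℝ) (hf : ∀ i, 0 < f i) :
    ∃ ε : ℝ, 0 < ε ∧ ∀ i, ε ≤ f i := by
  classical
  have : Fintype ι := Fintype.ofFinite ι
  have h0 : 0 ≤ ∑ i, (f i)⁻¹ := Finset.sum_nonneg fun i _ => (inv_pos.mpr (hf i)).le
  refine ⟨(1 + ∑ i, (f i)⁻¹)⁻¹, by positivity, fun i => ?_⟩
  rw [inv_le_comm₀ (by positivity) (hf i)]
  have := Finset.single_le_sum (f := fun i => (f i)⁻¹) (fun i _ => (inv_pos.mpr (hf i)).le)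
    (Finset.mem_univ i)
  linarith

theorem ram_finite (a b : Fˣ) : {v : HeightOneSpectrum (𝓞 F) | Ram a b v}.Finite :=
  (Even.bad_finite a b).preimage (Sum.inl_injective.injOn)

/-- There is an element of norm one whose trace is near a given element. -/
theorem exists_near (a b : Fˣ) (hab : Aniso a b) : ∃ M : ℕ, M ≠ 0 ∧
    ∀ S : Set (HeightOneSpectrum (𝓞 F)), SM F M ⊆ S → ∀ v ∉ S, ∀ z : F, v.valuation F z ≤ 1 →
      ∃ t : F, v.valuation F (t - z) ≤ WithZero.exp (-2) ∧ IntF S t ∧
        (t ^ 2 - 4 ≠ 0 → ∃ x : Qt a b, nrd x = 1 ∧ trd x = t) := by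
  classical
  have ha1 : (1 : F) - a ≠ 0 := by
    intro h
    have h1 := hab (⟨1, 1, 0, 0⟩ : Qt a b) (by
      change (1 : F) ^ 2 - a * 1 ^ 2 - b * 0 ^ 2 + a * b * 0 ^ 2 = 0
      linear_combination h)
    exact one_ne_zero (α := F) (congrArg QuaternionAlgebra.re h1)
  set t0 : F := 2 * (1 + a) / (1 - a) with ht0
  set c0 : Fˣ := Units.mk0 (4 * (a : F) / (1 - a))
    (div_ne_zero (mul_ne_zero (by norm_num) a.ne_zero) ha1) with hc0
  have he0 : (a : F) * (t0 ^ 2 - 4) = (c0 : F) ^ 2 := by
    rw [ht0, hc0, Units.val_mk0]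
    field_simp
    ring
  set e0 : Fˣ := a⁻¹ * c0 ^ 2 with he0def
  have he0' : (e0 : F) = t0 ^ 2 - 4 := by
    rw [he0def, Units.val_mul, Units.val_pow_eq_pow_val, ← he0, Units.inv_mul_cancel_left]
  let R : Set (HeightOneSpectrum (𝓞 F)) := {v | Ram a b v}
  have hR : R.Finite := ram_finite a b
  -- the number `A`
  obtain ⟨A, hA0, hA⟩ := exists_small R hR
    (fun v => v.valuation F (4 : F) * v.valuation F (e0 : F) / max 1 (v.valuation F t0))
    (fun v => div_ne_zero (mul_ne_zero ((Valuation.ne_zero_iff _).mpr (by norm_num))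
      ((Valuation.ne_zero_iff _).mpr e0.ne_zero))
      (ne_of_gt (lt_of_lt_of_le zero_lt_one (le_max_left _ _))))
  -- the number `l`
  obtain ⟨P, hP0, hP⟩ := exists_SM R hR
  let l := P + 1
  have hl1 : 1 < l := by have := Nat.pos_of_ne_zero hP0; omega
  have hlR : ∀ v ∈ R, v.valuation F (l : F) = 1 := fun v hv =>
    val_coprime (by simp [l]) (hP hv)
  -- the denominator of `t0`
  obtain ⟨n, hn0, r0, hr0⟩ := i0_exists_den t0
  -- the real places
  have hreal : ∀ φ : F →+* ℝ, ∃ ε : ℝ, 0 < ε ∧ (φ a < 0 → |φ t0| + ε ≤ 2) := by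
    intro φ
    by_cases hφ : φ a < 0
    · have h1 : |φ t0| < 2 := by
        rw [ht0, map_div₀, map_mul, map_add, map_sub, map_one, map_ofNat]
        have h2 : 0 < 1 - φ a := by linarith
        rw [abs_div, abs_of_pos h2, div_lt_iff₀ h2, abs_lt]
        constructor <;> nlinarith
      exact ⟨2 - |φ t0|, by linarith, fun _ => by linarith⟩
    · exact ⟨1, one_pos, fun h => absurd h hφ⟩
  choose f hf hf' using hreal
  obtain ⟨ε, hε, hεf⟩ := exists_eps f hf
  refine ⟨l * n * A, mul_ne_zero (mul_ne_zero (by omega) hn0) hA0, ?_⟩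
  intro S hS v hv z hz
  have hM : ∀ w ∉ S, w.valuation F ((l * n * A : ℕ) : F) = 1 := fun w hw =>
    notMem_SM.mp fun h => hw (hS h)
  have hwl : ∀ w ∉ S, w.valuation F (l : F) = 1 := fun w hw =>
    val_dvd (Dvd.intro _ (mul_assoc l n A).symm) (hM w hw)
  have hwn : ∀ w ∉ S, w.valuation F (n : F) = 1 := fun w hw =>
    val_dvd ⟨l * A, by ring⟩ (hM w hw)
  have hwA : ∀ w ∉ S, w.valuation F (A : F) = 1 := fun w hw =>
    val_dvd (Dvd.intro_left _ rfl) (hM w hw)
  have hint0 : IntF S t0 := by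
    intro w hw
    have h1 : w.valuation F ((n : F) * t0) ≤ 1 := by rw [hr0]; exact w.valuation_le_one r0
    rwa [map_mul, hwn w hw, one_mul] at h1
  have hA0' : (A : F) ≠ 0 := Nat.cast_ne_zero.mpr hA0
  -- the number `m`
  obtain ⟨m, hm0, hm⟩ := exists_small {v} (Set.finite_singleton v) (fun _ => WithZero.exp (-2))
    (fun _ => WithZero.exp_ne_zero)
  have hmv : v.valuation F (m : F) ≤ WithZero.exp (-2) := (hm v rfl).le
  have hm0' : (m : F) ≠ 0 := Nat.cast_ne_zero.mpr hm0
  have hzA : v.valuation F ((z - t0) / A) ≤ 1 := by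
    rw [map_div₀, hwA v hv, div_one]
    exact (v.valuation F).map_sub_le hz (hint0 v hv)
  obtain ⟨c, hc⟩ := v.exists_valuation_sub_lt_of_integer hzA
    (Units.mk0 (WithZero.exp (-2 : ℤ)) WithZero.exp_ne_zero)
  rw [Units.val_mk0] at hc
  have hAm : (0 : ℝ) < A * m := by
    have h1 : (0 : ℝ) < A := by exact_mod_cast Nat.pos_of_ne_zero hA0
    have h2 : (0 : ℝ) < m := by exact_mod_cast Nat.pos_of_ne_zero hm0
    positivity
  obtain ⟨k, r, hr⟩ := exists_round (-(c : F) / m) (ε := ε / (A * m)) (by positivity) hl1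
  set y : F := r / (l : F) ^ k with hy
  have hyint : ∀ w : HeightOneSpectrum (𝓞 F), w.valuation F (l : F) = 1 →
      w.valuation F y ≤ 1 := by
    intro w hw
    rw [hy, map_div₀, map_pow, hw, one_pow, div_one]
    exact w.valuation_le_one r
  set t : F := t0 + A * (c + m * y) with ht
  have hcm : ∀ w : HeightOneSpectrum (𝓞 F), w.valuation F (l : F) = 1 →
      w.valuation F ((c : F) + m * y) ≤ 1 := by
    intro w hw
    refine (w.valuation F).map_add_le (w.valuation_le_one c) ?_
    rw [map_mul]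
    exact mul_le_one' (i0_val_nat_le w m) (hyint w hw)
  refine ⟨t, ?_, ?_, ?_⟩
  · have e1 : t - z = A * ((c : F) - (z - t0) / A) + A * (m * y) := by
      rw [ht]
      field_simp
      ring
    rw [e1]
    refine (v.valuation F).map_add_le ?_ ?_
    · rw [map_mul, hwA v hv, one_mul]
      exact hc.le
    · rw [map_mul, hwA v hv, one_mul, map_mul]
      calc _ ≤ v.valuation F (m : F) * 1 := mul_le_mul_right (hyint v (hwl v hv)) _
        _ ≤ _ := by rwa [mul_one]
  · intro w hw
    rw [ht]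
    refine (w.valuation F).map_add_le (hint0 w hw) ?_
    rw [map_mul]
    exact mul_le_one' (i0_val_nat_le w A) (hcm w (hwl w hw))
  · intro hne
    refine exists_trace a b hab t hne ?_ ?_
    · intro w hw
      have hw1 := hA w hw
      have hpos : 0 < max 1 (w.valuation F t0) := lt_of_lt_of_le zero_lt_one (le_max_left _ _)
      rw [lt_div_iff₀ hpos] at hw1
      have h1 : w.valuation F (t - t0) ≤ w.valuation F (A : F) := by
        have e1 : t - t0 = A * (c + m * y) := by rw [ht]; ring
        rw [e1, map_mul]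
        calc _ ≤ w.valuation F (A : F) * 1 := mul_le_mul_right (hcm w (hlR w hw)) _
          _ = _ := mul_one _
      have h2 : w.valuation F (t - t0 + 2 * t0) ≤ max 1 (w.valuation F t0) := by
        refine (w.valuation F).map_add_le ?_ ?_
        · exact (h1.trans (i0_val_nat_le w A)).trans (le_max_left _ _)
        · rw [map_mul]
          have h3 : w.valuation F (2 : F) ≤ 1 := by exact_mod_cast i0_val_nat_le w 2
          calc _ ≤ 1 * w.valuation F t0 := mul_le_mul_left h3 _
            _ ≤ _ := by rw [one_mul]; exact le_max_right _ _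
      refine Sch.LS_of_near (y := a * e0) ?_ ?_
      · have : a * e0 = c0 ^ 2 := by rw [he0def, mul_inv_cancel_left]
        rw [this]
        exact sq_mem_LS c0
      · have e1 : ((a * Units.mk0 (t ^ 2 - 4) hne : Fˣ) : F) - ((a * e0 : Fˣ) : F) =
            a * ((t - t0) * (t - t0 + 2 * t0)) := by
          rw [Units.val_mul, Units.val_mul, Units.val_mk0, he0']
          ring
        rw [e1, map_mul, map_mul, Units.val_mul, map_mul]
        have ha0 : 0 < w.valuation F (a : F) :=
          zero_lt_iff.mpr ((Valuation.ne_zero_iff _).mpr a.ne_zero)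
        calc w.valuation F (a : F) * (w.valuation F (t - t0) * w.valuation F (t - t0 + 2 * t0))
            ≤ w.valuation F (a : F) * (w.valuation F (A : F) * max 1 (w.valuation F t0)) :=
              mul_le_mul_right (mul_le_mul' h1 h2) _
          _ < w.valuation F (a : F) * (w.valuation F 4 * w.valuation F (e0 : F)) :=
              mul_lt_mul_of_pos_left hw1 ha0
          _ = _ := mul_left_comm _ _ _
    · intro φ h1 _
      have h2 := hf' φ h1
      have h3 := hεf φ
      have h4 := hr φ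
      have h5 : |φ t - φ t0| < ε := by
        have e1 : φ t - φ t0 = (A * m) * φ (y - -(c : F) / m) := by
          rw [← map_sub]
          have e2 : t - t0 = (A * m) * (y - -(c : F) / m) := by
            rw [ht]
            field_simp
            ring
          rw [e2, map_mul, map_mul, map_natCast, map_natCast]
        rw [e1, abs_mul, abs_of_pos hAm]
        calc (A * m : ℝ) * |φ (y - -(c : F) / m)| < (A * m) * (ε / (A * m)) :=
              mul_lt_mul_of_pos_left h4 hAm
          _ = ε := by field_simp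
      have h6 : |φ t| ≤ |φ t - φ t0| + |φ t0| := by
        calc |φ t| = |(φ t - φ t0) + φ t0| := by rw [sub_add_cancel]
          _ ≤ _ := abs_add_le _ _
      linarith

end Vale.Agent.P011.MPQ
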