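import Vale.Agent.P011.MPQ.C1b

/-!
Elements of norm one close to one are commutators of elements close to one.
-/

open NumberField IsDedekindDomain

set_option linter.unusedSectionVars false

namespace Vale.Agent.P011.MPQ

open Arith

section cq

variable {F : Type} [Field F] [NumberField F] {a b : Fˣ} {n : ℕ} {A : AbsoluteValue F ℝ}
  {z : Fin n → F}

/-- Continuity at a point of a quaternion valued function. -/
structure CQ (A : AbsoluteValue F ℝ) (z : Fin n → F) (f : (Fin n → F) → Qt a b) : Prop where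
  re : CA A z fun u => (f u).re
  imI : CA A z fun u => (f u).imI
  imJ : CA A z fun u => (f u).imJ
  imK : CA A z fun u => (f u).imK

namespace CQ

variable {f g : (Fin n → F) → Qt a b}

theorem const (x : Qt a b) : CQ A z fun _ => x :=
  ⟨CA.const _, CA.const _, CA.const _, CA.const _⟩

theorem add (hf : CQ A z f) (hg : CQ A z g) : CQ A z fun u => f u + g u :=
  ⟨hf.re.add hg.re, hf.imI.add hg.imI, hf.imJ.add hg.imJ, hf.imK.add hg.imK⟩

theorem smul {c : (Fin n → F) → F} (hc : CA A z c) (hf : CQ A z f) : CQ A z fun u => c u • f u :=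
  ⟨hc.mul hf.re, hc.mul hf.imI, hc.mul hf.imJ, hc.mul hf.imK⟩

theorem mul (hf : CQ A z f) (hg : CQ A z g) : CQ A z fun u => f u * g u where
  re := by
    simp only [qre]
    exact (((hf.re.mul hg.re).add (((CA.const _).mul hf.imI).mul hg.imI)).add
      (((CA.const _).mul hf.imJ).mul hg.imJ)).sub (((CA.const _).mul hf.imK).mul hg.imK)
  imI := by
    simp only [qimI]
    exact (((hf.re.mul hg.imI).add (hf.imI.mul hg.re)).sub
      (((CA.const _).mul hf.imJ).mul hg.imK)).add (((CA.const _).mul hf.imK).mul hg.imJ)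
  imJ := by
    simp only [qimJ]
    exact (((hf.re.mul hg.imJ).add (hf.imJ.mul hg.re)).add
      (((CA.const _).mul hf.imI).mul hg.imK)).sub (((CA.const _).mul hf.imK).mul hg.imI)
  imK := by
    simp only [qimK]
    exact (((hf.re.mul hg.imK).add (hf.imK.mul hg.re)).add
      (hf.imI.mul hg.imJ)).sub (hf.imJ.mul hg.imI)

theorem nrd (hf : CQ A z f) : CA A z fun u => nrd (f u) := by
  unfold MPQ.nrd
  exact (((hf.re.pow 2).sub ((CA.const _).mul (hf.imI.pow 2))).sub
    ((CA.const _).mul (hf.imJ.pow 2))).add ((CA.const _).mul (hf.imK.pow 2))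

theorem qs_lt (hf : CQ A z f) {M : ℝ} (h : qs A (f z) < M) :
    ∃ δ : ℝ, 0 < δ ∧ ∀ u : Fin n → F, (∀ i, A (u i - z i) < δ) → qs A (f u) < M := by
  obtain ⟨ε, hε⟩ : ∃ ε, ε = (M - qs A (f z)) / 4 := ⟨_, rfl⟩
  have hεp : 0 < ε := by rw [hε]; linarith
  obtain ⟨δ0, h0, k0⟩ := hf.re ε hεp
  obtain ⟨δ1, h1, k1⟩ := hf.imI ε hεp
  obtain ⟨δ2, h2, k2⟩ := hf.imJ ε hεp
  obtain ⟨δ3, h3, k3⟩ := hf.imK ε hεp
  refine ⟨min (min δ0 δ1) (min δ2 δ3), lt_min (lt_min h0 h1) (lt_min h2 h3), fun u hu => ?_⟩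
  have hu0 : ∀ i, A (u i - z i) < δ0 := fun i =>
    (hu i).trans_le ((min_le_left _ _).trans (min_le_left _ _))
  have hu1 : ∀ i, A (u i - z i) < δ1 := fun i =>
    (hu i).trans_le ((min_le_left _ _).trans (min_le_right _ _))
  have hu2 : ∀ i, A (u i - z i) < δ2 := fun i =>
    (hu i).trans_le ((min_le_right _ _).trans (min_le_left _ _))
  have hu3 : ∀ i, A (u i - z i) < δ3 := fun i =>
    (hu i).trans_le ((min_le_right _ _).trans (min_le_right _ _))
  have l0 := k0 u hu0
  have l1 := k1 u hu1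
  have l2 := k2 u hu2
  have l3 := k3 u hu3
  have tri : ∀ s t : F, A s ≤ A (s - t) + A t := fun s t => by
    have := A.add_le (s - t) t
    rwa [sub_add_cancel] at this
  have m0 := tri (f u).re (f z).re
  have m1 := tri (f u).imI (f z).imI
  have m2 := tri (f u).imJ (f z).imJ
  have m3 := tri (f u).imK (f z).imK
  unfold qs at hε h ⊢
  linarith

end CQ

theorem CQ.cro (x : Qt a b) {z : Fin 3 → F} : CQ (a := a) (b := b) A z fun u => cro x u where
  re := CA.const _
  imI := (CA.const _).mul (((CA.const _).mul (CA.coord 2)).sub ((CA.const _).mul (CA.coord 1)))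
  imJ := (CA.const _).mul (((CA.const _).mul (CA.coord 0)).sub ((CA.const _).mul (CA.coord 2)))
  imK := ((CA.const _).mul (CA.coord 1)).sub ((CA.const _).mul (CA.coord 0))

theorem CQ.pp (x : Qt a b) {z : Fin 3 → F} : CQ (a := a) (b := b) A z fun u => pp x u :=
  (CQ.cro x).add (CQ.const _)

theorem CQ.yy (x : Qt a b) {z : Fin 3 → F} (h : MPQ.nrd (MPQ.pp x z) ≠ 0) :
    CQ (a := a) (b := b) A z fun u => yy x u :=
  (CQ.const _).add ((CQ.const _).mul (((CQ.const _).add (CQ.pp x)).mul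
    (CQ.smul (CA.neg (CA.inv ((CA.const 2).mul (CQ.pp x).nrd)
      (mul_ne_zero two_ne_zero h))) (CQ.pp x))))

end cq

variable {F : Type} [Field F] [NumberField F]

theorem exists_small_elt (p : PlI F) : ∃ y0 : F, y0 ≠ 0 ∧ pabv p y0 < 1 := by
  obtain ⟨x, hx0, hx1⟩ := pabv_nontrivial p
  rcases lt_or_gt_of_ne hx1 with h | h
  · exact ⟨x, hx0, h⟩
  · refine ⟨x⁻¹, inv_ne_zero hx0, ?_⟩
    rw [map_inv₀]
    exact inv_lt_one_of_one_lt₀ h

/-- coordinates are bounded by the size -/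
theorem coord_le_qs {a b : Fˣ} (A : AbsoluteValue F ℝ) (x : Qt a b) :
    A x.re ≤ qs A x ∧ A x.imI ≤ qs A x ∧ A x.imJ ≤ qs A x ∧ A x.imK ≤ qs A x := by
  have n0 := A.nonneg x.re
  have n1 := A.nonneg x.imI
  have n2 := A.nonneg x.imJ
  have n3 := A.nonneg x.imK
  unfold qs
  refine ⟨?_, ?_, ?_, ?_⟩ <;> linarith

/-- closeness of the size implies `ClQ` -/
theorem exists_of_clQ {r : ℕ} (hr : r ≠ 0) {ρ : ℝ} (hρ : 0 < ρ) : ∃ ε : PlI F → ℝ,
    (∀ p, 0 < ε p) ∧ ∀ {a b : Fˣ} (x : Qt a b), (∀ p ∈ TP F r, qs (pabv p) (x - 1) < ε p) →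
      ClQ r ρ x := by
  obtain ⟨ε, hε, h⟩ := exists_of_cl (F := F) hr hρ
  refine ⟨ε, hε, fun x hx => ⟨?_, ?_, ?_, ?_⟩⟩
  · refine h _ fun p hp => lt_of_le_of_lt ?_ (hx p hp)
    have := (coord_le_qs (pabv p) (x - 1)).1
    simpa using this
  · refine h _ fun p hp => lt_of_le_of_lt ?_ (hx p hp)
    have := (coord_le_qs (pabv p) (x - 1)).2.1
    simpa using this
  · refine h _ fun p hp => lt_of_le_of_lt ?_ (hx p hp)
    have := (coord_le_qs (pabv p) (x - 1)).2.2.1
    simpa using this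
  · refine h _ fun p hp => lt_of_le_of_lt ?_ (hx p hp)
    have := (coord_le_qs (pabv p) (x - 1)).2.2.2
    simpa using this

/-- `ClQ` with a high power implies closeness of the size -/
theorem exists_clQ {r : ℕ} (hr : r ≠ 0) (ε : PlI F → ℝ) (hε : ∀ p, 0 < ε p) :
    ∃ k : ℕ, k ≠ 0 ∧ ∃ ρ : ℝ, 0 < ρ ∧ ∀ {a b : Fˣ} (x : Qt a b), ClQ (r ^ k) ρ x →
      ∀ p ∈ TP F r, qs (pabv p) (x - 1) < ε p := by
  obtain ⟨k, hk, ρ, hρ, h⟩ := exists_cl (F := F) hr (fun p => ε p / 4)
    (fun p => by have := hε p; positivity)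
  refine ⟨k, hk, ρ, hρ, fun x hx p hp => ?_⟩
  obtain ⟨h0, h1, h2, h3⟩ := hx
  have k0 := h _ h0 p hp
  have k1 := h _ h1 p hp
  have k2 := h _ h2 p hp
  have k3 := h _ h3 p hp
  unfold qs
  simp only [QuaternionAlgebra.re_sub, QuaternionAlgebra.imI_sub, QuaternionAlgebra.imJ_sub,
    QuaternionAlgebra.imK_sub, QuaternionAlgebra.re_one, QuaternionAlgebra.imI_one,
    QuaternionAlgebra.imJ_one, QuaternionAlgebra.imK_one, sub_zero]
  linarith

theorem exists_comm (a b : Fˣ) (hab : Aniso a b) (r : ℕ) (hr : r ≠ 0) (ρ : ℝ) (hρ : 0 < ρ) :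
    ∃ r' : ℕ, r' ≠ 0 ∧ ∃ ρ' : ℝ, 0 < ρ' ∧ ∀ x ∈ SL1 a b, ClQ r' ρ' (x : Qt a b) →
      ∃ y z : (Qt a b)ˣ, ClQ r ρ (y : Qt a b) ∧ ClQ r ρ (z : Qt a b) ∧ x = y * z * y⁻¹ * z⁻¹ := by
  obtain ⟨ε, hε, hcl⟩ := exists_of_clQ (F := F) hr hρ
  choose θ hθ hloc using fun p : PlI F => local_c1 (pabv p) (exists_small_elt p) a b
    (ε := min (ε p) (1 / 2)) (lt_min (hε p) (by norm_num))
  obtain ⟨k, hk, ρ', hρ', hx⟩ := exists_clQ (F := F) hr (fun p => min (θ p) (pabv p 2))
    (fun p => lt_min (hθ p) ((pabv p).pos two_ne_zero))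
  refine ⟨r ^ k, pow_ne_zero k hr, ρ', hρ', fun x hxG hxcl => ?_⟩
  have hx1 := hx (x : Qt a b) hxcl
  have hxn : nrd (x : Qt a b) = 1 := hxG
  obtain ⟨w0⟩ : Nonempty (InfinitePlace F) := inferInstance
  by_cases hp : pure (x : Qt a b) = 0
  · -- trivial case
    have e1 : (x : Qt a b).imI = 0 := by
      have := congrArg QuaternionAlgebra.imI hp
      simpa [pure] using this
    have e2 : (x : Qt a b).imJ = 0 := by
      have := congrArg QuaternionAlgebra.imJ hp
      simpa [pure] using this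
    have e3 : (x : Qt a b).imK = 0 := by
      have := congrArg QuaternionAlgebra.imK hp
      simpa [pure] using this
    have e4 : (x : Qt a b).re ^ 2 = 1 := by
      have h1 : nrd (x : Qt a b) = (x : Qt a b).re ^ 2 := by simp [nrd, e1, e2, e3]
      rw [← h1, hxn]
    have e5 : (x : Qt a b).re = 1 := by
      have e4' : ((x : Qt a b).re - 1) * ((x : Qt a b).re + 1) = 0 := by linear_combination e4
      rcases (mul_eq_zero.mp e4').imp sub_eq_zero.mp eq_neg_of_add_eq_zero_left with h | h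
      · exact h
      · exfalso
        have h2 := (hx1 (Sum.inr w0) inr_mem_TP).trans_le (min_le_right _ _)
        have h3 := (coord_le_qs (pabv (Sum.inr w0)) ((x : Qt a b) - 1)).1
        rw [QuaternionAlgebra.re_sub, h, QuaternionAlgebra.re_one] at h3
        have e6 : (-1 - 1 : F) = -2 := by ring
        rw [e6, AbsoluteValue.map_neg] at h3
        linarith
    have hx' : x = 1 := by
      ext1
      ext <;> simp [e1, e2, e3, e5]
    refine ⟨1, 1, ?_, ?_, by rw [hx']; group⟩ <;>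
    · refine hcl _ fun p _ => ?_
      rw [Units.val_one, sub_self]
      simp only [qs, QuaternionAlgebra.re_zero, QuaternionAlgebra.imI_zero,
        QuaternionAlgebra.imJ_zero, QuaternionAlgebra.imK_zero, map_zero, add_zero]
      exact hε p
  · -- main case
    have hu : ∀ p : PlI F, ∃ (u : Fin 3 → F) (δ : ℝ), 0 < δ ∧ (p ∈ TP F r → ∀ u' : Fin 3 → F,
        (∀ i, pabv p (u' i - u i) < δ) → nrd (pp (x : Qt a b) u') ≠ 0 ∧
          qs (pabv p) (pp (x : Qt a b) u') < min (ε p) (1 / 2) ∧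
          qs (pabv p) (yy (x : Qt a b) u' - 1) < min (ε p) (1 / 2)) := by
      intro p
      by_cases hpT : p ∈ TP F r
      · obtain ⟨u, h1, h2, h3⟩ := hloc p (x : Qt a b) hxn
          ((hx1 p hpT).trans_le (min_le_left _ _)) hp
        obtain ⟨δ1, hδ1, k1⟩ := (CQ.pp (A := pabv p) (x : Qt a b) (z := u)).nrd.gt
          (M := 0) ((pabv p).pos h1)
        obtain ⟨δ2, hδ2, k2⟩ := (CQ.pp (A := pabv p) (x : Qt a b) (z := u)).qs_lt h2
        obtain ⟨δ3, hδ3, k3⟩ := ((CQ.yy (A := pabv p) (x : Qt a b) (z := u) h1).add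
          (CQ.const (-1))).qs_lt (M := min (ε p) (1 / 2)) (by rw [← sub_eq_add_neg]; exact h3)
        refine ⟨u, min δ1 (min δ2 δ3), lt_min hδ1 (lt_min hδ2 hδ3), fun _ u' hu' => ?_⟩
        refine ⟨?_, ?_, ?_⟩
        · intro h
          have := k1 u' fun i => (hu' i).trans_le (min_le_left _ _)
          rw [h, map_zero] at this
          exact lt_irrefl _ this
        · exact k2 u' fun i => (hu' i).trans_le ((min_le_right _ _).trans (min_le_left _ _))
        · have := k3 u' fun i => (hu' i).trans_le ((min_le_right _ _).trans (min_le_right _ _))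
          rwa [← sub_eq_add_neg] at this
      · exact ⟨0, 1, one_pos, fun h => absurd h hpT⟩
    choose u δ hδ hgood using hu
    obtain ⟨U, hU⟩ := approxV (TP F r) (TP_finite hr) u δ hδ
    have hfin := fun p hp => hgood p hp U (hU p hp)
    obtain ⟨hn0, h1, h2⟩ := hfin (Sum.inr w0) inr_mem_TP
    have hre0 : (x : Qt a b).re + 1 ≠ 0 := by
      intro h
      have h2 := (hx1 (Sum.inr w0) inr_mem_TP).trans_le (min_le_right _ _)
      have h3 := (coord_le_qs (pabv (Sum.inr w0)) ((x : Qt a b) - 1)).1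
      rw [QuaternionAlgebra.re_sub, QuaternionAlgebra.re_one] at h3
      have e6 : (x : Qt a b).re - 1 = -2 := by linear_combination h
      rw [e6, AbsoluteValue.map_neg] at h3
      linarith
    obtain ⟨z, hz⟩ := hab.exists_unit (1 + pp (x : Qt a b) U) (by
      intro h
      have := congrArg QuaternionAlgebra.re h
      simp [pp_re] at this)
    obtain ⟨y, hy⟩ := hab.exists_unit (yy (x : Qt a b) U) (by
      intro h
      rw [h, zero_sub] at h2
      have e : (-1 : Qt a b) = (-1 : F) • (1 : Qt a b) := by ext <;> simp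
      rw [e, qs_smul, qs_one, AbsoluteValue.map_neg, map_one] at h2
      have := h2.trans_le (min_le_right _ _)
      linarith)
    refine ⟨y, z, hcl _ fun p hp => ?_, hcl _ fun p hp => ?_, ?_⟩
    · rw [hy]
      exact (hfin p hp).2.2.trans_le (min_le_left _ _)
    · rw [hz, add_sub_cancel_left]
      exact (hfin p hp).2.1.trans_le (min_le_left _ _)
    · have h3 := comm_identity (x : Qt a b) hxn hre0 U hn0
      rw [← hy, ← hz] at h3
      have h4 : x * z * y = y * z := by
        ext1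
        simpa using h3
      rw [eq_mul_inv_iff_mul_eq, eq_mul_inv_iff_mul_eq]
      exact h4

end Vale.Agent.P011.MPQ
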