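import Vale.Agent.P011.MPQ.Appr

/-!
Commutators of quaternions close to one: the local estimates.
-/

open NumberField IsDedekindDomain

set_option linter.unusedSectionVars false

namespace Vale.Agent.P011.MPQ

open Arith

section size

variable {F : Type} [Field F] {a b : Fˣ} (A : AbsoluteValue F ℝ)

theorem qre (x y : Qt a b) : (x * y).re =
    x.re * y.re + a * x.imI * y.imI + b * x.imJ * y.imJ - a * b * x.imK * y.imK := by
  rw [QuaternionAlgebra.re_mul]; ring

theorem qimI (x y : Qt a b) : (x * y).imI =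
    x.re * y.imI + x.imI * y.re - b * x.imJ * y.imK + b * x.imK * y.imJ := by
  rw [QuaternionAlgebra.imI_mul]; ring

theorem qimJ (x y : Qt a b) : (x * y).imJ =
    x.re * y.imJ + x.imJ * y.re + a * x.imI * y.imK - a * x.imK * y.imI := by
  rw [QuaternionAlgebra.imJ_mul]; ring

theorem qimK (x y : Qt a b) : (x * y).imK =
    x.re * y.imK + x.imK * y.re + x.imI * y.imJ - x.imJ * y.imI := by
  rw [QuaternionAlgebra.imK_mul]; ring

/-- The size of a quaternion. -/
noncomputable def qs (x : Qt a b) : ℝ := A x.re + A x.imI + A x.imJ + A x.imK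

theorem qs_nonneg (x : Qt a b) : 0 ≤ qs A x := by
  have := A.nonneg x.re
  have := A.nonneg x.imI
  have := A.nonneg x.imJ
  have := A.nonneg x.imK
  unfold qs
  positivity

theorem qs_add (x y : Qt a b) : qs A (x + y) ≤ qs A x + qs A y := by
  unfold qs
  have h1 := A.add_le x.re y.re
  have h2 := A.add_le x.imI y.imI
  have h3 := A.add_le x.imJ y.imJ
  have h4 := A.add_le x.imK y.imK
  simp only [QuaternionAlgebra.re_add, QuaternionAlgebra.imI_add, QuaternionAlgebra.imJ_add,
    QuaternionAlgebra.imK_add]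
  linarith

theorem qs_smul (c : F) (x : Qt a b) : qs A (c • x) = A c * qs A x := by
  unfold qs
  simp only [QuaternionAlgebra.re_smul, QuaternionAlgebra.imI_smul, QuaternionAlgebra.imJ_smul,
    QuaternionAlgebra.imK_smul, smul_eq_mul, map_mul]
  ring

theorem qs_one : qs A (1 : Qt a b) = 1 := by
  unfold qs
  simp

/-- the constant of the multiplication -/
noncomputable def LL (a b : Fˣ) : ℝ := 1 + A a + A b + A a * A b

theorem LL_pos (a b : Fˣ) : 1 ≤ LL A a b := by
  have := A.nonneg (a : F)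
  have := A.nonneg (b : F)
  unfold LL
  nlinarith [mul_nonneg (A.nonneg (a : F)) (A.nonneg (b : F))]

theorem add4 (x y z t : F) : A (x + y + z - t) ≤ A x + A y + A z + A t := by
  rw [sub_eq_add_neg]
  refine (A.add_le _ _).trans ?_
  rw [AbsoluteValue.map_neg]
  have := A.add_le (x + y) z
  have := A.add_le x y
  linarith

theorem add4' (x y z t : F) : A (x + y - z + t) ≤ A x + A y + A z + A t := by
  have := add4 A x y t z
  have e : x + y - z + t = x + y + t - z := by ring
  rw [e]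
  linarith

theorem qs_mul (x y : Qt a b) : qs A (x * y) ≤ LL A a b * qs A x * qs A y := by
  unfold qs LL
  rw [qre, qimI, qimJ, qimK]
  have h1 := add4 A (x.re * y.re) (a * x.imI * y.imI) (b * x.imJ * y.imJ) (a * b * x.imK * y.imK)
  have h2 := add4' A (x.re * y.imI) (x.imI * y.re) (b * x.imJ * y.imK) (b * x.imK * y.imJ)
  have h3 := add4 A (x.re * y.imJ) (x.imJ * y.re) (a * x.imI * y.imK) (a * x.imK * y.imI)
  have h4 := add4 A (x.re * y.imK) (x.imK * y.re) (x.imI * y.imJ) (x.imJ * y.imI)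
  simp only [map_mul] at h1 h2 h3 h4
  refine (add_le_add (add_le_add (add_le_add h1 h2) h3) h4).trans ?_
  rw [← sub_nonneg]
  have n1 := A.nonneg x.re
  have n2 := A.nonneg x.imI
  have n3 := A.nonneg x.imJ
  have n4 := A.nonneg x.imK
  have m1 := A.nonneg y.re
  have m2 := A.nonneg y.imI
  have m3 := A.nonneg y.imJ
  have m4 := A.nonneg y.imK
  have p1 := A.nonneg (a : F)
  have p2 := A.nonneg (b : F)
  generalize A x.re = X0 at *
  generalize A x.imI = X1 at *
  generalize A x.imJ = X2 at *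
  generalize A x.imK = X3 at *
  generalize A y.re = Y0 at *
  generalize A y.imI = Y1 at *
  generalize A y.imJ = Y2 at *
  generalize A y.imK = Y3 at *
  generalize A (a : F) = α at *
  generalize A (b : F) = β at *
  clear h1 h2 h3 h4
  ring_nf
  positivity

end size

section cross

variable {F : Type} [Field F] [CharZero F] {a b : Fˣ} (A : AbsoluteValue F ℝ)

/-- The pure part. -/
def pure (x : Qt a b) : Qt a b := ⟨0, x.imI, x.imJ, x.imK⟩

/-- The cross product of the pure part with a vector. -/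
def cro (x : Qt a b) (u : Fin 3 → F) : Qt a b :=
  ⟨0, -b * (x.imJ * u 2 - x.imK * u 1), -a * (x.imK * u 0 - x.imI * u 2),
    x.imI * u 1 - x.imJ * u 0⟩

theorem nrd_smul (c : F) (x : Qt a b) : nrd (c • x) = c ^ 2 * nrd x := by
  simp only [nrd, QuaternionAlgebra.re_smul, QuaternionAlgebra.imI_smul,
    QuaternionAlgebra.imJ_smul, QuaternionAlgebra.imK_smul, smul_eq_mul]
  ring

theorem cro_smul (x : Qt a b) (c : F) (u : Fin 3 → F) : cro x (fun i => c * u i) = c • cro x u := by
  ext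
  · simp [cro]
  · simp only [cro, QuaternionAlgebra.imI_smul, smul_eq_mul]; ring
  · simp only [cro, QuaternionAlgebra.imJ_smul, smul_eq_mul]; ring
  · simp only [cro, QuaternionAlgebra.imK_smul, smul_eq_mul]; ring

theorem nrd_cro0 (x : Qt a b) : nrd (cro x ![1, 0, 0]) = a * b * (x.imJ ^ 2 - a * x.imK ^ 2) := by
  simp [nrd, cro]; ring

theorem nrd_cro1 (x : Qt a b) : nrd (cro x ![0, 1, 0]) = a * b * (x.imI ^ 2 - b * x.imK ^ 2) := by
  simp [nrd, cro]; ring

theorem nrd_cro2 (x : Qt a b) :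
    nrd (cro x ![0, 0, 1]) = -(a * b * (b * x.imJ ^ 2 + a * x.imI ^ 2)) := by
  simp [nrd, cro]; ring

/-- the size of a unit vector cross product -/
theorem qs_cro (x : Qt a b) (e : Fin 3 → F) (he : ∀ i, A (e i) ≤ 1) :
    qs A (cro x e) ≤ 2 * LL A a b * qs A (pure x) := by
  have n1 := A.nonneg x.imI
  have n2 := A.nonneg x.imJ
  have n3 := A.nonneg x.imK
  have p1 := A.nonneg (a : F)
  have p2 := A.nonneg (b : F)
  have hs : ∀ y z : F, ∀ i j, A (y * e i - z * e j) ≤ A y + A z := by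
    intro y z i j
    rw [sub_eq_add_neg]
    refine (A.add_le _ _).trans ?_
    rw [AbsoluteValue.map_neg, map_mul, map_mul]
    exact add_le_add (mul_le_of_le_one_right (A.nonneg _) (he i))
      (mul_le_of_le_one_right (A.nonneg _) (he j))
  have h1 := hs x.imJ x.imK 2 1
  have h2 := hs x.imK x.imI 0 2
  have h3 := hs x.imI x.imJ 1 0
  have h1' := mul_le_mul_of_nonneg_left h1 p2
  have h2' := mul_le_mul_of_nonneg_left h2 p1
  have e1 : qs A (cro x e) = A b * A (x.imJ * e 2 - x.imK * e 1) +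
      A a * A (x.imK * e 0 - x.imI * e 2) + A (x.imI * e 1 - x.imJ * e 0) := by
    simp only [qs, cro, map_mul, AbsoluteValue.map_neg, map_zero, zero_add]
  have e2 : qs A (pure x) = A x.imI + A x.imJ + A x.imK := by
    simp only [qs, pure, map_zero, zero_add]
  rw [e1, e2]
  unfold LL
  refine (add_le_add (add_le_add h1' h2') h3).trans ?_
  rw [← sub_nonneg]
  clear h1 h2 h3 h1' h2' e1 e2 hs
  generalize A x.imI = X1 at *
  generalize A x.imJ = X2 at *
  generalize A x.imK = X3 at *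
  generalize A (a : F) = α at *
  generalize A (b : F) = β at *
  ring_nf
  positivity

/-- One of the three basic cross products is large. -/
theorem exists_large_cro (a b : Fˣ) : ∃ κ : ℝ, 0 < κ ∧ ∀ x : Qt a b, pure x ≠ 0 →
    ∃ e : Fin 3 → F, (∀ i, A (e i) ≤ 1) ∧ κ * qs A (pure x) ^ 2 ≤ A (nrd (cro x e)) := by
  have hab : 0 < A (a : F) * A (b : F) := mul_pos (A.pos a.ne_zero) (A.pos b.ne_zero)
  have h2 : 0 < A (2 : F) := A.pos two_ne_zero
  have ha := A.pos a.ne_zero
  have hb := A.pos b.ne_zero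
  obtain ⟨c3, hc3⟩ : ∃ c3 : ℝ, c3 = (1 + A (a : F) + A (b : F)) / (A 2 * (A (a : F) * A (b : F))) :=
    ⟨_, rfl⟩
  have hc3p : 0 < c3 := by rw [hc3]; positivity
  obtain ⟨K, hK⟩ : ∃ K : ℝ, K = 3 * (c3 + (1 + A (a : F) * c3) + (1 + A (b : F) * c3)) + 1 :=
    ⟨_, rfl⟩
  have hKp : 1 < K := by rw [hK]; nlinarith [mul_pos ha hc3p, mul_pos hb hc3p]
  refine ⟨A (a : F) * A (b : F) / K, by positivity, fun x hx => ?_⟩
  by_contra hcon
  push Not at hcon
  obtain ⟨n, hn⟩ : ∃ n, n = qs A (pure x) := ⟨_, rfl⟩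
  have e2 : qs A (pure x) = A x.imI + A x.imJ + A x.imK := by
    simp only [qs, pure, map_zero, zero_add]
  have hnpos : 0 < n := by
    rw [hn, e2]
    by_contra h
    rw [not_lt] at h
    have n1 := A.nonneg x.imI
    have n2 := A.nonneg x.imJ
    have n3 := A.nonneg x.imK
    apply hx
    have h1 : x.imI = 0 := A.eq_zero.mp (by linarith)
    have h2 : x.imJ = 0 := A.eq_zero.mp (by linarith)
    have h3 : x.imK = 0 := A.eq_zero.mp (by linarith)
    ext <;> simp [pure, h1, h2, h3]
  have hone : ∀ e : Fin 3 → F, (e = ![1, 0, 0] ∨ e = ![0, 1, 0] ∨ e = ![0, 0, 1]) →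
      ∀ i, A (e i) ≤ 1 := by
    rintro e (rfl | rfl | rfl) i <;> fin_cases i <;> simp
  rw [← hn] at hcon
  have g0 := hcon ![1, 0, 0] (hone _ (Or.inl rfl))
  have g1 := hcon ![0, 1, 0] (hone _ (Or.inr (Or.inl rfl)))
  have g2 := hcon ![0, 0, 1] (hone _ (Or.inr (Or.inr rfl)))
  rw [nrd_cro0, map_mul, map_mul] at g0
  rw [nrd_cro1, map_mul, map_mul] at g1
  rw [nrd_cro2, AbsoluteValue.map_neg, map_mul, map_mul] at g2
  have hKn : ∀ t : ℝ, A (a : F) * A (b : F) * t < A (a : F) * A (b : F) / K * n ^ 2 →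
      t < n ^ 2 / K := by
    intro t ht
    have : A (a : F) * A (b : F) / K * n ^ 2 = A (a : F) * A (b : F) * (n ^ 2 / K) := by ring
    rw [this] at ht
    exact lt_of_mul_lt_mul_left ht hab.le
  have g0' := hKn _ g0
  have g1' := hKn _ g1
  have g2' := hKn _ g2
  obtain ⟨m, hm⟩ : ∃ m, m = n ^ 2 / K := ⟨_, rfl⟩
  rw [← hm] at g0' g1' g2'
  have hmp : 0 < m := by rw [hm]; positivity
  -- the bounds of the coordinates
  have k3 : A x.imK ^ 2 ≤ c3 * m := by
    have e : 2 * (a * b) * x.imK ^ 2 = (b * x.imJ ^ 2 + a * x.imI ^ 2) +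
        -(b * (x.imJ ^ 2 - a * x.imK ^ 2)) + -(a * (x.imI ^ 2 - b * x.imK ^ 2)) := by ring
    have h1 : A (2 * (a * b) * x.imK ^ 2) ≤ m + A (b : F) * m + A (a : F) * m := by
      rw [e]
      refine (A.add_le _ _).trans (add_le_add ((A.add_le _ _).trans (add_le_add g2'.le ?_)) ?_)
      · rw [AbsoluteValue.map_neg, map_mul]
        exact mul_le_mul_of_nonneg_left g0'.le hb.le
      · rw [AbsoluteValue.map_neg, map_mul]
        exact mul_le_mul_of_nonneg_left g1'.le ha.le
    rw [map_mul, map_mul, map_mul, map_pow] at h1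
    rw [hc3, div_mul_eq_mul_div, le_div_iff₀ (by positivity)]
    linarith
  have k2 : A x.imJ ^ 2 ≤ (1 + A (a : F) * c3) * m := by
    have e : x.imJ ^ 2 = (x.imJ ^ 2 - a * x.imK ^ 2) + a * x.imK ^ 2 := by ring
    have h1 : A (x.imJ ^ 2) ≤ m + A (a : F) * (c3 * m) := by
      rw [e]
      refine (A.add_le _ _).trans (add_le_add g0'.le ?_)
      rw [map_mul, map_pow]
      exact mul_le_mul_of_nonneg_left k3 ha.le
    rw [map_pow] at h1
    linarith
  have k1 : A x.imI ^ 2 ≤ (1 + A (b : F) * c3) * m := by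
    have e : x.imI ^ 2 = (x.imI ^ 2 - b * x.imK ^ 2) + b * x.imK ^ 2 := by ring
    have h1 : A (x.imI ^ 2) ≤ m + A (b : F) * (c3 * m) := by
      rw [e]
      refine (A.add_le _ _).trans (add_le_add g1'.le ?_)
      rw [map_mul, map_pow]
      exact mul_le_mul_of_nonneg_left k3 hb.le
    rw [map_pow] at h1
    linarith
  have hnn : n ^ 2 ≤ 3 * (A x.imI ^ 2 + A x.imJ ^ 2 + A x.imK ^ 2) := by
    rw [hn, e2]
    nlinarith [sq_nonneg (A x.imI - A x.imJ), sq_nonneg (A x.imI - A x.imK),
      sq_nonneg (A x.imJ - A x.imK)]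
  have hfin : n ^ 2 ≤ (K - 1) * m := by
    rw [hK]
    linarith
  have hmK : m * K = n ^ 2 := by rw [hm]; field_simp
  nlinarith

end cross

end Vale.Agent.P011.MPQ
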