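import Vale.Agent.P011.MPQ.C1a

/-!
Commutators of quaternions close to one: the algebraic identity and the local statement.
-/

open NumberField IsDedekindDomain

set_option linter.unusedSectionVars false

namespace Vale.Agent.P011.MPQ

open Arith

section unit

variable {F : Type} [Field F] {a b : Fˣ}

/-- nonzero quaternions are units when the norm form is anisotropic -/
theorem exists_unit (x : Qt a b) (hx : nrd x ≠ 0) : ∃ u : (Qt a b)ˣ, (u : Qt a b) = x := by
  refine ⟨⟨x, (nrd x)⁻¹ • cj x, ?_, ?_⟩, rfl⟩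
  · rw [mul_smul_comm, mul_cj, Algebra.smul_def, ← map_mul, inv_mul_cancel₀ hx, map_one]
  · rw [smul_mul_assoc, cj_mul_self, Algebra.smul_def, ← map_mul, inv_mul_cancel₀ hx, map_one]

theorem Aniso.exists_unit (hab : Aniso a b) (x : Qt a b) (hx : x ≠ 0) :
    ∃ u : (Qt a b)ˣ, (u : Qt a b) = x := MPQ.exists_unit x fun h => hx (hab x h)

/-- two quaternions with the same trace and norm are conjugate -/
theorem transporter (z z' : Qt a b) (ht : z'.re = z.re) (hn : nrd z' = nrd z) :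
    z' * (z' - cj z) = (z' - cj z) * z := by
  have h1 : z * cj z = z' * cj z' := by rw [mul_cj, mul_cj, hn]
  have h2 : cj z * z = z' * cj z' := by rw [cj_mul_self, mul_cj, hn]
  have h3 : z + cj z = z' + cj z' := by
    ext <;> simp [ht]
  have h4 : cj z' = z + cj z - z' := by rw [h3]; abel
  have h5 : z' * (z + cj z) = (z + cj z) * z' := by
    have : z + cj z = algebraMap F (Qt a b) (2 * z.re) := by
      rw [QuaternionAlgebra.algebraMap_eq]
      ext <;> simp [two_mul]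
    rw [this]
    exact (Algebra.commutes _ _).symm
  have h6 : z' * (z + cj z - z') = cj z * z := by rw [← h4, h2]
  calc z' * (z' - cj z) = z' * z - z' * (z + cj z - z') := by noncomm_ring
    _ = z' * z - cj z * z := by rw [h6]
    _ = (z' - cj z) * z := by noncomm_ring

end unit

section alg

variable {F : Type} [Field F] [CharZero F] {a b : Fˣ}

/-- the pure part of the second factor -/
noncomputable def pp (x : Qt a b) (u : Fin 3 → F) : Qt a b :=
  cro x u + (-(x.re + 1)⁻¹) • pure x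

/-- the first factor -/
noncomputable def yy (x : Qt a b) (u : Fin 3 → F) : Qt a b :=
  1 + (x - 1) * ((1 + pp x u) * ((-(2 * nrd (pp x u))⁻¹) • pp x u))

theorem pp_re (x : Qt a b) (u : Fin 3 → F) : (pp x u).re = 0 := by
  simp [pp, cro, pure]

theorem nrd_pp (x : Qt a b) (hx : nrd x = 1) (h1 : x.re + 1 ≠ 0) (u : Fin 3 → F) :
    nrd (pp x u) = nrd (cro x u) + (1 - x.re) * (x.re + 1)⁻¹ := by
  have e : nrd (pp x u) = nrd (cro x u) + (x.re + 1)⁻¹ ^ 2 *
      (-(a * x.imI ^ 2) - b * x.imJ ^ 2 + a * b * x.imK ^ 2) := by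
    simp only [nrd, pp, cro, pure, QuaternionAlgebra.re_add, QuaternionAlgebra.imI_add,
      QuaternionAlgebra.imJ_add, QuaternionAlgebra.imK_add, QuaternionAlgebra.re_smul,
      QuaternionAlgebra.imI_smul, QuaternionAlgebra.imJ_smul, QuaternionAlgebra.imK_smul,
      smul_eq_mul]
    ring
  have e2 : -(a * x.imI ^ 2) - b * x.imJ ^ 2 + a * b * x.imK ^ 2 = 1 - x.re ^ 2 := by
    have : nrd x = x.re ^ 2 - a * x.imI ^ 2 - b * x.imJ ^ 2 + a * b * x.imK ^ 2 := rfl
    rw [hx] at this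
    linear_combination -this
  rw [e, e2]
  field_simp
  ring

theorem re_mul_pp (x : Qt a b) (hx : nrd x = 1) (h1 : x.re + 1 ≠ 0) (u : Fin 3 → F) :
    (x * (1 + pp x u)).re = 1 := by
  have e2 : -(a * x.imI ^ 2) - b * x.imJ ^ 2 + a * b * x.imK ^ 2 = 1 - x.re ^ 2 := by
    have : nrd x = x.re ^ 2 - a * x.imI ^ 2 - b * x.imJ ^ 2 + a * b * x.imK ^ 2 := rfl
    rw [hx] at this
    linear_combination -this
  have e : (x * (1 + pp x u)).re = x.re + (x.re + 1)⁻¹ *
      (-(a * x.imI ^ 2) - b * x.imJ ^ 2 + a * b * x.imK ^ 2) := by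
    rw [qre]
    simp only [pp, cro, pure, QuaternionAlgebra.re_add, QuaternionAlgebra.imI_add,
      QuaternionAlgebra.imJ_add, QuaternionAlgebra.imK_add, QuaternionAlgebra.re_smul,
      QuaternionAlgebra.imI_smul, QuaternionAlgebra.imJ_smul, QuaternionAlgebra.imK_smul,
      smul_eq_mul, QuaternionAlgebra.re_one, QuaternionAlgebra.imI_one,
      QuaternionAlgebra.imJ_one, QuaternionAlgebra.imK_one]
    ring
  rw [e, e2]
  field_simp
  ring

/-- `x` is the commutator of `y` and `z = 1 + p`. -/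
theorem comm_identity (x : Qt a b) (hx : nrd x = 1) (h1 : x.re + 1 ≠ 0) (u : Fin 3 → F)
    (hp : nrd (pp x u) ≠ 0) : x * (1 + pp x u) * yy x u = yy x u * (1 + pp x u) := by
  obtain ⟨p, hpd⟩ : ∃ p, p = pp x u := ⟨_, rfl⟩
  obtain ⟨q, hq⟩ : ∃ q, q = (-(2 * nrd (pp x u))⁻¹) • pp x u := ⟨_, rfl⟩
  have hre : p.re = 0 := by rw [hpd]; exact pp_re x u
  have hpp : p * p = algebraMap F (Qt a b) (-nrd p) := by
    have h2 := mul_cj p
    have h3 : cj p = -p := by ext <;> simp [hre]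
    rw [h3, mul_neg] at h2
    rw [map_neg, ← h2, neg_neg]
  have h2pq : (2 : F) • (p * q) = 1 := by
    rw [hq, ← hpd, mul_smul_comm, hpp, smul_smul, Algebra.smul_def, ← map_mul]
    have : 2 * -(2 * nrd p)⁻¹ * -nrd p = 1 := by
      rw [hpd]
      field_simp
    rw [this, map_one]
  have hqz : (1 + p) * q = q * (1 + p) := by
    rw [hq, ← hpd, mul_smul_comm, smul_mul_assoc]
    congr 1
    noncomm_ring
  have hy : yy x u = (x * (1 + p) - cj (1 + p)) * q := by
    have h3 : cj (1 + p) = (1 + p) - (2 : F) • p := by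
      ext
      · simp [hre]
      · simp; ring
      · simp; ring
      · simp; ring
    rw [h3]
    have h4 : (x * (1 + p) - (1 + p - (2 : F) • p)) * q = (2 : F) • (p * q) +
        (x - 1) * ((1 + p) * q) := by
      rw [sub_mul, sub_mul, smul_mul_assoc, sub_mul, one_mul, mul_assoc]
      abel
    rw [h4, h2pq, yy, ← hpd, hq, ← hpd]
  have htr := transporter (1 + p) (x * (1 + p)) (by
    rw [hpd, re_mul_pp x hx h1 u]
    simp [pp_re]) (by rw [nrd_mul, hx, one_mul])
  rw [← hpd, hy, ← mul_assoc, htr, mul_assoc, hqz, ← mul_assoc]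

end alg

section loc

variable {F : Type} [Field F] [CharZero F] {a b : Fˣ} (A : AbsoluteValue F ℝ)

theorem qs_zero_lt {x : Qt a b} (hx : x ≠ 0) : 0 < qs A x := by
  rcases (qs_nonneg A x).lt_or_eq with h | h
  · exact h
  · exfalso
    apply hx
    have n0 := A.nonneg x.re
    have n1 := A.nonneg x.imI
    have n2 := A.nonneg x.imJ
    have n3 := A.nonneg x.imK
    unfold qs at h
    have h0 : x.re = 0 := A.eq_zero.mp (by linarith)
    have h1 : x.imI = 0 := A.eq_zero.mp (by linarith)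
    have h2 : x.imJ = 0 := A.eq_zero.mp (by linarith)
    have h3 : x.imK = 0 := A.eq_zero.mp (by linarith)
    ext <;> simp [h0, h1, h2, h3]

/-- scaling by powers of an element -/
theorem exists_scale {y0 : F} (hy0 : y0 ≠ 0) (hy1 : A y0 < 1) {n η : ℝ} (hn : 0 < n)
    (hη : 0 < η) : ∃ c : F, A c * n ≤ η ∧ A y0 * η < A c * n := by
  have hpos : 0 < A y0 := A.pos hy0
  obtain ⟨k, hk1, hk2⟩ := exists_mem_Ico_zpow (x := η / n) (y := (A y0)⁻¹) (div_pos hη hn)
    (one_lt_inv₀ hpos |>.mpr hy1)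
  refine ⟨(y0⁻¹) ^ k, ?_, ?_⟩
  · rw [map_zpow₀, map_inv₀]
    exact (le_div_iff₀ hn).mp hk1
  · rw [map_zpow₀, map_inv₀]
    rw [div_lt_iff₀ hn, zpow_add_one₀ (inv_ne_zero hpos.ne')] at hk2
    calc A y0 * η < A y0 * ((A y0)⁻¹ ^ k * (A y0)⁻¹ * n) := mul_lt_mul_of_pos_left hk2 hpos
      _ = (A y0)⁻¹ ^ k * n := by field_simp

/-- The local statement. -/
theorem local_c1 (hA : ∃ y0 : F, y0 ≠ 0 ∧ A y0 < 1) (a b : Fˣ) {ε : ℝ} (hε : 0 < ε) :
    ∃ θ : ℝ, 0 < θ ∧ ∀ x : Qt a b, nrd x = 1 → qs A (x - 1) < θ → pure x ≠ 0 →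
      ∃ u : Fin 3 → F, nrd (pp x u) ≠ 0 ∧ qs A (pp x u) < ε ∧ qs A (yy x u - 1) < ε := by
  obtain ⟨y0, hy0, hy1⟩ := hA
  have hy0p : 0 < A y0 := A.pos hy0
  obtain ⟨κ, hκ, hlarge⟩ := exists_large_cro A a b
  have hL : 1 ≤ LL A a b := LL_pos A a b
  obtain ⟨L, hLd⟩ : ∃ L, L = LL A a b := ⟨_, rfl⟩
  rw [← hLd] at hL
  have h2 : 0 < A (2 : F) := A.pos two_ne_zero
  -- the size of the pure part
  obtain ⟨η, hη, hη1, hη2⟩ : ∃ η : ℝ, 0 < η ∧ 4 * L * η < ε ∧ 4 * L * η < 1 := by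
    refine ⟨min ε 1 / (8 * L), by positivity, ?_, ?_⟩
    · have : 4 * L * (min ε 1 / (8 * L)) = min ε 1 / 2 := by field_simp; ring
      rw [this]
      have h3 := min_le_left ε 1
      have h4 : 0 < min ε 1 := by positivity
      linarith
    · have : 4 * L * (min ε 1 / (8 * L)) = min ε 1 / 2 := by field_simp; ring
      rw [this]
      have h3 := min_le_right ε 1
      have h4 : 0 < min ε 1 := by positivity
      linarith
  obtain ⟨μ, hμd⟩ : ∃ μ : ℝ, μ = κ * (A y0 * η) ^ 2 := ⟨_, rfl⟩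
  have hμ : 0 < μ := by rw [hμd]; positivity
  -- the closeness
  obtain ⟨θ, hθ, hθ1, hθ2, hθ3, hθ4⟩ : ∃ θ : ℝ, 0 < θ ∧ 2 * θ ≤ A (2 : F) ∧
      2 * θ / A (2 : F) ≤ 2 * L * η ∧ 2 * θ / A (2 : F) ≤ μ / 2 ∧
      L * (L * θ * 2) * (2 / (A 2 * μ)) < ε := by
    refine ⟨min (A 2 / 2) (min (L * η * A 2) (min (μ / 4 * A 2) (ε * (A 2 * μ) / (8 * L * L)))),
      by positivity, ?_, ?_, ?_, ?_⟩
    · have := min_le_left (A 2 / 2) (min (L * η * A 2) (min (μ / 4 * A 2)
        (ε * (A 2 * μ) / (8 * L * L))))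
      linarith
    · rw [div_le_iff₀ h2]
      have := (min_le_right (A 2 / 2) (min (L * η * A 2) (min (μ / 4 * A 2)
        (ε * (A 2 * μ) / (8 * L * L))))).trans (min_le_left _ _)
      linarith
    · rw [div_le_iff₀ h2]
      have := (min_le_right (A 2 / 2) (min (L * η * A 2) (min (μ / 4 * A 2)
        (ε * (A 2 * μ) / (8 * L * L))))).trans ((min_le_right _ _).trans (min_le_left _ _))
      linarith
    · obtain ⟨t, ht⟩ : ∃ t, t = min (A 2 / 2) (min (L * η * A 2) (min (μ / 4 * A 2)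
        (ε * (A 2 * μ) / (8 * L * L)))) := ⟨_, rfl⟩
      rw [← ht]
      have h5 : t ≤ ε * (A 2 * μ) / (8 * L * L) := by
        rw [ht]
        exact (min_le_right _ _).trans ((min_le_right _ _).trans (min_le_right _ _))
      rw [le_div_iff₀ (by positivity)] at h5
      rw [mul_div_assoc', div_lt_iff₀ (by positivity)]
      have h6 : 0 < ε * (A 2 * μ) := by positivity
      nlinarith
  refine ⟨θ, hθ, fun x hx hxθ hpure => ?_⟩
  -- the basic estimates
  have hre : A (x.re - 1) < θ := by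
    refine lt_of_le_of_lt ?_ hxθ
    unfold qs
    have := A.nonneg (x - 1).imI
    have := A.nonneg (x - 1).imJ
    have := A.nonneg (x - 1).imK
    have e : (x - 1).re = x.re - 1 := by simp
    rw [e]
    linarith
  have hw : qs A (pure x) < θ := by
    refine lt_of_le_of_lt ?_ hxθ
    unfold qs pure
    have := A.nonneg (x - 1).re
    simp only [QuaternionAlgebra.imI_sub, QuaternionAlgebra.imJ_sub, QuaternionAlgebra.imK_sub,
      QuaternionAlgebra.imI_one, QuaternionAlgebra.imJ_one, QuaternionAlgebra.imK_one, sub_zero,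
      map_zero, zero_add]
    linarith
  have hre1 : A 2 / 2 ≤ A (x.re + 1) := by
    have h3 := A.add_le (x.re + 1) (-(x.re - 1))
    rw [AbsoluteValue.map_neg] at h3
    have e : x.re + 1 + -(x.re - 1) = 2 := by ring
    rw [e] at h3
    linarith
  have hre0 : x.re + 1 ≠ 0 := by
    intro h
    rw [h, map_zero] at hre1
    linarith
  have hc : A (-(x.re + 1)⁻¹) ≤ 2 / A 2 := by
    rw [AbsoluteValue.map_neg, map_inv₀, inv_le_comm₀ (by linarith) (by positivity), inv_div]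
    exact hre1
  obtain ⟨n, hn⟩ : ∃ n, n = qs A (pure x) := ⟨_, rfl⟩
  have hnpos : 0 < n := by rw [hn]; exact qs_zero_lt A hpure
  obtain ⟨e, he1, he2⟩ := hlarge x hpure
  obtain ⟨c, hc1, hc2⟩ := exists_scale A hy0 hy1 hnpos hη
  have hcro : qs A (cro x fun i => c * e i) ≤ 2 * L * η := by
    rw [cro_smul, qs_smul]
    have h3 := qs_cro A x e he1
    rw [← hLd, ← hn] at h3
    calc A c * qs A (cro x e) ≤ A c * (2 * L * n) := mul_le_mul_of_nonneg_left h3 (A.nonneg c)
      _ = 2 * L * (A c * n) := by ring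
      _ ≤ 2 * L * η := mul_le_mul_of_nonneg_left hc1 (by positivity)
  have hnc : μ ≤ A (nrd (cro x fun i => c * e i)) := by
    rw [cro_smul, nrd_smul, map_mul, map_pow, hμd]
    rw [← hn] at he2
    have h3 : (A y0 * η) ^ 2 ≤ (A c * n) ^ 2 := pow_le_pow_left₀ (by positivity) hc2.le 2
    calc κ * (A y0 * η) ^ 2 ≤ κ * (A c * n) ^ 2 := mul_le_mul_of_nonneg_left h3 hκ.le
      _ = A c ^ 2 * (κ * n ^ 2) := by ring
      _ ≤ A c ^ 2 * A (nrd (cro x e)) := mul_le_mul_of_nonneg_left he2 (by positivity)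
  obtain ⟨p, hp⟩ : ∃ p, p = pp x fun i => c * e i := ⟨_, rfl⟩
  have hqp : qs A p ≤ 4 * L * η := by
    rw [hp, pp]
    refine (qs_add A _ _).trans ?_
    rw [qs_smul]
    have h3 : A (-(x.re + 1)⁻¹) * qs A (pure x) ≤ 2 / A 2 * θ :=
      mul_le_mul hc hw.le (qs_nonneg A _) (by positivity)
    have h4 : 2 / A 2 * θ = 2 * θ / A 2 := by ring
    rw [h4] at h3
    linarith
  have hnp : μ / 2 ≤ A (nrd p) := by
    rw [hp, nrd_pp x hx hre0]
    have h3 := A.add_le (nrd (cro x fun i => c * e i) + (1 - x.re) * (x.re + 1)⁻¹)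
      (-((1 - x.re) * (x.re + 1)⁻¹))
    rw [AbsoluteValue.map_neg, add_neg_cancel_right] at h3
    have h4 : A ((1 - x.re) * (x.re + 1)⁻¹) ≤ μ / 2 := by
      rw [map_mul]
      have h5 : A (1 - x.re) < θ := by rw [← neg_sub, AbsoluteValue.map_neg]; exact hre
      have h6 : A (x.re + 1)⁻¹ ≤ 2 / A 2 := by rwa [AbsoluteValue.map_neg] at hc
      calc A (1 - x.re) * A (x.re + 1)⁻¹ ≤ θ * (2 / A 2) :=
            mul_le_mul h5.le h6 (A.nonneg _) hθ.le
        _ = 2 * θ / A 2 := by ring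
        _ ≤ μ / 2 := hθ3
    linarith
  have hnp0 : nrd p ≠ 0 := by
    intro h
    rw [h, map_zero] at hnp
    linarith
  refine ⟨fun i => c * e i, by rw [← hp]; exact hnp0, by rw [← hp]; linarith, ?_⟩
  have hy : yy x (fun i => c * e i) - 1 = (x - 1) * ((1 + p) * ((-(2 * nrd p)⁻¹) • p)) := by
    rw [yy, ← hp, add_sub_cancel_left]
  rw [hy]
  have h1p : qs A (1 + p) ≤ 2 := by
    refine (qs_add A _ _).trans ?_
    rw [qs_one]
    linarith
  have hnpp : 0 < A (nrd p) := by linarith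
  have hinv : A (-(2 * nrd p)⁻¹) ≤ 2 / (A 2 * μ) := by
    rw [AbsoluteValue.map_neg, map_inv₀, map_mul, inv_le_comm₀ (by positivity) (by positivity),
      inv_div]
    nlinarith
  have hqn := qs_nonneg A p
  have h7 : qs A ((-(2 * nrd p)⁻¹) • p) ≤ 2 / (A 2 * μ) := by
    rw [qs_smul]
    calc A (-(2 * nrd p)⁻¹) * qs A p ≤ 2 / (A 2 * μ) * 1 :=
          mul_le_mul hinv (by linarith) hqn (by positivity)
      _ = _ := mul_one _
  have h8 : qs A ((1 + p) * ((-(2 * nrd p)⁻¹) • p)) ≤ L * 2 * (2 / (A 2 * μ)) := by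
    refine (qs_mul A _ _).trans ?_
    rw [← hLd]
    exact mul_le_mul (mul_le_mul_of_nonneg_left h1p (by positivity)) h7 (qs_nonneg A _)
      (by positivity)
  calc qs A ((x - 1) * ((1 + p) * ((-(2 * nrd p)⁻¹) • p)))
      ≤ L * qs A (x - 1) * qs A ((1 + p) * ((-(2 * nrd p)⁻¹) • p)) := by
        rw [hLd]; exact qs_mul A _ _
    _ ≤ L * θ * (L * 2 * (2 / (A 2 * μ))) := by
        refine mul_le_mul (mul_le_mul_of_nonneg_left hxθ.le (by positivity)) h8 (qs_nonneg A _)
          (by positivity)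
    _ = L * (L * θ * 2) * (2 / (A 2 * μ)) := by ring
    _ < ε := hθ4

end loc

end Vale.Agent.P011.MPQ
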