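import Vale.Agent.P011.MPQ.C1

/-!
Square roots close to one and conjugation of pure quaternions into a bounded set.
-/

open NumberField IsDedekindDomain

namespace Vale.Agent.P011.MPQ

open Arith

section newton

variable {F : Type} [Field F] [CharZero F] (A : AbsoluteValue F ℝ)

/-- Approximate square roots of elements close to one. -/
theorem newton {ε : ℝ} (hε : 0 < ε) : ∃ δ : ℝ, 0 < δ ∧ ∀ x : F, A (x - 1) < δ →
    ∀ η : ℝ, 0 < η → ∃ s : F, A (s - 1) < ε ∧ A (s ^ 2 - x) < η := by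
  have h2 : 0 < A (2 : F) := A.pos two_ne_zero
  obtain ⟨δ, hδ⟩ : ∃ δ : ℝ, δ = min (A 2 * min ε (1 / 2) / 8) (A 2 ^ 2 / 8) := ⟨_, rfl⟩
  have hm : 0 < min ε (1 / 2 : ℝ) := lt_min hε (by norm_num)
  have hδ0 : 0 < δ := by rw [hδ]; positivity
  have hδ1 : 4 * δ / A 2 ≤ min ε (1 / 2) / 2 := by
    have : δ ≤ A 2 * min ε (1 / 2) / 8 := by rw [hδ]; exact min_le_left _ _
    rw [div_le_iff₀ h2]
    linarith
  have hδ2 : 4 * δ / A 2 ^ 2 ≤ 1 / 2 := by
    have : δ ≤ A 2 ^ 2 / 8 := by rw [hδ]; exact min_le_right _ _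
    rw [div_le_iff₀ (by positivity)]
    linarith
  refine ⟨δ, hδ0, fun x hx η hη => ?_⟩
  have key : ∀ n : ℕ, ∃ s : F, A (s - 1) ≤ 4 * δ / A 2 * (1 - (1 / 2) ^ n) ∧
      A (s ^ 2 - x) ≤ δ * (1 / 2) ^ n := by
    intro n
    induction n with
    | zero =>
      refine ⟨1, by simp, ?_⟩
      rw [one_pow, ← neg_sub, AbsoluteValue.map_neg]
      simpa using hx.le
    | succ n ih =>
      obtain ⟨s, hs1, hs2⟩ := ih
      have hq : (0 : ℝ) < (1 / 2) ^ n := by positivity
      have hs3 : A (s - 1) ≤ 1 / 4 := by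
        have h3 : 4 * δ / A 2 * (1 - (1 / 2) ^ n) ≤ 4 * δ / A 2 := by
          have : 0 < 4 * δ / A 2 := by positivity
          nlinarith
        have h4 : min ε (1 / 2 : ℝ) ≤ 1 / 2 := min_le_right _ _
        linarith
      have hs4 : 1 / 2 ≤ A s := by
        have h3 := A.add_le s (-(s - 1))
        rw [AbsoluteValue.map_neg] at h3
        have e : s + -(s - 1) = 1 := by ring
        rw [e, map_one] at h3
        linarith
      have hs0 : s ≠ 0 := by
        rintro rfl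
        rw [map_zero] at hs4
        norm_num at hs4
      have hA2s : A 2 / 2 ≤ A (2 * s) := by
        rw [map_mul]
        nlinarith
      have hA2s0 : 0 < A (2 * s) := by linarith
      refine ⟨s - (s ^ 2 - x) / (2 * s), ?_, ?_⟩
      · have e : s - (s ^ 2 - x) / (2 * s) - 1 = (s - 1) + -((s ^ 2 - x) / (2 * s)) := by ring
        rw [e]
        refine (A.add_le _ _).trans ?_
        rw [AbsoluteValue.map_neg, map_div₀]
        have h3 : A (s ^ 2 - x) / A (2 * s) ≤ δ * (1 / 2) ^ n / (A 2 / 2) :=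
          div_le_div₀ (by positivity) hs2 (by positivity) hA2s
        have h4 : 4 * δ / A 2 * (1 - (1 / 2) ^ (n + 1)) =
            4 * δ / A 2 * (1 - (1 / 2) ^ n) + δ * (1 / 2) ^ n / (A 2 / 2) := by
          rw [pow_succ]
          field_simp
          ring
        rw [h4]
        exact add_le_add hs1 h3
      · have e : (s - (s ^ 2 - x) / (2 * s)) ^ 2 - x = ((s ^ 2 - x) / (2 * s)) ^ 2 := by
          field_simp
          ring
        rw [e, map_pow, map_div₀]
        have h3 : A (s ^ 2 - x) / A (2 * s) ≤ δ * (1 / 2) ^ n / (A 2 / 2) :=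
          div_le_div₀ (by positivity) hs2 (by positivity) hA2s
        have h4 : (A (s ^ 2 - x) / A (2 * s)) ^ 2 ≤ (δ * (1 / 2) ^ n / (A 2 / 2)) ^ 2 :=
          pow_le_pow_left₀ (div_nonneg (A.nonneg _) (A.nonneg _)) h3 2
        refine h4.trans ?_
        have h5 : (δ * (1 / 2) ^ n / (A 2 / 2)) ^ 2 =
            (4 * δ / A 2 ^ 2) * (1 / 2) ^ n * (δ * (1 / 2) ^ n) := by
          field_simp
          norm_num
        rw [h5, pow_succ]
        have h6 : (1 / 2 : ℝ) ^ n ≤ 1 := pow_le_one₀ (by norm_num) (by norm_num)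
        have h7 : 0 < δ * (1 / 2) ^ n := by positivity
        have h8 : 4 * δ / A 2 ^ 2 * (1 / 2) ^ n ≤ 1 / 2 := by
          calc 4 * δ / A 2 ^ 2 * (1 / 2) ^ n ≤ 1 / 2 * 1 :=
                mul_le_mul hδ2 h6 hq.le (by norm_num)
            _ = 1 / 2 := by norm_num
        calc 4 * δ / A 2 ^ 2 * (1 / 2) ^ n * (δ * (1 / 2) ^ n) ≤
              1 / 2 * (δ * (1 / 2) ^ n) := mul_le_mul_of_nonneg_right h8 h7.le
          _ = _ := by ring
  obtain ⟨n, hn⟩ := exists_pow_lt_of_lt_one (show 0 < η / δ by positivity)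
    (show (1 / 2 : ℝ) < 1 by norm_num)
  obtain ⟨s, hs1, hs2⟩ := key n
  refine ⟨s, ?_, ?_⟩
  · have hq : (0 : ℝ) < (1 / 2) ^ n := by positivity
    have h3 : 4 * δ / A 2 * (1 - (1 / 2) ^ n) ≤ 4 * δ / A 2 := by
      have : 0 < 4 * δ / A 2 := by positivity
      nlinarith
    have h4 : min ε (1 / 2 : ℝ) ≤ ε := min_le_left _ _
    linarith
  · rw [lt_div_iff₀ hδ0] at hn
    linarith

end newton

section conj

variable {F : Type} [Field F] {a b : Fˣ}

/-- Conjugation. -/
noncomputable def cnj (w g : Qt a b) : Qt a b := (nrd g)⁻¹ • (g * w * cj g)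

theorem cnj_re {w : Qt a b} (hw : w.re = 0) (g : Qt a b) : (cnj w g).re = 0 := by
  have h : (g * w * cj g).re = nrd g * w.re := by
    simp only [qre, qimI, qimJ, qimK, cj_re, cj_imI, cj_imJ, cj_imK, nrd]
    ring
  rw [cnj, QuaternionAlgebra.re_smul, h, hw, mul_zero, smul_zero]

theorem nrd_cnj (w g : Qt a b) (hg : nrd g ≠ 0) : nrd (cnj w g) = nrd w := by
  have h : ∀ (c : F) (x : Qt a b), nrd (c • x) = c ^ 2 * nrd x := by
    intro c x
    simp only [nrd, QuaternionAlgebra.re_smul, QuaternionAlgebra.imI_smul,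
      QuaternionAlgebra.imJ_smul, QuaternionAlgebra.imK_smul, smul_eq_mul]
    ring
  rw [cnj, h, nrd_mul, nrd_mul, nrd_cj]
  field_simp

end conj

section loc

variable {F : Type} [Field F] [CharZero F] (A : AbsoluteValue F ℝ)

/-- A pure quaternion whose square is close to `e₀ = a c₀ ^ 2` is conjugate to a bounded one. -/
theorem local_conj (a b : Fˣ) (c₀ : F) (hc₀ : c₀ ≠ 0) : ∃ δ : ℝ, 0 < δ ∧ ∃ C : ℝ, 0 < C ∧
    ∀ (x : F) (w : Qt a b), A (x - 1) < δ → w.re = 0 → nrd w = -(a * c₀ ^ 2 * x) →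
      ∃ g : Qt a b, nrd g ≠ 0 ∧ qs A (cnj w g) < C := by
  obtain ⟨δ₀, hδ₀, hn⟩ := newton A (ε := 1 / 2) (by norm_num)
  have h4 : 0 < A (4 : F) := A.pos (by norm_num)
  have h2 : 0 < A (2 : F) := A.pos two_ne_zero
  have ha : 0 < A (a : F) := A.pos a.ne_zero
  have hb : 0 < A (b : F) := A.pos b.ne_zero
  have hc : 0 < A c₀ := A.pos hc₀
  refine ⟨min δ₀ (1 / 2), lt_min hδ₀ (by norm_num), 2 * A c₀ + 1, by positivity,
    fun x w hx hw hnw => ?_⟩
  obtain ⟨e, he⟩ : ∃ e : F, e = a * c₀ ^ 2 * x := ⟨_, rfl⟩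
  rw [← he] at hnw
  have hAx : 1 / 2 < A x := by
    have h3 := A.add_le x (-(x - 1))
    rw [AbsoluteValue.map_neg] at h3
    have e1 : x + -(x - 1) = 1 := by ring
    rw [e1, map_one] at h3
    have := hx.trans_le (min_le_right _ _)
    linarith
  have hAe : 0 < A e := by
    rw [he, map_mul, map_mul, map_pow]
    positivity
  -- bounds depending on `w`
  obtain ⟨L, hL⟩ : ∃ L : ℝ, L = LL A a b := ⟨_, rfl⟩
  have hL1 : 1 ≤ L := by rw [hL]; exact LL_pos A a b
  obtain ⟨K, hK⟩ : ∃ K : ℝ, K = L * (L * (qs A w + 2 * A c₀)) := ⟨_, rfl⟩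
  have hqw := qs_nonneg A w
  have hK0 : 0 < K := by rw [hK]; positivity
  obtain ⟨k, hk⟩ : ∃ k : ℝ, k = min 1 (A (b : F)) * (A 4 * A e / 4) := ⟨_, rfl⟩
  have hk0 : 0 < k := by
    rw [hk]
    have : 0 < min 1 (A (b : F)) := lt_min one_pos hb
    positivity
  have hac : 0 < A (a : F) * A c₀ ^ 2 := by positivity
  obtain ⟨η, hη⟩ : ∃ η : ℝ, η = min (A 4 * A e / (2 * A 2)) (k / (2 * K)) /
      (A (a : F) * A c₀ ^ 2) := ⟨_, rfl⟩
  have hη0 : 0 < η := by
    rw [hη]
    have : 0 < min (A 4 * A e / (2 * A 2)) (k / (2 * K)) := lt_min (by positivity) (by positivity)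
    positivity
  obtain ⟨s, hs1, hs2⟩ := hn x (hx.trans_le (min_le_left _ _)) η hη0
  obtain ⟨c, hcd⟩ : ∃ c : F, c = c₀ * s := ⟨_, rfl⟩
  have hAs : A s < 3 / 2 := by
    have h3 := A.add_le (s - 1) 1
    rw [sub_add_cancel, map_one] at h3
    linarith
  have hAc : A c ≤ 2 * A c₀ := by
    rw [hcd, map_mul]
    nlinarith
  obtain ⟨f, hf⟩ : ∃ f : F, f = e - a * c ^ 2 := ⟨_, rfl⟩
  have hAf : A f < min (A 4 * A e / (2 * A 2)) (k / (2 * K)) := by
    have e1 : f = -(a * c₀ ^ 2 * (s ^ 2 - x)) := by rw [hf, he, hcd]; ring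
    rw [e1, AbsoluteValue.map_neg, map_mul, map_mul, map_pow]
    rw [hη, lt_div_iff₀ hac] at hs2
    linarith
  obtain ⟨hAf1, hAf2⟩ := lt_min_iff.mp hAf
  rw [lt_div_iff₀ (by positivity)] at hAf1 hAf2
  -- the element `c i`
  have hw2 : w * w = algebraMap F (Qt a b) e := by
    have h3 := mul_cj w
    have h5 : cj w = -w := by ext <;> simp [hw]
    rw [h5, mul_neg, hnw, map_neg] at h3
    exact neg_injective h3
  -- choice of the sign
  have hsum : nrd (w + ⟨0, c, 0, 0⟩ : Qt a b) + nrd (w - ⟨0, c, 0, 0⟩ : Qt a b) =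
      -(4 * e) + 2 * f := by
    have h3 : nrd (w + ⟨0, c, 0, 0⟩ : Qt a b) + nrd (w - ⟨0, c, 0, 0⟩ : Qt a b) =
        2 * nrd w - 2 * (a * c ^ 2) := by
      simp only [nrd, QuaternionAlgebra.re_add, QuaternionAlgebra.imI_add,
        QuaternionAlgebra.imJ_add, QuaternionAlgebra.imK_add, QuaternionAlgebra.re_sub,
        QuaternionAlgebra.imI_sub, QuaternionAlgebra.imJ_sub, QuaternionAlgebra.imK_sub]
      ring
    rw [h3, hnw, hf]
    ring
  have hbig : A 4 * A e / 4 ≤ A (nrd (w + ⟨0, c, 0, 0⟩ : Qt a b)) ∨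
      A 4 * A e / 4 ≤ A (nrd (w - ⟨0, c, 0, 0⟩ : Qt a b)) := by
    by_contra hcon
    push Not at hcon
    have h3 : A (4 * e) ≤ A (nrd (w + ⟨0, c, 0, 0⟩ : Qt a b)) +
        A (nrd (w - ⟨0, c, 0, 0⟩ : Qt a b)) + A (2 * f) := by
      have e1 : 4 * e = -(nrd (w + ⟨0, c, 0, 0⟩ : Qt a b) + nrd (w - ⟨0, c, 0, 0⟩ : Qt a b)) +
          2 * f := by rw [hsum]; ring
      rw [e1]
      refine (A.add_le _ _).trans ?_
      rw [AbsoluteValue.map_neg]
      exact add_le_add (A.add_le _ _) le_rfl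
    rw [map_mul, map_mul] at h3
    nlinarith [hcon.1, hcon.2]
  -- a common construction
  have main : ∀ (g h : Qt a b) (u : Qt a b), qs A h ≤ 1 → qs A g ≤ qs A w + 2 * A c₀ →
      k ≤ A (nrd (h * g)) → qs A u ≤ A c → h * g * w = u * (h * g) + f • h →
      ∃ g : Qt a b, nrd g ≠ 0 ∧ qs A (cnj w g) < 2 * A c₀ + 1 := by
    intro g h u hh hg hng hu hcomm
    have hn0 : nrd (h * g) ≠ 0 := by
      intro h0
      rw [h0, map_zero] at hng
      linarith
    refine ⟨h * g, hn0, ?_⟩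
    have e1 : cnj w (h * g) = u + ((nrd (h * g))⁻¹ * f) • (h * cj (h * g)) := by
      rw [cnj, hcomm, add_mul, mul_assoc u, mul_cj, smul_add, smul_mul_assoc, smul_smul]
      congr 1
      rw [← Algebra.commutes, ← Algebra.smul_def, smul_smul, inv_mul_cancel₀ hn0, one_smul]
    rw [e1]
    refine (qs_add A _ _).trans_lt ?_
    rw [qs_smul, map_mul, map_inv₀]
    have e2 : ∀ x : Qt a b, qs A (cj x) = qs A x := by
      intro x
      simp only [qs, cj_re, cj_imI, cj_imJ, cj_imK, AbsoluteValue.map_neg]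
    have h5 : qs A (h * cj (h * g)) ≤ K := by
      refine (qs_mul A _ _).trans ?_
      rw [e2, ← hL, hK]
      have h6 : qs A (h * g) ≤ L * (qs A w + 2 * A c₀) := by
        refine (qs_mul A _ _).trans ?_
        rw [← hL]
        have := qs_nonneg A h
        have := qs_nonneg A g
        calc L * qs A h * qs A g ≤ L * 1 * (qs A w + 2 * A c₀) := by
              apply mul_le_mul (mul_le_mul_of_nonneg_left hh (by linarith)) hg (qs_nonneg A g)
                (by linarith)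
          _ = _ := by ring
      have := qs_nonneg A (h * g)
      calc L * qs A h * qs A (h * g) ≤ L * 1 * (L * (qs A w + 2 * A c₀)) := by
            apply mul_le_mul (mul_le_mul_of_nonneg_left hh (by linarith)) h6 (qs_nonneg A _)
              (by linarith)
        _ = _ := by ring
    have hnp : 0 < A (nrd (h * g)) := lt_of_lt_of_le hk0 hng
    have h6 : (A (nrd (h * g)))⁻¹ * A f * qs A (h * cj (h * g)) ≤ 1 / 2 := by
      rw [inv_mul_eq_div, div_mul_eq_mul_div, div_le_iff₀ hnp]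
      have h7 : A f * qs A (h * cj (h * g)) ≤ A f * K :=
        mul_le_mul_of_nonneg_left h5 (A.nonneg f)
      nlinarith
    linarith
  have hqi : qs A (⟨0, c, 0, 0⟩ : Qt a b) = A c := by simp [qs]
  have hqi' : qs A (-⟨0, c, 0, 0⟩ : Qt a b) = A c := by simp [qs]
  have hii : (⟨0, c, 0, 0⟩ : Qt a b) * ⟨0, c, 0, 0⟩ = algebraMap F (Qt a b) (a * c ^ 2) := by
    rw [QuaternionAlgebra.algebraMap_eq]
    ext
    · simp only [qre]; ring
    · simp only [qimI]; ring
    · simp only [qimJ]; ring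
    · simp only [qimK]; ring
  rcases hbig with hbig | hbig
  · refine main (w + ⟨0, c, 0, 0⟩) 1 ⟨0, c, 0, 0⟩ ?_ ?_ ?_ hqi.le ?_
    · rw [qs_one]
    · refine (qs_add A _ _).trans ?_
      rw [hqi]
      linarith
    · rw [one_mul, hk]
      refine le_trans ?_ hbig
      have : min 1 (A (b : F)) ≤ 1 := min_le_left _ _
      have h3 : 0 < A 4 * A e / 4 := by positivity
      nlinarith
    · rw [one_mul, add_mul, mul_add, hw2, hii, ← Algebra.algebraMap_eq_smul_one, hf, map_sub]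
      abel
  · have hanti : (⟨0, c, 0, 0⟩ : Qt a b) * ⟨0, 0, 1, 0⟩ = -(⟨0, 0, 1, 0⟩ * ⟨0, c, 0, 0⟩) := by
      ext
      · simp only [qre, QuaternionAlgebra.re_neg]; ring
      · simp only [qimI, QuaternionAlgebra.imI_neg]; ring
      · simp only [qimJ, QuaternionAlgebra.imJ_neg]; ring
      · simp only [qimK, QuaternionAlgebra.imK_neg]; ring
    have hnj : nrd (⟨0, 0, 1, 0⟩ : Qt a b) = -b := by simp [nrd]
    refine main (w - ⟨0, c, 0, 0⟩) ⟨0, 0, 1, 0⟩ ⟨0, c, 0, 0⟩ ?_ ?_ ?_ hqi.le ?_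
    · simp [qs]
    · rw [sub_eq_add_neg]
      refine (qs_add A _ _).trans ?_
      rw [hqi']
      linarith
    · rw [nrd_mul, hnj, map_mul, AbsoluteValue.map_neg, hk]
      exact mul_le_mul (min_le_right _ _) hbig (by positivity) hb.le
    · generalize (⟨0, 0, 1, 0⟩ : Qt a b) = j at *
      generalize (⟨0, c, 0, 0⟩ : Qt a b) = i at *
      have h3 : j * (w - i) * w = j * (w * w) - j * i * w := by noncomm_ring
      have h5 : i * (j * (w - i)) = i * j * w - i * j * i := by noncomm_ring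
      have h6 : -(j * i) * w - -(j * i) * i = -(j * i * w) + j * (i * i) := by noncomm_ring
      rw [h3, h5, hanti, h6, hw2, hii, Algebra.smul_def, Algebra.commutes, hf, map_sub]
      noncomm_ring

end loc

end Vale.Agent.P011.MPQ
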