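import Vale.Agent.P011.MPQ.C2a
import Vale.Agent.P011.MPQ.C2b

/-!
Common slot: two scalars close to one are the reduced norms of two commuting quaternions close
to one.
-/

open NumberField IsDedekindDomain

namespace Vale.Agent.P011.MPQ

open Arith

section slot

variable {F : Type} [Field F]

/-- The first parameter. -/
noncomputable def sal (β U : F) (u : Fin 2 → F) : F := (U + (u 0 - u 1) * (β ^ 2 * U⁻¹)) * 2⁻¹

/-- The square of the pure quaternion. -/
noncomputable def see (β U : F) (u : Fin 2 → F) : F := sal β U u ^ 2 - u 0 * β ^ 2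

/-- The first denominator. -/
noncomputable def sg1 (β U : F) (u : Fin 2 → F) : F := 2 * sal β U u + β + u 0 * β

/-- The second denominator. -/
noncomputable def sg2 (β U : F) (u : Fin 2 → F) : F := 2 * (sal β U u - U) + β + u 1 * β

/-- The first coefficient. -/
noncomputable def sk1 (β U : F) (u : Fin 2 → F) : F := (u 0 - 1) * (sg1 β U u)⁻¹

/-- The second coefficient. -/
noncomputable def sk2 (β U : F) (u : Fin 2 → F) : F := (u 1 - 1) * (sg2 β U u)⁻¹

variable [NumberField F] {A : AbsoluteValue F ℝ} {z : Fin 2 → F} {β U : F}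

theorem CA_sal : CA A z (sal β U) :=
  ((CA.const U).add (((CA.coord 0).sub (CA.coord 1)).mul (CA.const _))).mul (CA.const _)

theorem CA_see : CA A z (see β U) := (CA_sal.pow 2).sub ((CA.coord 0).mul (CA.const _))

theorem CA_sg1 : CA A z (sg1 β U) :=
  (((CA.const 2).mul CA_sal).add (CA.const β)).add ((CA.coord 0).mul (CA.const β))

theorem CA_sg2 : CA A z (sg2 β U) :=
  (((CA.const 2).mul (CA_sal.sub (CA.const U))).add (CA.const β)).add
    ((CA.coord 1).mul (CA.const β))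

theorem CA_sk1 (h : sg1 β U z ≠ 0) : CA A z (sk1 β U) :=
  ((CA.coord 0).sub (CA.const 1)).mul (CA_sg1.inv h)

theorem CA_sk2 (h : sg2 β U z ≠ 0) : CA A z (sk2 β U) :=
  ((CA.coord 1).sub (CA.const 1)).mul (CA_sg2.inv h)

omit [NumberField F] in
theorem slot_one [CharZero F] (u : Fin 2 → F) (h1 : sg1 β U u ≠ 0) :
    (1 + sk1 β U u * (sal β U u + β)) ^ 2 - sk1 β U u ^ 2 * see β U u = u 0 := by
  have hk : sk1 β U u * sg1 β U u = u 0 - 1 := by
    rw [sk1, mul_assoc, inv_mul_cancel₀ h1, mul_one]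
  have hg : sg1 β U u = 2 * sal β U u + β + u 0 * β := rfl
  rw [see]
  linear_combination (sk1 β U u * β + 1) * hk -
    (sk1 β U u * (sk1 β U u * β + 1)) * hg

omit [NumberField F] in
theorem see_eq [CharZero F] (u : Fin 2 → F) (hU : U ≠ 0) :
    see β U u = (sal β U u - U) ^ 2 - u 1 * β ^ 2 := by
  simp only [see, sal]
  field_simp
  ring

omit [NumberField F] in
theorem slot_two [CharZero F] (u : Fin 2 → F) (hU : U ≠ 0) (h1 : sg2 β U u ≠ 0) :
    (1 + sk2 β U u * (sal β U u - U + β)) ^ 2 - sk2 β U u ^ 2 * see β U u = u 1 := by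
  have hk : sk2 β U u * sg2 β U u = u 1 - 1 := by
    rw [sk2, mul_assoc, inv_mul_cancel₀ h1, mul_one]
  have hg : sg2 β U u = 2 * (sal β U u - U) + β + u 1 * β := rfl
  rw [see_eq u hU]
  linear_combination (sk2 β U u * β + 1) * hk -
    (sk2 β U u * (sk2 β U u * β + 1)) * hg

end slot

variable {F : Type} [Field F] [NumberField F]

theorem val_natCast_lt_one {v : HeightOneSpectrum (𝓞 F)} {n : ℕ} (h : (n : 𝓞 F) ∈ v.asIdeal) :
    v.valuation F (n : F) < 1 := by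
  have h2 := (v.valuation_lt_one_iff_mem (K := F) _).mpr h
  simpa using h2

/-- The ramified primes divide a natural number. -/
theorem exists_ram_nat (a b : Fˣ) : ∃ s : ℕ, s ≠ 0 ∧
    ∀ v : HeightOneSpectrum (𝓞 F), Ram a b v → v.valuation F (s : F) < 1 := by
  classical
  have hfin : {v : HeightOneSpectrum (𝓞 F) | Ram a b v}.Finite := by
    refine (((finite_ne_one (Units.mk0 (2 : F) two_ne_zero)).union (finite_ne_one a)).union
      (finite_ne_one b)).subset fun v hv => ?_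
    by_contra hcon
    simp only [Set.mem_union, Set.mem_ofPred_eq, not_or, not_not, Units.val_mk0] at hcon
    exact hv (unit_norm v hcon.1.1 a b hcon.1.2 hcon.2)
  refine ⟨∏ v ∈ hfin.toFinset, Ideal.absNorm v.asIdeal, ?_, fun v hv => ?_⟩
  · rw [Finset.prod_ne_zero_iff]
    exact fun v _ => (absNorm_pos' v).ne'
  · have h1 : ((∏ v ∈ hfin.toFinset, Ideal.absNorm v.asIdeal : ℕ) : 𝓞 F) ∈ v.asIdeal := by
      rw [← Finset.mul_prod_erase _ _ (hfin.mem_toFinset.mpr hv), Nat.cast_mul]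
      exact v.asIdeal.mul_mem_right _ (Ideal.absNorm_mem v.asIdeal)
    exact val_natCast_lt_one h1

/-- The four coordinates as a quaternion valued function. -/
theorem CQ_mk {a b : Fˣ} {A : AbsoluteValue F ℝ} {z : Fin 4 → F} :
    CQ (a := a) (b := b) A z fun t => ⟨t 0, t 1, t 2, t 3⟩ :=
  ⟨CA.coord 0, CA.coord 1, CA.coord 2, CA.coord 3⟩

theorem CQ_cj {a b : Fˣ} {n : ℕ} {A : AbsoluteValue F ℝ} {z : Fin n → F}
    {f : (Fin n → F) → Qt a b} (hf : CQ A z f) : CQ A z fun t => cj (f t) :=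
  ⟨hf.re, hf.imI.neg, hf.imJ.neg, hf.imK.neg⟩

theorem CQ_cnj {a b : Fˣ} {n : ℕ} {A : AbsoluteValue F ℝ} {z : Fin n → F}
    {f : (Fin n → F) → Qt a b} (hf : CQ A z f) (w : Qt a b) (h : nrd (f z) ≠ 0) :
    CQ A z fun t => cnj w (f t) :=
  CQ.smul (hf.nrd.inv h) ((hf.mul (CQ.const w)).mul (CQ_cj hf))

/-- A pure quaternion with square close to `a c₀ ^ 2` at the places of `T` can be conjugated to
one which is bounded at the places of `T`. -/
theorem exists_bounded (a b : Fˣ) (c₀ : F) (hc₀ : c₀ ≠ 0) : ∃ δ C : PlI F → ℝ, (∀ p, 0 < δ p) ∧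
    (∀ p, 0 < C p) ∧ ∀ (T : Set (PlI F)) (x : F) (w : Qt a b), T.Finite →
      (∃ v, (Sum.inr v : PlI F) ∈ T) → (∀ p ∈ T, pabv p (x - 1) < δ p) → w.re = 0 →
        nrd w = -(a * c₀ ^ 2 * x) →
          ∃ w' : Qt a b, w'.re = 0 ∧ nrd w' = nrd w ∧ ∀ p ∈ T, qs (pabv p) w' < C p := by
  choose δ hδ C hC h using fun p : PlI F => local_conj (pabv p) a b c₀ hc₀
  refine ⟨δ, C, hδ, hC, fun T x w hT hne hx hw hnw => ?_⟩
  have hu : ∀ p : PlI F, ∃ (t : Fin 4 → F) (γ : ℝ), 0 < γ ∧ (p ∈ T → ∀ t' : Fin 4 → F,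
      (∀ i, pabv p (t' i - t i) < γ) → nrd (⟨t' 0, t' 1, t' 2, t' 3⟩ : Qt a b) ≠ 0 ∧
        qs (pabv p) (cnj w ⟨t' 0, t' 1, t' 2, t' 3⟩) < C p) := by
    intro p
    by_cases hp : p ∈ T
    · obtain ⟨g, hg, hg'⟩ := h p x w (hx p hp) hw hnw
      have hgz : (⟨![g.re, g.imI, g.imJ, g.imK] 0, ![g.re, g.imI, g.imJ, g.imK] 1,
          ![g.re, g.imI, g.imJ, g.imK] 2, ![g.re, g.imI, g.imJ, g.imK] 3⟩ : Qt a b) = g := by
        ext <;> simp
      obtain ⟨γ₁, hγ₁, k₁⟩ := (CQ_mk (a := a) (b := b) (A := pabv p)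
        (z := ![g.re, g.imI, g.imJ, g.imK])).nrd.gt (M := 0) (by
          rw [hgz]; exact (pabv p).pos hg)
      obtain ⟨γ₂, hγ₂, k₂⟩ := (CQ_cnj (CQ_mk (a := a) (b := b) (A := pabv p)
        (z := ![g.re, g.imI, g.imJ, g.imK])) w (by rw [hgz]; exact hg)).qs_lt (M := C p) (by
          rw [hgz]; exact hg')
      refine ⟨![g.re, g.imI, g.imJ, g.imK], min γ₁ γ₂, lt_min hγ₁ hγ₂, fun _ t' ht' => ⟨?_, ?_⟩⟩
      · intro h0
        have := k₁ t' fun i => (ht' i).trans_le (min_le_left _ _)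
        rw [h0, map_zero] at this
        exact lt_irrefl _ this
      · exact k₂ t' fun i => (ht' i).trans_le (min_le_right _ _)
    · exact ⟨0, 1, one_pos, fun h => absurd h hp⟩
  choose t γ hγ hgood using hu
  obtain ⟨t', ht'⟩ := approxV T hT t γ hγ
  obtain ⟨v, hv⟩ := hne
  have h0 := (hgood _ hv t' (ht' _ hv)).1
  exact ⟨cnj w ⟨t' 0, t' 1, t' 2, t' 3⟩, cnj_re hw _, nrd_cnj _ _ h0,
    fun p hp => (hgood p hp t' (ht' p hp)).2⟩

/-- C2. Common slot. -/
theorem exists_slot (a b : Fˣ) (hab : Aniso a b) (r : ℕ) (hr : r ≠ 0) (ρ : ℝ) (hρ : 0 < ρ) :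
    ∃ r' : ℕ, r' ≠ 0 ∧ ∃ ρ' : ℝ, 0 < ρ' ∧ ∀ l m : Fˣ, Cl r' ρ' ((l : F) - 1) →
      Cl r' ρ' ((m : F) - 1) → ∃ y z : (Qt a b)ˣ, ClQ r ρ (y : Qt a b) ∧ ClQ r ρ (z : Qt a b) ∧
        y * z = z * y ∧ nrd (y : Qt a b) = l ∧ nrd (z : Qt a b) = m := by
  -- the base point
  obtain ⟨c₀, hc₀, hm1⟩ : ∃ c₀ : F, c₀ ≠ 0 ∧ (a : F) * c₀ ^ 2 ≠ -1 := by
    by_cases h : (a : F) = -1
    · refine ⟨2, two_ne_zero, ?_⟩
      rw [h]
      norm_num
    · exact ⟨1, one_ne_zero, by rwa [one_pow, mul_one]⟩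
  have hp1 : (a : F) * c₀ ^ 2 ≠ 1 := by
    intro h
    have := hab.plane (x := 1) (y := c₀) (by rw [h]; ring)
    exact one_ne_zero this.1
  obtain ⟨e₀, he₀⟩ : ∃ e₀ : F, e₀ = a * c₀ ^ 2 := ⟨_, rfl⟩
  rw [← he₀] at hm1 hp1
  have he₀0 : e₀ ≠ 0 := by
    rw [he₀]
    exact mul_ne_zero a.ne_zero (pow_ne_zero 2 hc₀)
  obtain ⟨β, hβ⟩ : ∃ β : F, β = (e₀ - 1) / 2 := ⟨_, rfl⟩
  obtain ⟨U, hU⟩ : ∃ U : F, U = e₀ + 1 := ⟨_, rfl⟩
  have hU0 : U ≠ 0 := by
    rw [hU]
    intro h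
    exact hm1 (eq_neg_of_add_eq_zero_left h)
  let o : Fin 2 → F := fun _ => 1
  have hsal : sal β U o = U / 2 := by simp [sal, o]; ring
  have hsee : see β U o = e₀ := by
    rw [see, hsal, hβ, hU]; simp only [o]; ring
  have hsg1 : sg1 β U o = 2 * e₀ := by
    rw [sg1, hsal, hβ, hU]; simp only [o]; ring
  have hsg2 : sg2 β U o = -2 := by
    rw [sg2, hsal, hβ, hU]; simp only [o]; ring
  have hsg1' : sg1 β U o ≠ 0 := by rw [hsg1]; exact mul_ne_zero two_ne_zero he₀0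
  have hsg2' : sg2 β U o ≠ 0 := by rw [hsg2]; exact neg_ne_zero.mpr two_ne_zero
  have hsk1 : sk1 β U o = 0 := by simp [sk1, o]
  have hsk2 : sk2 β U o = 0 := by simp [sk2, o]
  -- the targets
  obtain ⟨ε, hε, hcl⟩ := exists_of_clQ (F := F) hr hρ
  obtain ⟨s, hs, hram⟩ := exists_ram_nat a b
  have hrs : r * s ≠ 0 := mul_ne_zero hr hs
  obtain ⟨δ, C, hδ, hC, hbd⟩ := exists_bounded a b c₀ hc₀
  -- continuity
  have hcont : ∀ p : PlI F, ∃ γ : ℝ, 0 < γ ∧ ∀ u : Fin 2 → F, (∀ i, pabv p (u i - 1) < γ) →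
      pabv p (see β U u * e₀⁻¹ - 1) < min (δ p) (min (pabv p 4) 1) ∧ sg1 β U u ≠ 0 ∧
      sg2 β U u ≠ 0 ∧ pabv p (sk1 β U u) < ε p / (2 * C p) ∧ pabv p (sk2 β U u) < ε p / (2 * C p) ∧
      pabv p (sk1 β U u * (sal β U u + β)) < ε p / 2 ∧
      pabv p (sk2 β U u * (sal β U u - U + β)) < ε p / 2 := by
    intro p
    have hεp := hε p
    have hCp := hC p
    have h4 : 0 < pabv p 4 := (pabv p).pos (by norm_num)
    obtain ⟨γ₁, hγ₁, k₁⟩ := ((CA_see (A := pabv p) (z := o) (β := β) (U := U)).mul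
      (CA.const e₀⁻¹) |>.sub (CA.const 1)).lt (M := min (δ p) (min (pabv p 4) 1)) (by
        rw [hsee, mul_inv_cancel₀ he₀0, sub_self, map_zero]
        exact lt_min (hδ p) (lt_min h4 one_pos))
    obtain ⟨γ₂, hγ₂, k₂⟩ := (CA_sg1 (A := pabv p) (z := o) (β := β) (U := U)).gt (M := 0)
      ((pabv p).pos hsg1')
    obtain ⟨γ₃, hγ₃, k₃⟩ := (CA_sg2 (A := pabv p) (z := o) (β := β) (U := U)).gt (M := 0)
      ((pabv p).pos hsg2')
    obtain ⟨γ₄, hγ₄, k₄⟩ := (CA_sk1 (A := pabv p) hsg1').lt (M := ε p / (2 * C p)) (by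
      rw [hsk1, map_zero]; positivity)
    obtain ⟨γ₅, hγ₅, k₅⟩ := (CA_sk2 (A := pabv p) hsg2').lt (M := ε p / (2 * C p)) (by
      rw [hsk2, map_zero]; positivity)
    obtain ⟨γ₆, hγ₆, k₆⟩ := ((CA_sk1 (A := pabv p) hsg1').mul (CA_sal.add (CA.const β))).lt
      (M := ε p / 2) (by rw [hsk1, zero_mul, map_zero]; positivity)
    obtain ⟨γ₇, hγ₇, k₇⟩ := ((CA_sk2 (A := pabv p) hsg2').mul
      ((CA_sal.sub (CA.const U)).add (CA.const β))).lt
      (M := ε p / 2) (by rw [hsk2, zero_mul, map_zero]; positivity)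
    refine ⟨min (min (min γ₁ γ₂) (min γ₃ γ₄)) (min γ₅ (min γ₆ γ₇)),
      lt_min (lt_min (lt_min hγ₁ hγ₂) (lt_min hγ₃ hγ₄)) (lt_min hγ₅ (lt_min hγ₆ hγ₇)),
      fun u hu => ?_⟩
    have hA : ∀ i, pabv p (u i - o i) < min (min γ₁ γ₂) (min γ₃ γ₄) := fun i =>
      (hu i).trans_le (min_le_left _ _)
    have hB : ∀ i, pabv p (u i - o i) < min γ₅ (min γ₆ γ₇) := fun i =>
      (hu i).trans_le (min_le_right _ _)
    refine ⟨k₁ u fun i => (hA i).trans_le ((min_le_left _ _).trans (min_le_left _ _)), ?_, ?_,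
      k₄ u fun i => (hA i).trans_le ((min_le_right _ _).trans (min_le_right _ _)),
      k₅ u fun i => (hB i).trans_le (min_le_left _ _),
      k₆ u fun i => (hB i).trans_le ((min_le_right _ _).trans (min_le_left _ _)),
      k₇ u fun i => (hB i).trans_le ((min_le_right _ _).trans (min_le_right _ _))⟩
    · intro h0
      have := k₂ u fun i => (hA i).trans_le ((min_le_left _ _).trans (min_le_right _ _))
      rw [h0, map_zero] at this
      exact lt_irrefl _ this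
    · intro h0
      have := k₃ u fun i => (hA i).trans_le ((min_le_right _ _).trans (min_le_left _ _))
      rw [h0, map_zero] at this
      exact lt_irrefl _ this
  choose γ hγ hcont using hcont
  obtain ⟨k, hk, ρ', hρ', hclose⟩ := exists_cl (F := F) hrs γ hγ
  refine ⟨(r * s) ^ k, pow_ne_zero k hrs, ρ', hρ', fun l m hl hm => ?_⟩
  let u : Fin 2 → F := ![l, m]
  have hu : ∀ p ∈ TP F (r * s), ∀ i, pabv p (u i - 1) < γ p := by
    intro p hp i
    fin_cases i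
    · exact hclose _ hl p hp
    · exact hclose _ hm p hp
  have hall := fun p hp => hcont p u (hu p hp)
  obtain ⟨w₀⟩ : Nonempty (InfinitePlace F) := inferInstance
  obtain ⟨hx0, hg1, hg2, -⟩ := hall (Sum.inr w₀) inr_mem_TP
  obtain ⟨x, hx⟩ : ∃ x : F, x = see β U u * e₀⁻¹ := ⟨_, rfl⟩
  have hxe : see β U u = a * c₀ ^ 2 * x := by
    rw [hx, ← he₀]
    field_simp
  have hxne : x ≠ 0 := by
    rintro rfl
    rw [← hx, zero_sub, AbsoluteValue.map_neg, map_one] at hx0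
    exact lt_irrefl _ ((lt_min_iff.mp (lt_min_iff.mp hx0).2).2)
  have hene : see β U u ≠ 0 := by
    rw [hxe, ← he₀]
    exact mul_ne_zero he₀0 hxne
  -- the pure quaternion
  obtain ⟨p1, q1, r1, hpure⟩ := exists_pure a b hab (see β U u) hene (by
    intro v hv
    have hvT : (Sum.inl v : PlI F) ∈ TP F (r * s) := by
      rw [TP_mul]
      exact Or.inr (inl_mem_TP.mpr (hram v hv))
    have h1 := (hall _ hvT).1
    rw [← hx] at h1
    have h2 := (lt_min_iff.mp (lt_min_iff.mp h1).2).1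
    rw [pabv_lt] at h2
    have h3 : Units.mk0 x hxne ∈ LS (v.valuation F) := LS_of_close h2
    have h4 : a * Units.mk0 (see β U u) hene = (a * Units.mk0 c₀ hc₀) ^ 2 * Units.mk0 x hxne := by
      ext1
      push_cast [Units.val_mk0]
      rw [hxe]
      ring
    rw [h4]
    exact mul_mem (sq_mem_LS _) h3) (by
    intro φ ha _
    have h1 := (hall (Sum.inr (InfinitePlace.mk (Complex.ofRealHom.comp φ))) inr_mem_TP).1
    rw [← hx, pabv_inr] at h1
    have h2 := (lt_min_iff.mp (lt_min_iff.mp h1).2).2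
    rw [InfinitePlace.apply, RingHom.comp_apply, Complex.ofRealHom_eq_coe, Complex.norm_real,
      Real.norm_eq_abs, map_sub, map_one, abs_lt] at h2
    have h3 : 0 < φ x := by linarith
    rw [hxe, map_mul, map_mul, map_pow]
    have h4 : φ c₀ ≠ 0 := (map_ne_zero φ).mpr hc₀
    have h5 : 0 < φ c₀ ^ 2 * φ x := by positivity
    nlinarith)
  obtain ⟨w, hwre, hwn, hwb⟩ := hbd (TP F (r * s)) x ⟨0, p1, q1, r1⟩ (TP_finite hrs)
    ⟨w₀, inr_mem_TP⟩ (fun p hp => by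
      have h1 := (hall p hp).1
      rw [← hx] at h1
      exact (lt_min_iff.mp h1).1) rfl (by
      rw [← hxe, hpure]
      simp only [nrd]
      ring)
  have hwn' : nrd w = -see β U u := by
    rw [hwn, hpure]
    simp only [nrd]
    ring
  -- the two elements
  have hmk : ∀ x₁ ξ : F, nrd (⟨x₁, ξ * w.imI, ξ * w.imJ, ξ * w.imK⟩ : Qt a b) =
      x₁ ^ 2 - ξ ^ 2 * see β U u := by
    intro x₁ ξ
    have h1 : nrd w = -(a * w.imI ^ 2) - b * w.imJ ^ 2 + a * b * w.imK ^ 2 := by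
      simp only [nrd, hwre]
      ring
    rw [hwn'] at h1
    simp only [nrd]
    linear_combination -(ξ ^ 2) * h1
  have hny : nrd (⟨1 + sk1 β U u * (sal β U u + β), sk1 β U u * w.imI, sk1 β U u * w.imJ,
      sk1 β U u * w.imK⟩ : Qt a b) = l := by
    rw [hmk, slot_one u hg1]
    rfl
  have hnz : nrd (⟨1 + sk2 β U u * (sal β U u - U + β), sk2 β U u * w.imI, sk2 β U u * w.imJ,
      sk2 β U u * w.imK⟩ : Qt a b) = m := by
    rw [hmk, slot_two u hU0 hg2]
    rfl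
  obtain ⟨y, hy⟩ := exists_unit _ (by rw [hny]; exact l.ne_zero)
  obtain ⟨z, hz⟩ := exists_unit _ (by rw [hnz]; exact m.ne_zero)
  have hsize : ∀ (t ξ : F) (p : PlI F), p ∈ TP F (r * s) → pabv p t < ε p / 2 →
      pabv p ξ < ε p / (2 * C p) →
      qs (pabv p) ((⟨1 + t, ξ * w.imI, ξ * w.imJ, ξ * w.imK⟩ : Qt a b) - 1) < ε p := by
    intro t ξ p hp h1 h2
    have h3 := hwb p hp
    have hCp := hC p
    have e1 : qs (pabv p) ((⟨1 + t, ξ * w.imI, ξ * w.imJ, ξ * w.imK⟩ : Qt a b) - 1) =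
        pabv p t + pabv p ξ * (qs (pabv p) w) := by
      simp only [qs, QuaternionAlgebra.re_sub, QuaternionAlgebra.imI_sub,
        QuaternionAlgebra.imJ_sub, QuaternionAlgebra.imK_sub, QuaternionAlgebra.re_one,
        QuaternionAlgebra.imI_one, QuaternionAlgebra.imJ_one, QuaternionAlgebra.imK_one,
        add_sub_cancel_left, sub_zero, map_mul, hwre, map_zero]
      ring
    rw [e1]
    have h4 : pabv p ξ * qs (pabv p) w ≤ ε p / (2 * C p) * C p :=
      mul_le_mul h2.le h3.le (qs_nonneg _ _) (by have := hε p; positivity)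
    have h5 : ε p / (2 * C p) * C p = ε p / 2 := by field_simp
    linarith
  have hsub : ∀ p ∈ TP F r, p ∈ TP F (r * s) := fun p hp => by
    rw [TP_mul]; exact Or.inl hp
  refine ⟨y, z, ?_, ?_, ?_, by rw [hy]; exact hny, by rw [hz]; exact hnz⟩
  · refine hcl _ fun p hp => ?_
    rw [hy]
    obtain ⟨-, -, -, h1, -, h2, -⟩ := hall p (hsub p hp)
    exact hsize _ _ p (hsub p hp) h2 h1
  · refine hcl _ fun p hp => ?_
    rw [hz]
    obtain ⟨-, -, -, -, h1, -, h2⟩ := hall p (hsub p hp)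
    exact hsize _ _ p (hsub p hp) h2 h1
  · ext1
    rw [Units.val_mul, Units.val_mul, hy, hz]
    ext
    · simp only [qre]; ring
    · simp only [qimI]; ring
    · simp only [qimJ]; ring
    · simp only [qimK]; ring

end Vale.Agent.P011.MPQ
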