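import Vale.Agent.P011.MPQ.Defs
import Vale.Agent.P011.Arith.Schilling

/-!
Pure quaternions with a prescribed square.
-/

open NumberField IsDedekindDomain

namespace Vale.Agent.P011.MPQ

open Arith

variable {F : Type} [Field F] [NumberField F]

omit [NumberField F] in
/-- In an anisotropic quaternion algebra `b` is not a norm from `F(√a)`. -/
theorem Aniso.not_norm {a b : Fˣ} (hab : Aniso a b) : b ∉ NF a := by
  rintro ⟨x, y, h⟩
  have h1 : nrd (⟨x, y, 1, 0⟩ : Qt a b) = 0 := by
    simp only [nrd]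
    linear_combination -h
  have h2 := congrArg QuaternionAlgebra.imJ (hab _ h1)
  simp at h2

omit [NumberField F] in
theorem Aniso.plane {a b : Fˣ} (hab : Aniso a b) {x y : F} (h : x ^ 2 - a * y ^ 2 = 0) :
    x = 0 ∧ y = 0 := by
  have h1 : nrd (⟨x, y, 0, 0⟩ : Qt a b) = 0 := by
    simp only [nrd]
    linear_combination h
  have h2 := hab _ h1
  exact ⟨congrArg QuaternionAlgebra.re h2, congrArg QuaternionAlgebra.imI h2⟩

/-- Local-global principle: `e` is the square of a pure quaternion if it is locally equal to `a`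
up to squares at the ramified places. -/
theorem exists_pure (a b : Fˣ) (hab : Aniso a b) (e : F) (he : e ≠ 0)
    (hfin : ∀ v, Ram a b v → a * Units.mk0 e he ∈ LS (v.valuation F))
    (hreal : ∀ φ : F →+* ℝ, φ a < 0 → φ b < 0 → φ e < 0) :
    ∃ p q r : F, e = a * p ^ 2 + b * q ^ 2 - a * b * r ^ 2 := by
  set e' : Fˣ := Units.mk0 e he with he'
  have hπ : ∀ v : HeightOneSpectrum (𝓞 F), ∃ π : F, v.valuation F π = WithZero.exp (-1) :=
    fun v => by
      obtain ⟨π, hπ⟩ := v.valuation_exists_uniformizer F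
      exact ⟨π, hπ⟩
  -- real places
  have hreal' : ∀ (R : Type) [Field R] (ι : F →+* R) (ψ : R →+* ℝ) (a' b' : Rˣ), ι a = a' →
      ι b = b' → (0 ≤ ψ (ι e)) → b' ∈ NF a' ⊔ LSR ψ := by
    intro R _ ι ψ a' b' ha' hb' he0
    by_cases hb : 0 < ψ b'
    · exact Subgroup.mem_sup_right (mem_LSR.mpr hb)
    · have hb2 : ψ b' < 0 := lt_of_le_of_ne (not_lt.mp hb) ((map_ne_zero ψ).mpr b'.ne_zero)
      have ha2 : 0 < ψ a' := by
        by_contra ha
        have ha2 : ψ a' < 0 := lt_of_le_of_ne (not_lt.mp ha) ((map_ne_zero ψ).mpr a'.ne_zero)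
        have h1 := hreal (ψ.comp ι) (by rw [RingHom.comp_apply, ha']; exact ha2)
          (by rw [RingHom.comp_apply, hb']; exact hb2)
        rw [RingHom.comp_apply] at h1
        linarith
      have h1 : b' / (-a') ∈ LSR ψ := by
        rw [mem_LSR, Units.val_div_eq_div_val, map_div₀, Units.val_neg, map_neg]
        exact div_pos_of_neg_of_neg hb2 (by linarith)
      have h2 : b' = -a' * (b' / (-a')) := by
        rw [mul_div_cancel]
      rw [h2]
      exact Subgroup.mul_mem_sup (neg_mem_NF _) h1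
  -- `e` is not a square
  have hensq : ¬ IsSquare (e' : F) := by
    intro hsq
    refine hab.not_norm (hasse_norm a b ?_)
    rintro (v | φ)
    · change b ∈ NF a ⊔ LS (v.valuation F)
      by_contra hv
      have h1 := hfin v hv
      have h2 : e' ∈ LS (v.valuation F) := Sq_le_LS _ (mem_Sq_iff.mpr hsq)
      have h3 : a ∈ LS (v.valuation F) := by
        have := mul_mem h1 (inv_mem h2)
        rwa [mul_inv_cancel_right] at this
      exact hv (by
        rw [NF_sup_of_mem (hπ v) a h3]; exact Subgroup.mem_top _)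
    · refine hreal' F (RingHom.id F) φ a b rfl rfl ?_
      obtain ⟨t, ht⟩ := hsq
      rw [he', Units.val_mk0] at ht
      rw [RingHom.id_apply, ht, map_mul]
      exact mul_self_nonneg _
  obtain ⟨E, _, _, _, hE, θ, hθ⟩ := exists_quad e' hensq
  rw [he', Units.val_mk0] at hθ
  have hθ' : ∀ x : F, algebraMap F E x ≠ θ := by
    rintro r rfl
    apply hensq
    refine ⟨r, (algebraMap F E).injective ?_⟩
    rw [he', Units.val_mk0, ← hθ, map_mul, pow_two]
  set ι : Fˣ →* Eˣ := Units.map (algebraMap F E : F →* E) with hι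
  have key : ι b ∈ NF (ι a) := by
    refine hasse_norm (ι a) (ι b) ?_
    rintro (w | ψ)
    · change ι b ∈ NF (ι a) ⊔ LS (w.valuation E)
      obtain ⟨v, hv⟩ := Sch.exists_below (F := F) w
      by_cases hvR : Ram a b v
      · have h1 : ι (a * e') ∈ LS (w.valuation E) := LS_map hv (hfin v hvR)
        have h2 : ι e' ∈ LS (w.valuation E) := by
          refine Sq_le_LS _ (mem_Sq_iff.mpr ⟨θ, ?_⟩)
          change algebraMap F E e = θ * θ
          rw [← hθ, pow_two]
        have h3 : ι a ∈ LS (w.valuation E) := by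
          have := mul_mem h1 (inv_mem h2)
          rwa [map_mul, mul_inv_cancel_right] at this
        obtain ⟨π, hπw⟩ := w.valuation_exists_uniformizer E
        rw [NF_sup_of_mem ⟨π, hπw⟩ (ι a) h3]
        exact Subgroup.mem_top _
      · exact Sch.sup_map hv (not_not.mp hvR)
    · refine hreal' E (algebraMap F E) ψ (ι a) (ι b) rfl rfl ?_
      rw [← hθ, map_pow]
      positivity
  obtain ⟨X, Y, hXY⟩ := key
  obtain ⟨x1, x2, y1, y2, h1, h2⟩ :=
    Sch.descend (a := (a : F)) (b := (b : F)) hθ hE hθ' hXY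
  have hn : x2 ^ 2 - a * y2 ^ 2 ≠ 0 := by
    intro h0
    obtain ⟨hx2, hy2⟩ := hab.plane h0
    apply hab.not_norm
    exact ⟨x1, y1, by rw [h1, h0]; ring⟩
  refine ⟨(y1 * x2 - x1 * y2) / (x2 ^ 2 - a * y2 ^ 2), x2 / (x2 ^ 2 - a * y2 ^ 2),
    y2 / (x2 ^ 2 - a * y2 ^ 2), ?_⟩
  field_simp
  rw [h1]
  linear_combination (-(x1 * x2) + a * y1 * y2) * h2
end Vale.Agent.P011.MPQ
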