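import Mathlib

/-!
# P011, quaternion Margulis-Platonov: the combinatorial core, part 1

Symmetric boxes in `ℤ ^ N` and averages of a unitary representation of `ℤ ^ N` over them.
-/

namespace Vale.Agent.P011.MPQ

open Finset

/-- The box `[-n, n] ^ N`. -/
noncomputable def sbox (N n : ℕ) : Finset (Fin N → ℤ) := Fintype.piFinset fun _ => Finset.Icc (-(n : ℤ)) n

variable {N : ℕ}

theorem mem_sbox {n : ℕ} {w : Fin N → ℤ} : w ∈ sbox N n ↔ ∀ i, |w i| ≤ n := by
  simp [sbox, abs_le]

/-- The box `[0, X) ^ N`. -/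
def Bx (N X : ℕ) : Set (Fin N → ℤ) := {x | ∀ i, 0 ≤ x i ∧ x i < X}

theorem mem_Bx {X : ℕ} {x : Fin N → ℤ} : x ∈ Bx N X ↔ ∀ i, 0 ≤ x i ∧ x i < X := Iff.rfl

theorem zero_mem_sbox (n : ℕ) : (0 : Fin N → ℤ) ∈ sbox N n := by
  rw [mem_sbox]; intro i; simp

theorem neg_mem_sbox {n : ℕ} {w : Fin N → ℤ} : -w ∈ sbox N n ↔ w ∈ sbox N n := by
  simp [mem_sbox]

theorem card_sbox (n : ℕ) : (sbox N n).card = (2 * n + 1) ^ N := by
  rw [sbox, Fintype.card_piFinset]
  simp only [Int.card_Icc, prod_const, card_univ, Fintype.card_fin]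
  congr 1
  omega

theorem card_sbox_pos (n : ℕ) : (0 : ℝ) < (sbox N n).card := by
  rw [card_sbox]; positivity

/-- The number of elements `u` of the box such that `u - w` is outside of the box. -/
theorem card_bad (n : ℕ) (w : Fin N → ℤ) :
    (((sbox N n).filter fun u => u - w ∉ sbox N n).card : ℝ) * (2 * n + 1) ≤
      (∑ i, |(w i : ℝ)|) * (2 * n + 1) ^ N := by
  classical
  have h1 : ((sbox N n).filter fun u => u - w ∉ sbox N n) ⊆
      Finset.univ.biUnion fun i : Fin N => Fintype.piFinset (Function.update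
        (fun _ => Finset.Icc (-(n : ℤ)) n) i
        ((Finset.Icc (-(n : ℤ)) n).filter fun a => ¬ |a - w i| ≤ n)) := by
    intro u hu
    rw [mem_filter, mem_sbox, mem_sbox] at hu
    obtain ⟨h1, h2⟩ := hu
    push Not at h2
    obtain ⟨i, hi⟩ := h2
    rw [mem_biUnion]
    refine ⟨i, mem_univ _, ?_⟩
    rw [Fintype.mem_piFinset]
    intro j
    by_cases hj : j = i
    · subst hj
      rw [Function.update_self, mem_filter, mem_Icc, ← abs_le]
      refine ⟨h1 j, ?_⟩
      push Not
      simpa using hi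
    · rw [Function.update_of_ne hj, mem_Icc, ← abs_le]
      exact h1 j
  have h2 : ∀ i : Fin N, ((Fintype.piFinset (Function.update
        (fun _ => Finset.Icc (-(n : ℤ)) n) i
        ((Finset.Icc (-(n : ℤ)) n).filter fun a => ¬ |a - w i| ≤ n))).card : ℝ) * (2 * n + 1) ≤
        |(w i : ℝ)| * (2 * n + 1) ^ N := by
    intro i
    have hN : 0 < N := lt_of_le_of_lt (Nat.zero_le _) i.2
    have hc : (((Finset.Icc (-(n : ℤ)) n).filter fun a => ¬ |a - w i| ≤ n).card : ℝ) ≤
        |(w i : ℝ)| := by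
      have hsub : ((Finset.Icc (-(n : ℤ)) n).filter fun a => ¬ |a - w i| ≤ n) ⊆
          if 0 ≤ w i then Finset.Ico (-(n : ℤ)) (-(n : ℤ) + w i) else
            Finset.Ioc ((n : ℤ) + w i) n := by
        intro a ha
        rw [mem_filter, mem_Icc, abs_le] at ha
        split_ifs with h
        · rw [mem_Ico]; omega
        · rw [mem_Ioc]; omega
      have hle := card_le_card hsub
      split_ifs at hle with h
      · rw [Int.card_Ico] at hle
        have : ((-(n : ℤ) + w i - -(n : ℤ)).toNat : ℤ) = w i := by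
          rw [Int.toNat_of_nonneg] <;> omega
        rw [abs_of_nonneg (by exact_mod_cast h)]
        have h3 : ((((Finset.Icc (-(n : ℤ)) n).filter fun a => ¬ |a - w i| ≤ n).card : ℕ) : ℤ) ≤
            w i := le_trans (Int.ofNat_le.mpr hle) (le_of_eq this)
        exact_mod_cast h3
      · rw [Int.card_Ioc] at hle
        have : (((n : ℤ) - ((n : ℤ) + w i)).toNat : ℤ) = - w i := by
          rw [Int.toNat_of_nonneg] <;> omega
        rw [abs_of_neg (by exact_mod_cast (not_le.mp h))]
        have h3 : ((((Finset.Icc (-(n : ℤ)) n).filter fun a => ¬ |a - w i| ≤ n).card : ℕ) : ℤ) ≤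
            - w i := le_trans (Int.ofNat_le.mpr hle) (le_of_eq this)
        exact_mod_cast h3
    rw [Fintype.card_piFinset]
    have hprod : ∏ j : Fin N, ((Function.update (fun _ : Fin N => Finset.Icc (-(n : ℤ)) n) i
        ((Finset.Icc (-(n : ℤ)) n).filter fun a => ¬ |a - w i| ≤ n)) j).card =
        ((Finset.Icc (-(n : ℤ)) n).filter fun a => ¬ |a - w i| ≤ n).card *
          (2 * n + 1) ^ (N - 1) := by
      rw [← Finset.mul_prod_erase Finset.univ _ (mem_univ i)]
      rw [Function.update_self]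
      congr 1
      rw [Finset.prod_congr rfl (g := fun _ => 2 * n + 1)]
      · rw [prod_const, card_erase_of_mem (mem_univ i), card_univ, Fintype.card_fin]
      · intro j hj
        rw [mem_erase] at hj
        rw [Function.update_of_ne hj.1, Int.card_Icc]
        omega
    rw [hprod]
    push_cast
    have hpow : ((2 * (n : ℝ) + 1) ^ (N - 1)) * (2 * n + 1) = (2 * n + 1) ^ N := by
      rw [← pow_succ, Nat.sub_add_cancel hN]
    rw [mul_assoc, hpow]
    exact mul_le_mul_of_nonneg_right hc (by positivity)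
  calc (((sbox N n).filter fun u => u - w ∉ sbox N n).card : ℝ) * (2 * n + 1)
      ≤ (∑ i : Fin N, ((Fintype.piFinset (Function.update
        (fun _ => Finset.Icc (-(n : ℤ)) n) i
        ((Finset.Icc (-(n : ℤ)) n).filter fun a => ¬ |a - w i| ≤ n))).card : ℝ)) *
          (2 * n + 1) := by
        refine mul_le_mul_of_nonneg_right ?_ (by positivity)
        refine le_trans (Nat.cast_le.mpr ((card_le_card h1).trans card_biUnion_le)) ?_
        push_cast
        exact le_rfl
    _ = ∑ i : Fin N, (((Fintype.piFinset (Function.update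
        (fun _ => Finset.Icc (-(n : ℤ)) n) i
        ((Finset.Icc (-(n : ℤ)) n).filter fun a => ¬ |a - w i| ≤ n))).card : ℝ) *
          (2 * n + 1)) := by rw [Finset.sum_mul]
    _ ≤ ∑ i : Fin N, |(w i : ℝ)| * (2 * n + 1) ^ N := sum_le_sum fun i _ => h2 i
    _ = _ := by rw [Finset.sum_mul]

end Vale.Agent.P011.MPQ
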