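import Vale.Agent.P011.MPQ.CF1Hilb

/-!
# P011, quaternion Margulis-Platonov: the combinatorial core, part 3

The energy estimates.
-/

namespace Vale.Agent.P011.MPQ

open Finset

namespace URep

variable {N : ℕ} {H : Type*} [NormedAddCommGroup H] [InnerProductSpace ℝ H] (ρ : URep N H)

theorem Q_A (t : ℤ) (n L ℓ : ℕ) (δ : Fin N → ℤ) (hδ : ∀ i, |δ i| ≤ ℓ) (f : H) :
    ‖ρ.Q t n (ρ.A t L δ f) - ρ.Q t n f‖ ≤ (2 * N * (L * ℓ : ℕ) / (2 * n + 1)) * ‖f‖ := by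
  rw [A, Q_av]
  refine norm_av_sub_le (Icc_nonempty L) fun k hk => ?_
  rw [mul_smul]
  refine ρ.absorb t n (L * ℓ) (k • δ) (fun i => ?_) f
  rw [Pi.smul_apply, smul_eq_mul, abs_mul]
  push_cast
  rw [mem_Icc, ← abs_le] at hk
  exact mul_le_mul hk (hδ i) (abs_nonneg _) (by positivity)

theorem claim1 (t : ℤ) (n L ℓ : ℕ) (δ : Fin N → ℤ) (hδ : ∀ i, |δ i| ≤ ℓ) (f : H) :
    ‖ρ.A t L δ (ρ.A t L δ f) - ρ.Q t n (ρ.Q t n f)‖ ^ 2 ≤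
      ‖ρ.A t L δ f‖ ^ 2 - ‖ρ.Q t n f‖ ^ 2 + 4 * (2 * N * (L * ℓ : ℕ) / (2 * n + 1)) * ‖f‖ ^ 2 := by
  set κ : ℝ := 2 * N * (L * ℓ : ℕ) / (2 * n + 1) with hκ
  have hκ0 : 0 ≤ κ := by positivity
  have h1 := ρ.Q_A t n L ℓ δ hδ f
  have h2 := ρ.Q_A t n L ℓ δ hδ (ρ.A t L δ f)
  rw [← hκ] at h1 h2
  have hA : ‖ρ.A t L δ f‖ ≤ ‖f‖ := ρ.norm_A_le t L δ f
  have h3 : ‖ρ.Q t n (ρ.A t L δ (ρ.A t L δ f)) - ρ.Q t n f‖ ≤ 2 * κ * ‖f‖ := by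
    calc ‖ρ.Q t n (ρ.A t L δ (ρ.A t L δ f)) - ρ.Q t n f‖
        ≤ ‖ρ.Q t n (ρ.A t L δ (ρ.A t L δ f)) - ρ.Q t n (ρ.A t L δ f)‖ +
          ‖ρ.Q t n (ρ.A t L δ f) - ρ.Q t n f‖ := norm_sub_le_norm_sub_add_norm_sub _ _ _
      _ ≤ κ * ‖ρ.A t L δ f‖ + κ * ‖f‖ := add_le_add h2 h1
      _ ≤ κ * ‖f‖ + κ * ‖f‖ := by gcongr
      _ = 2 * κ * ‖f‖ := by ring
  have h4 : ‖ρ.Q t n f‖ ^ 2 - 2 * κ * ‖f‖ ^ 2 ≤
      inner ℝ (ρ.A t L δ (ρ.A t L δ f)) (ρ.Q t n (ρ.Q t n f)) := by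
    rw [← inner_Q]
    have : inner ℝ (ρ.Q t n (ρ.A t L δ (ρ.A t L δ f))) (ρ.Q t n f) = ‖ρ.Q t n f‖ ^ 2 +
        inner ℝ (ρ.Q t n (ρ.A t L δ (ρ.A t L δ f)) - ρ.Q t n f) (ρ.Q t n f) := by
      rw [inner_sub_left, real_inner_self_eq_norm_sq]; ring
    rw [this]
    have h5 := abs_real_inner_le_norm (ρ.Q t n (ρ.A t L δ (ρ.A t L δ f)) - ρ.Q t n f) (ρ.Q t n f)
    have h6 : ‖ρ.Q t n (ρ.A t L δ (ρ.A t L δ f)) - ρ.Q t n f‖ * ‖ρ.Q t n f‖ ≤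
        2 * κ * ‖f‖ * ‖f‖ := by
      refine mul_le_mul h3 (ρ.norm_Q_le t n f) (norm_nonneg _) (by positivity)
    have := (abs_le.mp h5).1
    nlinarith [this, h6]
  have h7 : ‖ρ.A t L δ (ρ.A t L δ f)‖ ^ 2 ≤ ‖ρ.A t L δ f‖ ^ 2 := by
    have := ρ.norm_A_le t L δ (ρ.A t L δ f)
    gcongr
  have h8 : ‖ρ.Q t n (ρ.Q t n f)‖ ^ 2 ≤ ‖ρ.Q t n f‖ ^ 2 := by
    have := ρ.norm_Q_le t n (ρ.Q t n f)
    gcongr
  rw [norm_sub_sq_real]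
  linarith

theorem absorb2 (t : ℤ) (n' L ℓ : ℕ) (h : ℤ) (h0 : h ≠ 0) (hL : |h| ≤ 2 * L) (g : H) :
    ‖ρ.Q (t * h) ℓ (ρ.Q (t * (2 * L).factorial) n' g) - ρ.Q (t * h) ℓ g‖ ≤
      (2 * N * ((2 * L).factorial * n' : ℕ) / (2 * ℓ + 1)) * ‖g‖ := by
  obtain ⟨c, hc⟩ : h ∣ ((2 * L).factorial : ℤ) := by
    rw [← Int.natAbs_dvd]
    have h1 : h.natAbs ≤ 2 * L := by
      have : (h.natAbs : ℤ) ≤ 2 * L := by rw [Int.natCast_natAbs]; exact hL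
      exact_mod_cast this
    have h2 : 0 < h.natAbs := Int.natAbs_pos.mpr h0
    exact_mod_cast Nat.dvd_factorial h2 h1
  have hcabs : |c| ≤ ((2 * L).factorial : ℤ) := by
    have h1 : (1 : ℤ) ≤ |h| := Int.one_le_abs h0
    have h2 : |h| * |c| = ((2 * L).factorial : ℤ) := by
      rw [← abs_mul, ← hc]; exact abs_of_nonneg (by positivity)
    nlinarith [abs_nonneg c]
  have e : ρ.Q (t * (2 * L).factorial) n' g = av (sbox N n') fun w => ρ.S ((t * h) • (c • w)) g := by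
    rw [Q]
    congr 1
    funext w
    rw [smul_smul, mul_assoc, ← hc]
  rw [e, Q_av]
  refine norm_av_sub_le (sbox_nonempty n') fun w hw => ?_
  refine ρ.absorb (t * h) ℓ ((2 * L).factorial * n') (c • w) (fun i => ?_) g
  rw [Pi.smul_apply, smul_eq_mul, abs_mul]
  push_cast
  exact mul_le_mul hcabs (mem_sbox.mp hw i) (abs_nonneg _) (by positivity)

theorem claim2a (t : ℤ) (n' L ℓ : ℕ) (h : ℤ) (h0 : h ≠ 0) (hL : |h| ≤ 2 * L) (f : H) :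
    inner ℝ (ρ.Q (t * h) ℓ f) f ≤ ‖ρ.Q (t * (2 * L).factorial) n' f‖ ^ 2 +
      2 * (2 * N * ((2 * L).factorial * n' : ℕ) / (2 * ℓ + 1)) * ‖f‖ ^ 2 := by
  set κ : ℝ := 2 * N * ((2 * L).factorial * n' : ℕ) / (2 * ℓ + 1) with hκ
  have hκ0 : 0 ≤ κ := by positivity
  have h1 := ρ.absorb2 t n' L ℓ h h0 hL f
  rw [← hκ] at h1
  set Q := ρ.Q (t * h) ℓ with hQ
  set Q' := ρ.Q (t * (2 * L).factorial) n' with hQ'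
  have hQf : ‖Q f‖ ≤ ‖f‖ := ρ.norm_Q_le _ _ f
  have hQ'f : ‖Q' f‖ ≤ ‖f‖ := ρ.norm_Q_le _ _ f
  have e1 : inner ℝ (Q f) f = inner ℝ (Q (Q' f)) f - inner ℝ (Q (Q' f) - Q f) f := by
    rw [inner_sub_left]; ring
  have e2 : inner ℝ (Q (Q' f)) f = inner ℝ (Q' f) (Q (Q' f)) -
      inner ℝ (Q' f) (Q (Q' f) - Q f) := by
    rw [inner_sub_right, hQ, ρ.inner_Q]; ring
  have b1 := abs_le.mp (abs_real_inner_le_norm (Q (Q' f) - Q f) f)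
  have b2 := abs_le.mp (abs_real_inner_le_norm (Q' f) (Q (Q' f) - Q f))
  have b3 : inner ℝ (Q' f) (Q (Q' f)) ≤ ‖Q' f‖ ^ 2 := by
    refine (real_inner_le_norm _ _).trans ?_
    rw [sq]
    exact mul_le_mul_of_nonneg_left (ρ.norm_Q_le _ _ _) (norm_nonneg _)
  have b4 : ‖Q (Q' f) - Q f‖ * ‖f‖ ≤ κ * ‖f‖ * ‖f‖ :=
    mul_le_mul_of_nonneg_right h1 (norm_nonneg _)
  have b5 : ‖Q' f‖ * ‖Q (Q' f) - Q f‖ ≤ ‖f‖ * (κ * ‖f‖) :=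
    mul_le_mul hQ'f h1 (norm_nonneg _) (norm_nonneg _)
  rw [e1, e2]
  nlinarith [b1.1, b2.1]

theorem norm_A_sq (t : ℤ) (L : ℕ) (δ : Fin N → ℤ) (f g : H) :
    inner ℝ (ρ.A t L δ f) (ρ.A t L δ g) = ((2 * L + 1 : ℝ)⁻¹) ^ 2 *
      ∑ k ∈ Finset.Icc (-(L : ℤ)) L, ∑ k' ∈ Finset.Icc (-(L : ℤ)) L,
        inner ℝ (ρ.S ((t * (k - k')) • δ) f) g := by
  rw [A, A, inner_av_left, card_Icc, sq, mul_assoc]
  congr 1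
  rw [Finset.mul_sum]
  refine Finset.sum_congr rfl fun k _ => ?_
  rw [inner_av_right, card_Icc]
  congr 1
  refine sum_congr rfl fun k' _ => ?_
  rw [inner_S, ← sub_smul, mul_sub]

theorem claim2 (t : ℤ) (n' L ℓ : ℕ) (f : H) :
    ((sbox N ℓ).card : ℝ)⁻¹ * ∑ δ ∈ sbox N ℓ, ‖ρ.A t L δ f‖ ^ 2 ≤
      ‖f‖ ^ 2 / (2 * L + 1) + ‖ρ.Q (t * (2 * L).factorial) n' f‖ ^ 2 +
      2 * (2 * N * ((2 * L).factorial * n' : ℕ) / (2 * ℓ + 1)) * ‖f‖ ^ 2 := by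
  set B : ℝ := ‖ρ.Q (t * (2 * L).factorial) n' f‖ ^ 2 +
      2 * (2 * N * ((2 * L).factorial * n' : ℕ) / (2 * ℓ + 1)) * ‖f‖ ^ 2 with hB
  have hB0 : 0 ≤ B := by positivity
  have e1 : ((sbox N ℓ).card : ℝ)⁻¹ * ∑ δ ∈ sbox N ℓ, ‖ρ.A t L δ f‖ ^ 2 =
      ((2 * L + 1 : ℝ)⁻¹) ^ 2 * ∑ k ∈ Finset.Icc (-(L : ℤ)) L, ∑ k' ∈ Finset.Icc (-(L : ℤ)) L,
        inner ℝ (ρ.Q (t * (k - k')) ℓ f) f := by
    have : ∀ δ ∈ sbox N ℓ, ‖ρ.A t L δ f‖ ^ 2 = ((2 * L + 1 : ℝ)⁻¹) ^ 2 *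
      ∑ k ∈ Finset.Icc (-(L : ℤ)) L, ∑ k' ∈ Finset.Icc (-(L : ℤ)) L,
        inner ℝ (ρ.S ((t * (k - k')) • δ) f) f := by
      intro δ _
      rw [← norm_A_sq, real_inner_self_eq_norm_sq]
    rw [sum_congr rfl this, ← mul_sum, mul_left_comm]
    congr 1
    rw [Finset.sum_comm, Finset.mul_sum]
    refine sum_congr rfl fun k _ => ?_
    rw [Finset.sum_comm, Finset.mul_sum]
    refine sum_congr rfl fun k' _ => ?_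
    rw [Q, inner_av_left]
  rw [e1]
  have h2 : ∀ k ∈ Finset.Icc (-(L : ℤ)) L, ∑ k' ∈ Finset.Icc (-(L : ℤ)) L,
      inner ℝ (ρ.Q (t * (k - k')) ℓ f) f ≤ ‖f‖ ^ 2 + (2 * L + 1) * B := by
    intro k hk
    have : ∀ k' ∈ Finset.Icc (-(L : ℤ)) L, inner ℝ (ρ.Q (t * (k - k')) ℓ f) f ≤
        (if k' = k then ‖f‖ ^ 2 else 0) + B := by
      intro k' hk'
      by_cases h : k' = k
      · rw [if_pos h]
        have : inner ℝ (ρ.Q (t * (k - k')) ℓ f) f ≤ ‖f‖ ^ 2 := by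
          refine (real_inner_le_norm _ _).trans ?_
          rw [sq]
          exact mul_le_mul_of_nonneg_right (ρ.norm_Q_le _ _ _) (norm_nonneg _)
        linarith
      · rw [if_neg h, zero_add]
        rw [mem_Icc] at hk hk'
        refine ρ.claim2a t n' L ℓ (k - k') (sub_ne_zero.mpr (Ne.symm h)) ?_ f
        rw [abs_le]; omega
    refine (sum_le_sum this).trans ?_
    rw [sum_add_distrib, sum_ite_eq' (Finset.Icc (-(L : ℤ)) L) k, if_pos hk, sum_const,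
      nsmul_eq_mul, card_Icc]
  have h3 := sum_le_sum h2
  rw [sum_const, nsmul_eq_mul, card_Icc] at h3
  have hpos : (0 : ℝ) < 2 * L + 1 := by positivity
  calc ((2 * L + 1 : ℝ)⁻¹) ^ 2 * ∑ k ∈ Finset.Icc (-(L : ℤ)) L, ∑ k' ∈ Finset.Icc (-(L : ℤ)) L,
        inner ℝ (ρ.Q (t * (k - k')) ℓ f) f
      ≤ ((2 * L + 1 : ℝ)⁻¹) ^ 2 * ((2 * L + 1) * (‖f‖ ^ 2 + (2 * L + 1) * B)) :=
        mul_le_mul_of_nonneg_left h3 (by positivity)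
    _ = ‖f‖ ^ 2 / (2 * L + 1) + B := by field_simp
    _ = _ := by rw [hB]; ring

variable {R : Type*} [Fintype R]

/-- There is a good direction in every dense set of directions. -/
theorem exists_good (f : R → H) (t : ℤ) (n n' L ℓ : ℕ) (γ η κ κ' M : ℝ) (hη : 0 < η)
    (hκ : 2 * N * (L * ℓ : ℕ) / (2 * n + 1) ≤ κ)
    (hκ' : 2 * N * ((2 * L).factorial * n' : ℕ) / (2 * ℓ + 1) ≤ κ')
    (hM : ∑ a, ‖f a‖ ^ 2 = M)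
    (hE : ∑ a, ‖ρ.Q (t * (2 * L).factorial) n' (f a)‖ ^ 2 ≤ ∑ a, ‖ρ.Q t n (f a)‖ ^ 2 + γ * M)
    (Δ : Finset (Fin N → ℤ)) (hΔ : ∀ δ ∈ Δ, ∀ i, |δ i| ≤ ℓ)
    (hcard : η * (2 * (ℓ : ℝ) + 1) ^ N ≤ Δ.card) :
    ∃ δ ∈ Δ, ∑ a, ‖ρ.A t L δ (ρ.A t L δ (f a)) - ρ.Q t n (ρ.Q t n (f a))‖ ^ 2 ≤
      (1 / (2 * L + 1) + γ + 2 * κ' + 4 * κ) / η * M := by
  classical
  have hM0 : 0 ≤ M := by rw [← hM]; exact sum_nonneg fun a _ => by positivity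
  set G : (Fin N → ℤ) → ℝ := fun δ =>
    ∑ a, ‖ρ.A t L δ (ρ.A t L δ (f a)) - ρ.Q t n (ρ.Q t n (f a))‖ ^ 2 with hG
  have hG0 : ∀ δ, 0 ≤ G δ := fun δ => sum_nonneg fun a _ => by positivity
  have hbox : ((sbox N ℓ).card : ℝ) = (2 * (ℓ : ℝ) + 1) ^ N := by rw [card_sbox]; push_cast; ring
  have hboxpos := card_sbox_pos (N := N) ℓ
  have h1 : ∀ δ ∈ sbox N ℓ, G δ ≤ ∑ a, (‖ρ.A t L δ (f a)‖ ^ 2 - ‖ρ.Q t n (f a)‖ ^ 2 +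
      4 * κ * ‖f a‖ ^ 2) := by
    intro δ hδ
    refine sum_le_sum fun a _ => ?_
    refine (ρ.claim1 t n L ℓ δ (mem_sbox.mp hδ) (f a)).trans ?_
    have : (2 * N * (L * ℓ : ℕ) / (2 * n + 1) : ℝ) * ‖f a‖ ^ 2 ≤ κ * ‖f a‖ ^ 2 :=
      mul_le_mul_of_nonneg_right hκ (by positivity)
    nlinarith
  have h2 : ((sbox N ℓ).card : ℝ)⁻¹ * ∑ δ ∈ sbox N ℓ, G δ ≤
      (1 / (2 * L + 1) + γ + 2 * κ' + 4 * κ) * M := by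
    calc ((sbox N ℓ).card : ℝ)⁻¹ * ∑ δ ∈ sbox N ℓ, G δ
        ≤ ((sbox N ℓ).card : ℝ)⁻¹ * ∑ δ ∈ sbox N ℓ, ∑ a, (‖ρ.A t L δ (f a)‖ ^ 2 -
          ‖ρ.Q t n (f a)‖ ^ 2 + 4 * κ * ‖f a‖ ^ 2) :=
          mul_le_mul_of_nonneg_left (sum_le_sum h1) (by positivity)
      _ = ∑ a, (((sbox N ℓ).card : ℝ)⁻¹ * ∑ δ ∈ sbox N ℓ, ‖ρ.A t L δ (f a)‖ ^ 2 -
          ‖ρ.Q t n (f a)‖ ^ 2 + 4 * κ * ‖f a‖ ^ 2) := by
          rw [sum_comm, mul_sum]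
          refine sum_congr rfl fun a _ => ?_
          rw [sum_add_distrib, sum_sub_distrib, sum_const, sum_const, nsmul_eq_mul, nsmul_eq_mul]
          field_simp
      _ ≤ ∑ a, (‖f a‖ ^ 2 / (2 * L + 1) + ‖ρ.Q (t * (2 * L).factorial) n' (f a)‖ ^ 2 +
          2 * κ' * ‖f a‖ ^ 2 - ‖ρ.Q t n (f a)‖ ^ 2 + 4 * κ * ‖f a‖ ^ 2) := by
          refine sum_le_sum fun a _ => ?_
          have h3 := ρ.claim2 t n' L ℓ (f a)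
          have : (2 * N * ((2 * L).factorial * n' : ℕ) / (2 * ℓ + 1) : ℝ) * ‖f a‖ ^ 2 ≤
            κ' * ‖f a‖ ^ 2 := mul_le_mul_of_nonneg_right hκ' (by positivity)
          nlinarith
      _ = M / (2 * L + 1) + ∑ a, ‖ρ.Q (t * (2 * L).factorial) n' (f a)‖ ^ 2 + 2 * κ' * M -
          ∑ a, ‖ρ.Q t n (f a)‖ ^ 2 + 4 * κ * M := by
          rw [← hM]
          simp only [sum_add_distrib, sum_sub_distrib, ← mul_sum, ← sum_div]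
      _ ≤ M / (2 * L + 1) + (∑ a, ‖ρ.Q t n (f a)‖ ^ 2 + γ * M) + 2 * κ' * M -
          ∑ a, ‖ρ.Q t n (f a)‖ ^ 2 + 4 * κ * M := by linarith
      _ = _ := by ring
  by_contra hcon
  push Not at hcon
  have hΔne : Δ.Nonempty := by
    rw [← card_pos]
    have : (0 : ℝ) < Δ.card := lt_of_lt_of_le (by positivity) hcard
    exact_mod_cast this
  have h3 : (1 / (2 * L + 1) + γ + 2 * κ' + 4 * κ) / η * M * Δ.card < ∑ δ ∈ Δ, G δ := by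
    calc (1 / (2 * L + 1) + γ + 2 * κ' + 4 * κ) / η * M * Δ.card
        = ∑ _δ ∈ Δ, (1 / (2 * L + 1) + γ + 2 * κ' + 4 * κ) / η * M := by
          rw [sum_const, nsmul_eq_mul]; ring
      _ < ∑ δ ∈ Δ, G δ := sum_lt_sum_of_nonempty hΔne fun δ hδ => hcon δ hδ
  have h4 : ∑ δ ∈ Δ, G δ ≤ ∑ δ ∈ sbox N ℓ, G δ :=
    sum_le_sum_of_subset_of_nonneg (fun δ hδ => mem_sbox.mpr (hΔ δ hδ)) fun δ _ _ => hG0 δ
  rw [inv_mul_le_iff₀ hboxpos, hbox] at h2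
  have hX0 : 0 ≤ (1 / (2 * L + 1) + γ + 2 * κ' + 4 * κ) * M := by
    have : 0 ≤ ∑ δ ∈ sbox N ℓ, G δ := sum_nonneg fun δ _ => hG0 δ
    have h5 := this.trans h2
    have hp : (0 : ℝ) < (2 * (ℓ : ℝ) + 1) ^ N := by positivity
    by_contra hneg
    push Not at hneg
    have := mul_neg_of_pos_of_neg hp hneg
    linarith
  have h6 : (2 * (ℓ : ℝ) + 1) ^ N * ((1 / (2 * L + 1) + γ + 2 * κ' + 4 * κ) * M) ≤
      (1 / (2 * L + 1) + γ + 2 * κ' + 4 * κ) / η * M * Δ.card := by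
    calc (2 * (ℓ : ℝ) + 1) ^ N * ((1 / (2 * L + 1) + γ + 2 * κ' + 4 * κ) * M)
        = (η * (2 * (ℓ : ℝ) + 1) ^ N) * (((1 / (2 * L + 1) + γ + 2 * κ' + 4 * κ) * M) / η) := by
          field_simp
      _ ≤ Δ.card * (((1 / (2 * L + 1) + γ + 2 * κ' + 4 * κ) * M) / η) :=
          mul_le_mul_of_nonneg_right hcard (by positivity)
      _ = _ := by ring
  linarith

/-- The averaged vectors are almost orthogonal. -/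
theorem almost_orth (f : R → H) (t : ℤ) (n n' L ℓ : ℕ) (γ η κ κ' M ε : ℝ) (hη : 0 < η)
    (hε : 0 ≤ ε)
    (hκ : 2 * N * (L * ℓ : ℕ) / (2 * n + 1) ≤ κ)
    (hκ' : 2 * N * ((2 * L).factorial * n' : ℕ) / (2 * ℓ + 1) ≤ κ')
    (hM : ∑ a, ‖f a‖ ^ 2 = M)
    (hE : ∑ a, ‖ρ.Q (t * (2 * L).factorial) n' (f a)‖ ^ 2 ≤ ∑ a, ‖ρ.Q t n (f a)‖ ^ 2 + γ * M)
    (hsmall : (1 / (2 * L + 1) + γ + 2 * κ' + 4 * κ) / η ≤ ε ^ 2)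
    (a b : R) (hab : inner ℝ (f a) (f b) = 0)
    (Δ : Finset (Fin N → ℤ)) (hΔ : ∀ δ ∈ Δ, ∀ i, |δ i| ≤ ℓ)
    (hcard : η * (2 * (ℓ : ℝ) + 1) ^ N ≤ Δ.card)
    (horth : ∀ δ ∈ Δ, ∀ h : ℤ, h ≠ 0 → inner ℝ (ρ.S ((t * h) • δ) (f a)) (f b) = 0) :
    inner ℝ (ρ.Q t n (f a)) (ρ.Q t n (f b)) ≤ ε * M := by
  obtain ⟨δ, hδ, hgood⟩ := ρ.exists_good f t n n' L ℓ γ η κ κ' M hη hκ hκ' hM hE Δ hΔ hcard
  have hM0 : 0 ≤ M := by rw [← hM]; exact sum_nonneg fun a _ => by positivity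
  have h1 : inner ℝ (ρ.A t L δ (ρ.A t L δ (f a))) (f b) = 0 := by
    rw [inner_A, norm_A_sq]
    refine mul_eq_zero_of_right _ (sum_eq_zero fun k _ => sum_eq_zero fun k' _ => ?_)
    by_cases h : k - k' = 0
    · rw [h, mul_zero, zero_smul, ρ.zero]; exact hab
    · exact horth δ hδ _ h
  have h2 : ‖ρ.A t L δ (ρ.A t L δ (f a)) - ρ.Q t n (ρ.Q t n (f a))‖ ^ 2 ≤ ε ^ 2 * M := by
    refine le_trans ?_ (hgood.trans (mul_le_mul_of_nonneg_right hsmall hM0))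
    exact single_le_sum (f := fun a => ‖ρ.A t L δ (ρ.A t L δ (f a)) -
      ρ.Q t n (ρ.Q t n (f a))‖ ^ 2) (fun a _ => by positivity) (mem_univ a)
  have h3 : ‖f b‖ ^ 2 ≤ M := by
    rw [← hM]
    exact single_le_sum (f := fun a => ‖f a‖ ^ 2) (fun a _ => by positivity) (mem_univ b)
  have h4 : ‖ρ.A t L δ (ρ.A t L δ (f a)) - ρ.Q t n (ρ.Q t n (f a))‖ * ‖f b‖ ≤ ε * M := by
    refine abs_le_of_sq_le_sq' ?_ (by positivity) |>.2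
    calc (‖ρ.A t L δ (ρ.A t L δ (f a)) - ρ.Q t n (ρ.Q t n (f a))‖ * ‖f b‖) ^ 2
        = ‖ρ.A t L δ (ρ.A t L δ (f a)) - ρ.Q t n (ρ.Q t n (f a))‖ ^ 2 * ‖f b‖ ^ 2 := by ring
      _ ≤ (ε ^ 2 * M) * M := mul_le_mul h2 h3 (by positivity) (by positivity)
      _ = (ε * M) ^ 2 := by ring
  have h5 : inner ℝ (ρ.Q t n (f a)) (ρ.Q t n (f b)) = inner ℝ (ρ.Q t n (ρ.Q t n (f a))) (f b) :=
    (ρ.inner_Q t n (ρ.Q t n (f a)) (f b)).symm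
  have h6 : inner ℝ (ρ.Q t n (ρ.Q t n (f a))) (f b) =
      - inner ℝ (ρ.A t L δ (ρ.A t L δ (f a)) - ρ.Q t n (ρ.Q t n (f a))) (f b) := by
    rw [inner_sub_left, h1]; ring
  have h7 := (abs_le.mp (abs_real_inner_le_norm
    (ρ.A t L δ (ρ.A t L δ (f a)) - ρ.Q t n (ρ.Q t n (f a))) (f b))).1
  rw [h5, h6]
  linarith

end URep

end Vale.Agent.P011.MPQ
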