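import Vale.Agent.P011.MPQ.CF1Lp

/-!
# P011, quaternion Margulis-Platonov: the combinatorial core

A colouring of a large box without certain configurations is almost constant on a large cell.
-/

namespace Vale.Agent.P011.MPQ

open Finset

/-- Among finitely many scales there is one at which the energy does not increase. -/
theorem cf_exists_scale (E : ℕ → ℝ) (M : ℝ) (J : ℕ) (hJ : 0 < J) (h0 : 0 ≤ E 0) (hM : E J ≤ M) :
    ∃ j < J, E (j + 1) ≤ E j + 1 / J * M := by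
  by_contra hcon
  push Not at hcon
  have h1 : ∑ j ∈ range J, (1 / (J : ℝ) * M) < ∑ j ∈ range J, (E (j + 1) - E j) := by
    refine sum_lt_sum_of_nonempty ⟨0, mem_range.mpr hJ⟩ fun j hj => ?_
    have := hcon j (mem_range.mp hj)
    linarith
  rw [sum_range_sub, sum_const, card_range, nsmul_eq_mul] at h1
  have hJ' : (J : ℝ) ≠ 0 := by exact_mod_cast hJ.ne'
  have : (J : ℝ) * (1 / J * M) = M := by field_simp
  linarith

/-- The box `[0, X) ^ N` as a finite set. -/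
noncomputable def bxF (N X : ℕ) : Finset (Fin N → ℤ) := Fintype.piFinset fun _ => Finset.Ico 0 (X : ℤ)

variable {N : ℕ}

theorem mem_bxF {X : ℕ} {x : Fin N → ℤ} : x ∈ bxF N X ↔ x ∈ Bx N X := by
  simp [bxF, Bx]

theorem card_bxF (X : ℕ) : (bxF N X).card = X ^ N := by
  simp [bxF]

/-- If the averaged indicator functions of the colour classes are almost orthogonal, then some
colour is almost constant on some cell. -/
theorem exists_cell {R : Type*} [Fintype R] [DecidableEq R] (X t n : ℕ) (hX : 0 < X)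
    (hXt : 4 * (t * n) ≤ X) (χ : (Fin N → ℤ) → R) (ε : ℝ) (hε : 0 < ε)
    (h : ∀ a b : R, a ≠ b →
      inner ℝ ((reg N).Q (t : ℤ) n (indv ((bxF N X).filter fun x => χ x = a)))
        ((reg N).Q (t : ℤ) n (indv ((bxF N X).filter fun x => χ x = b))) ≤
        ε / (2 ^ N * (Fintype.card R) ^ 2) * (X : ℝ) ^ N) :
    ∃ (a : R) (y : Fin N → ℤ), (∀ w : Fin N → ℤ, (∀ i, |w i| ≤ n) → y + (t : ℤ) • w ∈ Bx N X) ∧
        (({w ∈ sbox N n | χ (y + (t : ℤ) • w) ≠ a} : Finset (Fin N → ℤ)).card : ℝ) ≤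
          ε * (2 * (n : ℝ) + 1) ^ N := by
  classical
  have hR : Nonempty R := ⟨χ 0⟩
  have hRpos : (0 : ℝ) < Fintype.card R := by exact_mod_cast Fintype.card_pos
  set s : R → Finset (Fin N → ℤ) := fun a => (bxF N X).filter fun x => χ x = a with hs
  set p : R → (Fin N → ℤ) → ℝ := fun a x => (reg N).Q (t : ℤ) n (indv (s a)) x with hp
  have hp0 : ∀ a x, 0 ≤ p a x := fun a x => Q_indv_nonneg _ _ _ _
  set C : Finset (Fin N → ℤ) := Fintype.piFinset fun _ => Finset.Ico ((t * n : ℕ) : ℤ)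
    ((X - t * n : ℕ) : ℤ) with hC
  have hCcard : (X : ℝ) ^ N / 2 ^ N ≤ C.card := by
    rw [hC, Fintype.card_piFinset]
    simp only [Int.card_Ico, prod_const, card_univ, Fintype.card_fin]
    have h1 : (((X - t * n : ℕ) : ℤ) - ((t * n : ℕ) : ℤ)).toNat = X - 2 * (t * n) := by omega
    rw [h1, Nat.cast_pow, ← div_pow]
    refine pow_le_pow_left₀ (by positivity) ?_ N
    rw [Nat.cast_sub (by omega)]
    have : (4 * (t * n) : ℝ) ≤ X := by exact_mod_cast hXt
    push_cast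
    linarith
  have hXN : (0 : ℝ) < (X : ℝ) ^ N := by positivity
  have hCpos : (0 : ℝ) < C.card := lt_of_lt_of_le (by positivity) hCcard
  have hCne : C.Nonempty := by
    rw [← card_pos]; exact_mod_cast hCpos
  have hcell : ∀ x ∈ C, ∀ w : Fin N → ℤ, (∀ i, |w i| ≤ n) → x + (t : ℤ) • w ∈ Bx N X := by
    intro x hx w hw i
    rw [hC, Fintype.mem_piFinset] at hx
    have h1 := hx i
    rw [mem_Ico] at h1
    have h2 : |(t : ℤ) * w i| ≤ ((t * n : ℕ) : ℤ) := by
      rw [abs_mul]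
      push_cast
      rw [abs_of_nonneg (by positivity : (0 : ℤ) ≤ (t : ℤ))]
      exact mul_le_mul_of_nonneg_left (hw i) (by positivity)
    rw [abs_le] at h2
    rw [Pi.add_apply, Pi.smul_apply, smul_eq_mul]
    omega
  have hsum1 : ∀ x ∈ C, ∑ a, p a x = 1 := by
    intro x hx
    simp only [hp, Q_indv_apply]
    rw [← mul_sum]
    have : ∑ a, (({w ∈ sbox N n | x + (t : ℤ) • w ∈ s a} : Finset (Fin N → ℤ)).card : ℝ) =
        (sbox N n).card := by
      have h1 : ∀ w ∈ sbox N n, χ (x + (t : ℤ) • w) ∈ (Finset.univ : Finset R) :=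
        fun w _ => mem_univ _
      rw [card_eq_sum_card_fiberwise h1]
      push_cast
      refine sum_congr rfl fun a _ => ?_
      congr 2
      refine filter_congr fun w hw => ?_
      rw [hs]
      simp only [mem_filter, mem_bxF]
      exact ⟨fun h => h.2, fun h => ⟨hcell x hx w (mem_sbox.mp hw), h⟩⟩
    rw [this, inv_mul_cancel₀ (card_sbox_pos n).ne']
  -- the total off-diagonal mass
  have hoff : ∑ x ∈ C, ∑ ab ∈ (Finset.univ : Finset (R × R)).filter (fun ab => ab.1 ≠ ab.2),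
      p ab.1 x * p ab.2 x ≤ ε / 2 ^ N * (X : ℝ) ^ N := by
    rw [sum_comm]
    calc ∑ ab ∈ (Finset.univ : Finset (R × R)).filter (fun ab => ab.1 ≠ ab.2), ∑ x ∈ C,
          p ab.1 x * p ab.2 x
        ≤ ∑ _ab ∈ (Finset.univ : Finset (R × R)).filter (fun ab => ab.1 ≠ ab.2),
          ε / (2 ^ N * (Fintype.card R) ^ 2) * (X : ℝ) ^ N := by
          refine sum_le_sum fun ab hab => ?_
          rw [mem_filter] at hab
          exact (sum_le_inner _ _ _ _ _).trans (h ab.1 ab.2 hab.2)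
      _ ≤ ∑ _ab : R × R, ε / (2 ^ N * (Fintype.card R) ^ 2) * (X : ℝ) ^ N := by
          refine sum_le_sum_of_subset_of_nonneg (filter_subset _ _) fun _ _ _ => by positivity
      _ = ε / 2 ^ N * (X : ℝ) ^ N := by
          rw [sum_const, card_univ, Fintype.card_prod, nsmul_eq_mul]
          push_cast
          field_simp
  have hex : ∃ x ∈ C, ∑ ab ∈ (Finset.univ : Finset (R × R)).filter (fun ab => ab.1 ≠ ab.2),
      p ab.1 x * p ab.2 x ≤ ε := by
    by_contra hcon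
    push Not at hcon
    have h1 : ∑ _x ∈ C, ε < ∑ x ∈ C, ∑ ab ∈ (Finset.univ : Finset (R × R)).filter
        (fun ab => ab.1 ≠ ab.2), p ab.1 x * p ab.2 x :=
      sum_lt_sum_of_nonempty hCne fun x hx => hcon x hx
    rw [sum_const, nsmul_eq_mul] at h1
    have h2 : ε / 2 ^ N * (X : ℝ) ^ N ≤ C.card * ε := by
      calc ε / 2 ^ N * (X : ℝ) ^ N = ((X : ℝ) ^ N / 2 ^ N) * ε := by ring
        _ ≤ _ := mul_le_mul_of_nonneg_right hCcard hε.le
    linarith
  obtain ⟨y, hy, hyε⟩ := hex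
  have hsq : ∑ a, p a y ^ 2 ≥ 1 - ε := by
    have h1 : (∑ a, p a y) * (∑ b, p b y) = ∑ a, p a y ^ 2 +
        ∑ ab ∈ (Finset.univ : Finset (R × R)).filter (fun ab => ab.1 ≠ ab.2),
          p ab.1 y * p ab.2 y := by
      rw [sum_mul_sum, ← sum_product', ← sum_filter_add_sum_filter_not _ (fun ab : R × R =>
        ab.1 = ab.2)]
      congr 1
      rw [show (Finset.univ : Finset R) ×ˢ (Finset.univ : Finset R) = Finset.univ from rfl]
      symm
      refine sum_nbij' (fun a => (a, a)) (fun ab => ab.1) ?_ ?_ ?_ ?_ ?_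
      · intro a _; simp
      · intro ab _; simp
      · intro a _; rfl
      · intro ab hab
        rw [mem_filter] at hab
        exact Prod.ext rfl hab.2
      · intro a _; rw [sq]
    rw [hsum1 y hy] at h1
    linarith
  obtain ⟨a, ha⟩ : ∃ a, 1 - ε ≤ p a y := by
    by_contra hcon
    push Not at hcon
    have h1 : ∑ a, p a y ^ 2 < ∑ a, (1 - ε) * p a y := by
      refine sum_lt_sum (fun a _ => ?_) ?_
      · rw [sq]
        exact mul_le_mul_of_nonneg_right (hcon a).le (hp0 a y)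
      · obtain ⟨a, ha⟩ : ∃ a, 0 < p a y := by
          by_contra hz
          push Not at hz
          have : ∑ a, p a y ≤ 0 := sum_nonpos fun a _ => hz a
          rw [hsum1 y hy] at this
          linarith
        refine ⟨a, mem_univ a, ?_⟩
        rw [sq]
        exact mul_lt_mul_of_pos_right (hcon a) ha
    rw [← mul_sum, hsum1 y hy] at h1
    linarith
  refine ⟨a, y, hcell y hy, ?_⟩
  have hbox : ((sbox N n).card : ℝ) = (2 * (n : ℝ) + 1) ^ N := by rw [card_sbox]; push_cast; ring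
  have h2 : (({w ∈ sbox N n | y + (t : ℤ) • w ∈ s a} : Finset (Fin N → ℤ)).card : ℝ) +
      (({w ∈ sbox N n | χ (y + (t : ℤ) • w) ≠ a} : Finset (Fin N → ℤ)).card : ℝ) =
        (sbox N n).card := by
    have : ({w ∈ sbox N n | y + (t : ℤ) • w ∈ s a} : Finset (Fin N → ℤ)) =
        {w ∈ sbox N n | χ (y + (t : ℤ) • w) = a} := by
      refine filter_congr fun w hw => ?_
      rw [hs]
      simp only [mem_filter, mem_bxF]
      exact ⟨fun h => h.2, fun h => ⟨hcell y hy w (mem_sbox.mp hw), h⟩⟩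
    rw [this]
    exact_mod_cast card_filter_add_card_filter_not (s := sbox N n)
      (fun w => χ (y + (t : ℤ) • w) = a)
  have h3 : p a y = ((sbox N n).card : ℝ)⁻¹ *
      (({w ∈ sbox N n | y + (t : ℤ) • w ∈ s a} : Finset (Fin N → ℤ)).card : ℝ) :=
    Q_indv_apply _ _ _ _
  rw [h3, le_inv_mul_iff₀ (card_sbox_pos n)] at ha
  rw [hbox] at h2 ha
  linarith

/-- The combinatorial core. -/
theorem cf1 (N : ℕ) (R : Type*) [Fintype R] [DecidableEq R] (ε η : ℝ) (hε : 0 < ε) (hη : 0 < η) :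
    ∃ T K : ℕ, 0 < T ∧ 0 < K ∧ ∀ X : ℕ, K ≤ X → ∀ χ : (Fin N → ℤ) → R,
      (∀ a b : R, a ≠ b → ∀ t : ℕ, 0 < t → t ∣ T → ∀ l : ℕ, X ≤ K * l → l ≤ X →
        ∃ Δ : Finset (Fin N → ℤ), (∀ d ∈ Δ, ∀ i, |d i| ≤ l) ∧
          η * (2 * (l : ℝ) + 1) ^ N ≤ Δ.card ∧
          ∀ d ∈ Δ, ∀ x ∈ Bx N X, ∀ h : ℤ, h ≠ 0 → x + ((t : ℤ) * h) • d ∈ Bx N X →
            ¬ (χ x = b ∧ χ (x + ((t : ℤ) * h) • d) = a)) →
      ∃ (t m : ℕ) (a : R) (y : Fin N → ℤ), 0 < t ∧ t ∣ T ∧ X ≤ K * m ∧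
        (∀ w : Fin N → ℤ, (∀ i, |w i| ≤ m) → y + (t : ℤ) • w ∈ Bx N X) ∧
        (({w ∈ sbox N m | χ (y + (t : ℤ) • w) ≠ a} : Finset (Fin N → ℤ)).card : ℝ) ≤
          ε * (2 * (m : ℝ) + 1) ^ N := by
  classical
  rcases isEmpty_or_nonempty R with hR | hR
  · exact ⟨1, 1, one_pos, one_pos, fun X _ χ => (IsEmpty.false (χ 0)).elim⟩
  have hRpos : (0 : ℝ) < Fintype.card R := by exact_mod_cast Fintype.card_pos
  -- the parameters
  set ε₂ : ℝ := ε / (2 ^ N * (Fintype.card R) ^ 2) with hε₂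
  have hε₂pos : 0 < ε₂ := by positivity
  set ε₁ : ℝ := η * ε₂ ^ 2 with hε₁
  have hε₁pos : 0 < ε₁ := by positivity
  obtain ⟨L, hL⟩ := exists_nat_gt (8 / ε₁)
  obtain ⟨z, hz⟩ := exists_nat_gt (32 * (N * (L + 1) * (2 * L).factorial : ℝ) / ε₁)
  set F : ℕ := (2 * L).factorial with hF
  have hFpos : 0 < F := Nat.factorial_pos _
  have hLpos : 0 < L := by
    have : (0 : ℝ) < L := lt_trans (by positivity) hL
    exact_mod_cast this
  have hzpos : 0 < z := by
    have : (0 : ℝ) < z := lt_of_le_of_lt (by positivity) hz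
    exact_mod_cast this
  set J : ℕ := L with hJ
  set W : ℕ := 4 * F ^ J * z ^ (2 * J) with hW
  have hWpos : 0 < W := by positivity
  refine ⟨F ^ J, 2 * W, by positivity, by positivity, fun X hX χ hχ => ?_⟩
  set m : ℕ := X / W with hm
  have hm1 : 1 ≤ m := by
    rw [hm]
    exact (Nat.one_le_div_iff hWpos).mpr (by omega)
  have hmW : m * W ≤ X := Nat.div_mul_le_self X W
  have hXm : X ≤ 2 * W * m := by
    have h1 : X < W * (m + 1) := Nat.lt_mul_div_succ X hWpos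
    nlinarith
  have hXpos : 0 < X := by omega
  -- scales
  set nn : ℕ → ℕ := fun j => m * z ^ (2 * (J - j)) with hnn
  have hnm : ∀ j, m ≤ nn j := fun j => Nat.le_mul_of_pos_right m (by positivity)
  set f : R → L2 N := fun a => indv ((bxF N X).filter fun x => χ x = a) with hf
  have hM : ∑ a, ‖f a‖ ^ 2 = (X : ℝ) ^ N := by
    simp only [hf, norm_indv_sq]
    have h1 : ∀ x ∈ bxF N X, χ x ∈ (Finset.univ : Finset R) := fun x _ => mem_univ _
    have h2 := card_eq_sum_card_fiberwise h1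
    rw [card_bxF] at h2
    exact_mod_cast h2.symm
  set E : ℕ → ℝ := fun j => ∑ a, ‖(reg N).Q ((F ^ j : ℕ) : ℤ) (nn j) (f a)‖ ^ 2 with hE
  have hEM : ∀ j, E j ≤ (X : ℝ) ^ N := by
    intro j
    rw [← hM]
    refine sum_le_sum fun a _ => ?_
    have := (reg N).norm_Q_le ((F ^ j : ℕ) : ℤ) (nn j) (f a)
    gcongr
  have hE0 : ∀ j, 0 ≤ E j := fun j => sum_nonneg fun a _ => by positivity
  obtain ⟨j, hjJ, hj⟩ := cf_exists_scale E ((X : ℝ) ^ N) J hLpos (hE0 0) (hEM J)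
  -- the exponent
  obtain ⟨i, hi⟩ : ∃ i, J = j + 1 + i := ⟨J - j - 1, by omega⟩
  have hn1 : nn j = m * z ^ (2 * i + 2) := by
    simp only [hnn]; congr 2; omega
  have hn2 : nn (j + 1) = m * z ^ (2 * i) := by
    simp only [hnn]; congr 2; omega
  set ℓ : ℕ := m * z ^ (2 * i + 1) with hℓ
  have hℓm : m ≤ ℓ := Nat.le_mul_of_pos_right m (by positivity)
  have htn : 4 * (F ^ j * nn j) ≤ X := by
    refine le_trans ?_ hmW
    have h1 : F ^ j ≤ F ^ J := Nat.pow_le_pow_right hFpos hjJ.le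
    have h2 : nn j ≤ m * z ^ (2 * J) := by
      rw [hn1]
      exact Nat.mul_le_mul_left m (Nat.pow_le_pow_right hzpos (by omega))
    calc 4 * (F ^ j * nn j) ≤ 4 * (F ^ J * (m * z ^ (2 * J))) :=
          Nat.mul_le_mul_left 4 (Nat.mul_le_mul h1 h2)
      _ = m * W := by rw [hW]; ring
  have hℓX : ℓ ≤ X := by
    refine le_trans ?_ htn
    have h1 : ℓ ≤ nn j := by
      rw [hn1, hℓ]
      exact Nat.mul_le_mul_left m (Nat.pow_le_pow_right hzpos (by omega))
    have h2 : nn j ≤ F ^ j * nn j := Nat.le_mul_of_pos_left _ (by positivity)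
    omega
  have hdvd : F ^ j ∣ F ^ J := pow_dvd_pow F hjJ.le
  -- the small constants
  have hzR : (0 : ℝ) < z := by exact_mod_cast hzpos
  have hmR : (0 : ℝ) < m := by exact_mod_cast hm1
  have hκ : 2 * N * (L * ℓ : ℕ) / (2 * (nn j : ℝ) + 1) ≤ ε₁ / 32 := by
    rw [div_le_iff₀ (by positivity)]
    have h1 : (nn j : ℝ) = ℓ * z := by
      rw [hn1, hℓ]; push_cast; ring
    rw [h1]
    push_cast
    rw [div_lt_iff₀ hε₁pos] at hz
    have hℓR : (0 : ℝ) ≤ ℓ := by positivity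
    have h2 : (32 : ℝ) * (N * L) ≤ z * ε₁ := by
      have hF1 : (1 : ℝ) ≤ ((2 * L).factorial : ℝ) := by exact_mod_cast hFpos
      have : (N : ℝ) * L ≤ N * (L + 1) * (2 * L).factorial := by
        calc (N : ℝ) * L ≤ N * (L + 1) := by
              refine mul_le_mul_of_nonneg_left (by linarith) (by positivity)
          _ = N * (L + 1) * 1 := by ring
          _ ≤ _ := mul_le_mul_of_nonneg_left hF1 (by positivity)
      linarith
    nlinarith [mul_le_mul_of_nonneg_right h2 hℓR]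
  have hκ' : 2 * N * ((2 * L).factorial * nn (j + 1) : ℕ) / (2 * (ℓ : ℝ) + 1) ≤ ε₁ / 32 := by
    rw [div_le_iff₀ (by positivity)]
    have h1 : (ℓ : ℝ) = nn (j + 1) * z := by
      rw [hn2, hℓ]; push_cast; ring
    rw [h1]
    push_cast
    rw [div_lt_iff₀ hε₁pos] at hz
    have hR' : (0 : ℝ) ≤ nn (j + 1) := by positivity
    have h2 : (32 : ℝ) * (N * (2 * L).factorial) ≤ z * ε₁ := by
      have : (N : ℝ) * (2 * L).factorial ≤ N * (L + 1) * (2 * L).factorial := by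
        refine mul_le_mul_of_nonneg_right ?_ (by positivity)
        have hL0 : (0 : ℝ) ≤ L := by positivity
        nlinarith [mul_nonneg (Nat.cast_nonneg N : (0 : ℝ) ≤ N) hL0]
      linarith
    nlinarith [mul_le_mul_of_nonneg_right h2 hR']
  have hsmall : (1 / (2 * (L : ℝ) + 1) + 1 / J + 2 * (ε₁ / 32) + 4 * (ε₁ / 32)) / η ≤ ε₂ ^ 2 := by
    rw [div_le_iff₀ hη]
    have hLR : (0 : ℝ) < L := by exact_mod_cast hLpos
    have h1 : 1 / (L : ℝ) ≤ ε₁ / 8 := by
      rw [div_le_iff₀ hLR]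
      rw [div_lt_iff₀ hε₁pos] at hL
      linarith
    have h2 : 1 / (2 * (L : ℝ) + 1) ≤ 1 / L := by
      refine one_div_le_one_div_of_le hLR (by linarith)
    have h3 : ε₂ ^ 2 * η = ε₁ := by rw [hε₁]; ring
    rw [h3, hJ]
    linarith
  have hE' : ∑ a, ‖(reg N).Q (((F ^ j : ℕ) : ℤ) * ((2 * L).factorial : ℕ)) (nn (j + 1)) (f a)‖ ^ 2
      ≤ ∑ a, ‖(reg N).Q ((F ^ j : ℕ) : ℤ) (nn j) (f a)‖ ^ 2 + 1 / J * (X : ℝ) ^ N := by
    have h1 : (((F ^ j : ℕ) : ℤ) * ((2 * L).factorial : ℕ)) = ((F ^ (j + 1) : ℕ) : ℤ) := by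
      rw [pow_succ]; push_cast; rw [hF]
    rw [h1]
    exact hj
  have key : ∀ a b : R, a ≠ b →
      inner ℝ ((reg N).Q ((F ^ j : ℕ) : ℤ) (nn j) (f a))
        ((reg N).Q ((F ^ j : ℕ) : ℤ) (nn j) (f b)) ≤ ε₂ * (X : ℝ) ^ N := by
    intro a b hab
    obtain ⟨Δ, hΔ1, hΔ2, hΔ3⟩ := hχ a b hab (F ^ j) (by positivity) hdvd ℓ
      (hXm.trans (Nat.mul_le_mul_left _ hℓm)) hℓX
    refine (reg N).almost_orth f ((F ^ j : ℕ) : ℤ) (nn j) (nn (j + 1)) L ℓ (1 / J) η (ε₁ / 32)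
      (ε₁ / 32) ((X : ℝ) ^ N) ε₂ hη hε₂pos.le hκ hκ' hM hE' hsmall a b ?_ Δ hΔ1 hΔ2 ?_
    · refine inner_indv _ _ ?_
      rw [Finset.disjoint_left]
      intro x hx hx'
      rw [mem_filter] at hx hx'
      exact hab (hx.2.symm.trans hx'.2)
    · intro δ hδ h hh
      refine inner_shift_indv _ _ _ fun x hx hx' => ?_
      rw [mem_filter, mem_bxF] at hx hx'
      exact hΔ3 δ hδ x hx.1 h hh hx'.1 ⟨hx.2, hx'.2⟩
  obtain ⟨a, y, hy1, hy2⟩ := exists_cell X (F ^ j) (nn j) hXpos htn χ ε hε key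
  exact ⟨F ^ j, nn j, a, y, by positivity, hdvd, hXm.trans (Nat.mul_le_mul_left _ (hnm j)),
    hy1, hy2⟩

end Vale.Agent.P011.MPQ
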