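import Vale.Agent.P011.MPQ.CF1

/-!
# P011, quaternion Margulis-Platonov: the combinatorial core, part 2

Averages of a unitary representation of `ℤ ^ N`.
-/

namespace Vale.Agent.P011.MPQ

open Finset

variable {N : ℕ} {H : Type*} [NormedAddCommGroup H] [InnerProductSpace ℝ H]

/-- An isometric representation of `ℤ ^ N`. -/
structure URep (N : ℕ) (H : Type*) [NormedAddCommGroup H] [InnerProductSpace ℝ H] where
  S : (Fin N → ℤ) → H →ₗᵢ[ℝ] H
  zero : ∀ f, S 0 f = f
  add : ∀ u v f, S (u + v) f = S u (S v f)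

/-- The average of a family of vectors. -/
noncomputable def av {ι : Type*} (s : Finset ι) (g : ι → H) : H := (s.card : ℝ)⁻¹ • ∑ i ∈ s, g i

theorem norm_av_le {ι : Type*} {s : Finset ι} {g : ι → H} {C : ℝ} (hs : s.Nonempty)
    (h : ∀ i ∈ s, ‖g i‖ ≤ C) : ‖av s g‖ ≤ C := by
  have hc : (0 : ℝ) < s.card := by exact_mod_cast hs.card_pos
  rw [av, norm_smul, norm_inv, Real.norm_of_nonneg hc.le, inv_mul_le_iff₀ hc]
  refine (norm_sum_le _ _).trans ?_
  refine (sum_le_sum h).trans ?_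
  rw [sum_const, nsmul_eq_mul]

theorem av_sub_const {ι : Type*} {s : Finset ι} (hs : s.Nonempty) (g : ι → H) (f : H) :
    av s g - f = av s (fun i => g i - f) := by
  have hc : (s.card : ℝ) ≠ 0 := by exact_mod_cast hs.card_pos.ne'
  rw [av, av, sum_sub_distrib, sum_const, smul_sub, ← Nat.cast_smul_eq_nsmul ℝ, smul_smul,
    inv_mul_cancel₀ hc, one_smul]

theorem norm_av_sub_le {ι : Type*} {s : Finset ι} {g : ι → H} {f : H} {C : ℝ} (hs : s.Nonempty)
    (h : ∀ i ∈ s, ‖g i - f‖ ≤ C) : ‖av s g - f‖ ≤ C := by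
  rw [av_sub_const hs]
  exact norm_av_le hs h

theorem inner_av_left {ι : Type*} (s : Finset ι) (g : ι → H) (f : H) :
    inner ℝ (av s g) f = (s.card : ℝ)⁻¹ * ∑ i ∈ s, inner ℝ (g i) f := by
  rw [av, real_inner_smul_left, sum_inner]

theorem inner_av_right {ι : Type*} (s : Finset ι) (g : ι → H) (f : H) :
    inner ℝ f (av s g) = (s.card : ℝ)⁻¹ * ∑ i ∈ s, inner ℝ f (g i) := by
  rw [av, real_inner_smul_right, inner_sum]

theorem map_av {ι : Type*} (T : H →ₗ[ℝ] H) (s : Finset ι) (g : ι → H) :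
    T (av s g) = av s (fun i => T (g i)) := by
  rw [av, av, map_smul, map_sum]

namespace URep

variable (ρ : URep N H)

theorem inner_S (u v : Fin N → ℤ) (f g : H) :
    inner ℝ (ρ.S u f) (ρ.S v g) = inner ℝ (ρ.S (u - v) f) g := by
  have : ρ.S u f = ρ.S v (ρ.S (u - v) f) := by
    rw [← ρ.add]
    congr 2
    abel
  rw [this, LinearIsometry.inner_map_map]

theorem inner_S_right (v : Fin N → ℤ) (f g : H) :
    inner ℝ f (ρ.S v g) = inner ℝ (ρ.S (-v) f) g := by
  have := ρ.inner_S 0 v f g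
  rwa [ρ.zero, zero_sub] at this

/-- The average over `t [-n, n] ^ N`. -/
noncomputable def Q (t : ℤ) (n : ℕ) (f : H) : H := av (sbox N n) fun w => ρ.S (t • w) f

/-- The average over `t k δ`, `|k| ≤ L`. -/
noncomputable def A (t : ℤ) (L : ℕ) (δ : Fin N → ℤ) (f : H) : H :=
  av (Finset.Icc (-(L : ℤ)) L) fun k => ρ.S ((t * k) • δ) f

theorem sbox_nonempty (n : ℕ) : (sbox N n).Nonempty := ⟨0, zero_mem_sbox n⟩

theorem Icc_nonempty (L : ℕ) : (Finset.Icc (-(L : ℤ)) L).Nonempty := ⟨0, by simp⟩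

theorem card_Icc (L : ℕ) : ((Finset.Icc (-(L : ℤ)) L).card : ℝ) = 2 * L + 1 := by
  rw [Int.card_Icc]
  have : ((((L : ℤ) + 1 - -(L : ℤ)).toNat : ℕ) : ℤ) = 2 * L + 1 := by
    rw [Int.toNat_of_nonneg] <;> omega
  exact_mod_cast this

theorem norm_Q_le (t : ℤ) (n : ℕ) (f : H) : ‖ρ.Q t n f‖ ≤ ‖f‖ :=
  norm_av_le (sbox_nonempty n) fun w _ => by rw [LinearIsometry.norm_map]

theorem norm_A_le (t : ℤ) (L : ℕ) (δ : Fin N → ℤ) (f : H) : ‖ρ.A t L δ f‖ ≤ ‖f‖ :=
  norm_av_le (Icc_nonempty L) fun w _ => by rw [LinearIsometry.norm_map]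

/-- The averaging operator as a linear map. -/
noncomputable def Ql (t : ℤ) (n : ℕ) : H →ₗ[ℝ] H :=
  ((sbox N n).card : ℝ)⁻¹ • ∑ w ∈ sbox N n, (ρ.S (t • w)).toLinearMap

theorem Ql_apply (t : ℤ) (n : ℕ) (f : H) : ρ.Ql t n f = ρ.Q t n f := by
  simp [Ql, Q, av]

theorem Q_sub (t : ℤ) (n : ℕ) (f g : H) : ρ.Q t n (f - g) = ρ.Q t n f - ρ.Q t n g := by
  simp [← Ql_apply]

theorem Q_av {ι : Type*} (t : ℤ) (n : ℕ) (s : Finset ι) (g : ι → H) :
    ρ.Q t n (av s g) = av s (fun i => ρ.Q t n (g i)) := by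
  rw [← Ql_apply, map_av]
  simp [Ql_apply]

theorem inner_Q (t : ℤ) (n : ℕ) (f g : H) : inner ℝ (ρ.Q t n f) g = inner ℝ f (ρ.Q t n g) := by
  rw [Q, Q, inner_av_left, inner_av_right]
  congr 1
  refine sum_nbij' (fun w => -w) (fun w => -w) ?_ ?_ ?_ ?_ ?_
  · intro w hw; exact neg_mem_sbox.mpr hw
  · intro w hw; exact neg_mem_sbox.mpr hw
  · intro w _; simp
  · intro w _; simp
  · intro w _
    rw [inner_S_right, smul_neg, neg_neg]

theorem inner_A (t : ℤ) (L : ℕ) (δ : Fin N → ℤ) (f g : H) :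
    inner ℝ (ρ.A t L δ f) g = inner ℝ f (ρ.A t L δ g) := by
  rw [A, A, inner_av_left, inner_av_right]
  congr 1
  refine sum_nbij' (fun w => -w) (fun w => -w) ?_ ?_ ?_ ?_ ?_
  · intro w hw; rw [mem_Icc] at *; omega
  · intro w hw; rw [mem_Icc] at *; omega
  · intro w _; simp
  · intro w _; simp
  · intro w _
    rw [inner_S_right, mul_neg, neg_smul, neg_neg]

/-- Absorption. -/
theorem absorb (t : ℤ) (n m : ℕ) (w : Fin N → ℤ) (hw : ∀ i, |w i| ≤ m) (f : H) :
    ‖ρ.Q t n (ρ.S (t • w) f) - ρ.Q t n f‖ ≤ (2 * N * m / (2 * n + 1)) * ‖f‖ := by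
  classical
  have hc := card_sbox_pos (N := N) n
  have h1 : ρ.Q t n (ρ.S (t • w) f) - ρ.Q t n f = ((sbox N n).card : ℝ)⁻¹ •
      (∑ u ∈ (sbox N n).filter (fun u => u - -w ∉ sbox N n), ρ.S (t • (u + w)) f -
        ∑ u ∈ (sbox N n).filter (fun u => u - w ∉ sbox N n), ρ.S (t • u) f) := by
    rw [Q, Q, av, av, ← smul_sub]
    congr 1
    have e1 : ∑ u ∈ sbox N n, ρ.S (t • u) (ρ.S (t • w) f) =
        ∑ u ∈ sbox N n, ρ.S (t • (u + w)) f := by
      refine sum_congr rfl fun u _ => ?_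
      rw [← ρ.add, smul_add]
    rw [e1, ← sum_filter_add_sum_filter_not (sbox N n) (fun u => u - -w ∉ sbox N n)
      (fun u => ρ.S (t • (u + w)) f), ← sum_filter_add_sum_filter_not (sbox N n)
      (fun u => u - w ∉ sbox N n) (fun u => ρ.S (t • u) f)]
    have e2 : ∑ u ∈ (sbox N n).filter (fun u => ¬ (u - -w ∉ sbox N n)), ρ.S (t • (u + w)) f =
        ∑ u ∈ (sbox N n).filter (fun u => ¬ (u - w ∉ sbox N n)), ρ.S (t • u) f := by
      refine sum_nbij' (fun u => u + w) (fun u => u - w) ?_ ?_ ?_ ?_ ?_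
      · intro u hu
        rw [mem_filter, not_not] at *
        rw [sub_neg_eq_add] at hu
        exact ⟨hu.2, by rw [add_sub_cancel_right]; exact hu.1⟩
      · intro u hu
        rw [mem_filter, not_not] at *
        exact ⟨hu.2, by rw [sub_neg_eq_add, sub_add_cancel]; exact hu.1⟩
      · intro u _; simp
      · intro u _; simp
      · intro u _; rfl
    rw [e2]
    abel
  have hcard : ∀ w' : Fin N → ℤ, (∀ i, |w' i| ≤ m) →
      (((sbox N n).filter fun u => u - w' ∉ sbox N n).card : ℝ) ≤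
        (N * m / (2 * n + 1)) * (sbox N n).card := by
    intro w' hw'
    have hb := card_bad n w'
    have hs : ∑ i, |(w' i : ℝ)| ≤ N * m := by
      calc ∑ i, |(w' i : ℝ)| ≤ ∑ _i : Fin N, (m : ℝ) := by
            refine sum_le_sum fun i _ => ?_
            have := hw' i
            exact_mod_cast this
        _ = N * m := by simp
    have hpos : (0 : ℝ) < 2 * n + 1 := by positivity
    rw [card_sbox]
    push_cast
    rw [div_mul_eq_mul_div, le_div_iff₀ hpos]
    exact hb.trans (mul_le_mul_of_nonneg_right hs (by positivity))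
  rw [h1, norm_smul, norm_inv, Real.norm_of_nonneg hc.le, inv_mul_le_iff₀ hc]
  refine (norm_sub_le _ _).trans ?_
  have hA : ‖∑ u ∈ (sbox N n).filter (fun u => u - -w ∉ sbox N n), ρ.S (t • (u + w)) f‖ ≤
      (N * m / (2 * n + 1)) * (sbox N n).card * ‖f‖ := by
    refine (norm_sum_le _ _).trans ?_
    simp only [LinearIsometry.norm_map, sum_const, nsmul_eq_mul]
    refine mul_le_mul_of_nonneg_right (hcard (-w) fun i => ?_) (norm_nonneg _)
    simpa using hw i
  have hB : ‖∑ u ∈ (sbox N n).filter (fun u => u - w ∉ sbox N n), ρ.S (t • u) f‖ ≤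
      (N * m / (2 * n + 1)) * (sbox N n).card * ‖f‖ := by
    refine (norm_sum_le _ _).trans ?_
    simp only [LinearIsometry.norm_map, sum_const, nsmul_eq_mul]
    exact mul_le_mul_of_nonneg_right (hcard w hw) (norm_nonneg _)
  refine (add_le_add hA hB).trans (le_of_eq ?_)
  ring

end URep

end Vale.Agent.P011.MPQ
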