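import Vale.Agent.P011.MPQ.CF1Core

/-!
# P011, quaternion Margulis-Platonov: the combinatorial core, part 4

The regular representation of `ℤ ^ N`.
-/

namespace Vale.Agent.P011.MPQ

open Finset

variable {N : ℕ}

/-- The Hilbert space of square summable functions on `ℤ ^ N`. -/
abbrev L2 (N : ℕ) : Type := lp (fun _ : Fin N → ℤ => ℝ) 2

theorem two_pos' : 0 < (2 : ENNReal).toReal := by norm_num

/-- Translation. -/
noncomputable def shiftL (v : Fin N → ℤ) : L2 N →ₗᵢ[ℝ] L2 N where
  toFun f := ⟨fun x => f (x + v), by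
    have h' : Memℓp (f : (Fin N → ℤ) → ℝ) 2 := lp.memℓp f
    change Memℓp (fun x => f (x + v)) 2
    rw [memℓp_gen_iff two_pos'] at h' ⊢
    exact (Equiv.addRight v).summable_iff.mpr h'⟩
  map_add' f g := by
    ext x
    rfl
  map_smul' c f := by
    ext x
    rfl
  norm_map' f := by
    rw [lp.norm_eq_tsum_rpow two_pos', lp.norm_eq_tsum_rpow two_pos']
    congr 1
    exact (Equiv.addRight v).tsum_eq (fun x => ‖f x‖ ^ (2 : ENNReal).toReal)

theorem shiftL_apply (v : Fin N → ℤ) (f : L2 N) (x : Fin N → ℤ) : shiftL v f x = f (x + v) := rfl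

/-- The regular representation. -/
noncomputable def reg (N : ℕ) : URep N (L2 N) where
  S := shiftL
  zero f := by
    ext x
    rw [shiftL_apply, add_zero]
  add u v f := by
    ext x
    rw [shiftL_apply, shiftL_apply, shiftL_apply, add_assoc]

/-- Indicator functions of finite sets. -/
noncomputable def indv (s : Finset (Fin N → ℤ)) : L2 N :=
  ⟨fun x => if x ∈ s then 1 else 0, by
    change Memℓp (fun x => if x ∈ s then (1 : ℝ) else 0) 2
    rw [memℓp_gen_iff two_pos']
    refine summable_of_ne_finset_zero (s := s) fun x hx => ?_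
    rw [if_neg hx]
    simp⟩

theorem indv_apply (s : Finset (Fin N → ℤ)) (x : Fin N → ℤ) :
    indv s x = if x ∈ s then 1 else 0 := rfl

theorem norm_indv_sq (s : Finset (Fin N → ℤ)) : ‖indv s‖ ^ 2 = s.card := by
  rw [← real_inner_self_eq_norm_sq, lp.inner_eq_tsum, tsum_eq_sum (s := s)]
  · rw [sum_congr rfl (g := fun _ => (1 : ℝ))]
    · simp
    · intro x hx
      rw [indv_apply, if_pos hx]
      simp
  · intro x hx
    rw [indv_apply, if_neg hx]
    simp

theorem inner_shift_indv (s s' : Finset (Fin N → ℤ)) (v : Fin N → ℤ)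
    (h : ∀ x ∈ s', x + v ∉ s) : inner ℝ ((reg N).S v (indv s)) (indv s') = 0 := by
  rw [lp.inner_eq_tsum]
  have : ∀ x : Fin N → ℤ, inner ℝ ((reg N).S v (indv s) x) (indv s' x) = 0 := by
    intro x
    have e : (reg N).S v (indv s) x = indv s (x + v) := rfl
    rw [e, indv_apply, indv_apply]
    by_cases hx : x ∈ s'
    · rw [if_neg (h x hx)]; simp
    · rw [if_neg hx]; simp
  rw [tsum_congr this, tsum_zero]

theorem inner_indv (s s' : Finset (Fin N → ℤ)) (h : Disjoint s s') :
    inner ℝ (indv s) (indv s') = 0 := by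
  have := inner_shift_indv s s' 0 (fun x hx hx' => by
    rw [add_zero] at hx'
    exact Finset.disjoint_left.mp h hx' hx)
  rwa [(reg N).zero] at this

theorem av_coe {ι : Type*} (s : Finset ι) (g : ι → L2 N) (x : Fin N → ℤ) :
    (av s g) x = (s.card : ℝ)⁻¹ * ∑ i ∈ s, g i x := by
  rw [av, lp.coeFn_smul, Pi.smul_apply, smul_eq_mul, lp.coeFn_sum, Finset.sum_apply]

theorem Q_indv_apply (t : ℤ) (n : ℕ) (s : Finset (Fin N → ℤ)) (x : Fin N → ℤ) :
    (reg N).Q t n (indv s) x = ((sbox N n).card : ℝ)⁻¹ *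
      (({w ∈ sbox N n | x + t • w ∈ s} : Finset (Fin N → ℤ)).card : ℝ) := by
  rw [URep.Q, av_coe]
  congr 1
  rw [Finset.card_filter]
  push_cast
  refine sum_congr rfl fun w _ => ?_
  change indv s (x + t • w) = _
  rw [indv_apply]

theorem Q_indv_nonneg (t : ℤ) (n : ℕ) (s : Finset (Fin N → ℤ)) (x : Fin N → ℤ) :
    0 ≤ (reg N).Q t n (indv s) x := by
  rw [Q_indv_apply]
  positivity

theorem sum_le_inner (t : ℤ) (n : ℕ) (s s' C : Finset (Fin N → ℤ)) :
    ∑ x ∈ C, (reg N).Q t n (indv s) x * (reg N).Q t n (indv s') x ≤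
      inner ℝ ((reg N).Q t n (indv s)) ((reg N).Q t n (indv s')) := by
  rw [lp.inner_eq_tsum]
  refine le_trans (le_of_eq ?_) ((lp.summable_inner _ _).sum_le_tsum C ?_)
  · refine sum_congr rfl fun x _ => ?_
    simp [mul_comm]
  · intro x _
    have h1 := Q_indv_nonneg t n s x
    have h2 := Q_indv_nonneg t n s' x
    simp only [RCLike.inner_apply, conj_trivial]
    positivity

end Vale.Agent.P011.MPQ
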