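import Vale.Agent.P011.MPQ.KDefs

/-!
# P011, quaternion Margulis-Platonov, Theorem CF, part 2:
colours of elements of `ℚ^* U`, commutation relation, density of every colour
-/

namespace Vale.Agent.P011.MPQ

open Module

variable {D : Type*} [DivisionRing D] [Algebra ℚ D] {N : ℕ}

/-! ### The size of a product -/

theorem sz_zero (b : Basis (Fin N) ℚ D) : sz b 0 = 0 := by
  unfold sz
  rw [norm_eq_zero]
  funext i
  simp

theorem sz_sum_le (b : Basis (Fin N) ℚ D) {ι : Type*} (s : Finset ι) (f : ι → D) :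
    sz b (∑ i ∈ s, f i) ≤ ∑ i ∈ s, sz b (f i) := by
  classical
  induction s using Finset.induction_on with
  | empty => simp [sz_zero]
  | insert a s ha ih =>
    rw [Finset.sum_insert ha, Finset.sum_insert ha]
    exact (sz_add_le b _ _).trans (add_le_add le_rfl ih)

/-- The constant in `|x y| ≤ C |x| |y|`. -/
noncomputable def mulC (b : Basis (Fin N) ℚ D) : ℝ := 1 + ∑ i, ∑ j, sz b (b i * b j)

theorem mulC_pos (b : Basis (Fin N) ℚ D) : 0 < mulC b := by
  have : 0 ≤ ∑ i, ∑ j, sz b (b i * b j) :=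
    Finset.sum_nonneg fun i _ => Finset.sum_nonneg fun j _ => sz_nonneg _ _
  unfold mulC
  linarith

theorem sz_mul_le (b : Basis (Fin N) ℚ D) (x y : D) :
    sz b (x * y) ≤ mulC b * (sz b x * sz b y) := by
  have hx : x = ∑ i, b.repr x i • b i := (b.sum_repr x).symm
  have hy : y = ∑ j, b.repr y j • b j := (b.sum_repr y).symm
  have h1 : x * y = ∑ i, ∑ j, (b.repr x i * b.repr y j) • (b i * b j) := by
    conv_lhs => rw [hx, hy]
    rw [Finset.sum_mul_sum]
    refine Finset.sum_congr rfl fun i _ => Finset.sum_congr rfl fun j _ => ?_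
    rw [smul_mul_smul_comm]
  have h2 : sz b (x * y) ≤ ∑ i, ∑ j, sz b x * sz b y * sz b (b i * b j) := by
    rw [h1]
    refine (sz_sum_le b _ _).trans (Finset.sum_le_sum fun i _ => ?_)
    refine (sz_sum_le b _ _).trans (Finset.sum_le_sum fun j _ => ?_)
    rw [sz_smul]
    push_cast
    rw [abs_mul]
    exact mul_le_mul_of_nonneg_right (mul_le_mul (abs_repr_le b x i) (abs_repr_le b y j)
      (abs_nonneg _) (sz_nonneg _ _)) (sz_nonneg _ _)
  refine h2.trans ?_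
  have h3 : ∑ i, ∑ j, sz b x * sz b y * sz b (b i * b j) =
      sz b x * sz b y * ∑ i, ∑ j, sz b (b i * b j) := by
    rw [Finset.mul_sum]
    refine Finset.sum_congr rfl fun i _ => ?_
    rw [Finset.mul_sum]
  rw [h3]
  have h4 : 0 ≤ sz b x * sz b y := mul_nonneg (sz_nonneg _ _) (sz_nonneg _ _)
  unfold mulC
  nlinarith

/-! ### Colours of elements of `ℚ^* U` -/

section Col

variable {U : Subgroup Dˣ} {R : Type*} [Group R] (c : U →* R)

/-- `x = q u` with `q ∈ ℚ^*`, `u ∈ U` of colour `s`. -/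
def ECol (x : D) (s : R) : Prop := ∃ q : ℚ, q ≠ 0 ∧ ∃ u : U, q • ((u : Dˣ) : D) = x ∧ c u = s

variable {c}

theorem ECol.ne_zero {x : D} {s : R} (h : ECol c x s) : x ≠ 0 := by
  obtain ⟨q, hq, u, rfl, -⟩ := h
  exact smul_ne_zero hq (Units.ne_zero _)

theorem ECol.of_mem (u : U) : ECol c ((u : Dˣ) : D) (c u) := ⟨1, one_ne_zero, u, one_smul _ _, rfl⟩

theorem ECol.smul {x : D} {s : R} (h : ECol c x s) {q : ℚ} (hq : q ≠ 0) : ECol c (q • x) s := by
  obtain ⟨q', hq', u, rfl, hu⟩ := h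
  exact ⟨q * q', mul_ne_zero hq hq', u, (smul_smul q q' _).symm, hu⟩

theorem ECol.mul {x y : D} {s t : R} (h : ECol c x s) (h' : ECol c y t) :
    ECol c (x * y) (s * t) := by
  obtain ⟨q, hq, u, rfl, rfl⟩ := h
  obtain ⟨q', hq', u', rfl, rfl⟩ := h'
  refine ⟨q * q', mul_ne_zero hq hq', u * u', ?_, map_mul _ _ _⟩
  rw [Subgroup.coe_mul, Units.val_mul, smul_mul_smul_comm]

theorem ECol.inv {x : D} {s : R} (h : ECol c x s) : ECol c x⁻¹ s⁻¹ := by
  obtain ⟨q, hq, u, rfl, rfl⟩ := h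
  refine ⟨q⁻¹, inv_ne_zero hq, u⁻¹, ?_, map_inv _ _⟩
  have : ((((u⁻¹ : U) : Dˣ)) : D) = ((u : Dˣ) : D)⁻¹ := by
    rw [Subgroup.coe_inv, Units.val_inv_eq_inv_val]
  rw [this]
  rw [eq_comm]
  apply inv_eq_of_mul_eq_one_right
  rw [smul_mul_smul_comm, mul_inv_cancel₀ hq, one_smul, mul_inv_cancel₀ (Units.ne_zero _)]

theorem ECol.uniq (hc : Function.Surjective c) (hZ : Subgroup.center R = ⊥) {x : D} {s t : R}
    (h : ECol c x s) (h' : ECol c x t) : s = t := by
  obtain ⟨q, hq, u, hx, rfl⟩ := h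
  obtain ⟨q', hq', u', hx', rfl⟩ := h'
  have h1 : ((u' : Dˣ) : D) = (q / q') • ((u : Dˣ) : D) := by
    have : q' • ((u' : Dˣ) : D) = q • ((u : Dˣ) : D) := hx'.trans hx.symm
    rw [div_eq_inv_mul, ← smul_smul, ← this, smul_smul, inv_mul_cancel₀ hq', one_smul]
  have h2 : c (u⁻¹ * u') = 1 := by
    have : c (u⁻¹ * u') ∈ Subgroup.center R := by
      rw [Subgroup.mem_center_iff]
      intro g
      obtain ⟨v, rfl⟩ := hc g
      rw [← map_mul, ← map_mul]
      congr 1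
      apply Subtype.ext
      apply Units.ext
      have e1 : (((u⁻¹ * u' : U) : Dˣ) : D) = (q / q') • (1 : D) := by
        rw [Subgroup.coe_mul, Units.val_mul, h1, Subgroup.coe_inv, mul_smul_comm,
          Units.inv_mul]
      have e2 : (((v * (u⁻¹ * u') : U) : Dˣ) : D) =
        ((v : Dˣ) : D) * (((u⁻¹ * u' : U) : Dˣ) : D) := rfl
      have e3 : (((u⁻¹ * u' * v : U) : Dˣ) : D) =
        (((u⁻¹ * u' : U) : Dˣ) : D) * ((v : Dˣ) : D) := rfl
      rw [e2, e3, e1, mul_smul_comm, smul_mul_assoc, mul_one, one_mul]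
    rw [hZ, Subgroup.mem_bot] at this
    exact this
  rw [map_mul, map_inv] at h2
  exact (inv_mul_eq_one.mp h2)

/-- (A) the commutation relation. -/
theorem ECol.comm (hc : Function.Surjective c) (hZ : Subgroup.center R = ⊥) {x y : D} {a β β' : R}
    (hx : ECol c x β') (hy : ECol c y β) (hxy : ECol c (x + y) a) :
    (β'⁻¹ * a) * (β'⁻¹ * β) = (β'⁻¹ * β) * (β'⁻¹ * a) := by
  have h1 := hx.inv.mul hxy
  have h2 := hx.inv.mul hy
  have hx0 := hx.ne_zero
  have e : (x⁻¹ * (x + y)) * (x⁻¹ * y) = (x⁻¹ * y) * (x⁻¹ * (x + y)) := by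
    rw [mul_add, inv_mul_cancel₀ hx0]
    noncomm_ring
  have h3 := h1.mul h2
  have h4 := h2.mul h1
  rw [e] at h3
  exact ECol.uniq hc hZ h3 h4

/-- If `β'⁻¹ a` commutes with all `β'⁻¹ β` then `a = β'`. -/
theorem eq_of_comm (hZ : Subgroup.center R = ⊥) {a β' : R}
    (h : ∀ β : R, (β'⁻¹ * a) * (β'⁻¹ * β) = (β'⁻¹ * β) * (β'⁻¹ * a)) : β' = a := by
  have : β'⁻¹ * a ∈ Subgroup.center R := by
    rw [Subgroup.mem_center_iff]
    intro g
    have := h (β' * g)
    rw [inv_mul_cancel_left] at this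
    exact this.symm
  rw [hZ, Subgroup.mem_bot] at this
  exact inv_mul_eq_one.mp this

end Col

/-! ### Elements near the positive rational axis -/

/-- coordinates of `1` -/
theorem exists_one {b : Basis (Fin N) ℚ D} (hO : IsOrder b) :
    ∃ o : Fin N → ℤ, vec b o = 1 := mem_lat_iff_vec.mp hO.one

theorem vec_nsmul_one (b : Basis (Fin N) ℚ D) {o : Fin N → ℤ} (ho : vec b o = 1) (k : ℕ) :
    vec b (k • o) = (k : D) := by
  rw [map_nsmul, ho, nsmul_eq_mul, mul_one]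

/-- `M + r₀ w` has a colour if `M ≡ 1 mod r₀` is a natural number and `r₀ |w| < ρ₀ M`. -/
theorem exists_col {b : Basis (Fin N) ℚ D} (r₀ : ℕ) (ρ₀ : ℝ) (U : Subgroup Dˣ)
    (hU : TOpen b r₀ ρ₀ U) {R : Type*} [Group R] (c : U →* R) (M : ℕ) (hM0 : 0 < M)
    (hM : M.Coprime r₀) (hMr : ∃ k : ℕ, M = 1 + r₀ * k) (w : D) (hw : w ∈ lat b)
    (hsz : r₀ * sz b w < ρ₀ * M) (hne : (M : D) + (r₀ : D) * w ≠ 0) :
    ∃ s : R, ECol c ((M : D) + (r₀ : D) * w) s := by
  have hM' : (M : ℚ) ≠ 0 := by exact_mod_cast hM0.ne'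
  set x : D := (M : ℚ)⁻¹ • ((M : D) + (r₀ : D) * w) with hx
  have hx0 : x ≠ 0 := smul_ne_zero (inv_ne_zero hM') hne
  have hMx : (M : D) * x = (M : D) + (r₀ : D) * w := by
    rw [hx, mul_smul_comm]
    have : (M : D) * ((M : D) + (r₀ : D) * w) = (M : ℚ) • ((M : D) + (r₀ : D) * w) := by
      rw [Algebra.smul_def]
      simp
    rw [this, smul_smul, inv_mul_cancel₀ hM', one_smul]
  have hc : Cong b r₀ x 1 := by
    refine ⟨M, hM0.ne', hM, w, hw, ?_⟩
    rw [mul_sub, hMx, mul_one]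
    abel
  have hs : sz b (x - 1) < ρ₀ := by
    have e : x - 1 = ((M : ℚ)⁻¹ * r₀) • w := by
      have e0 : (M : ℚ)⁻¹ • ((M : D) + (r₀ : D) * w) =
          (M : ℚ)⁻¹ • (M : D) + (M : ℚ)⁻¹ • ((r₀ : D) * w) := by
        rw [Algebra.smul_def, Algebra.smul_def, Algebra.smul_def, mul_add]
      rw [hx, e0, mul_smul]
      have e1 : (M : ℚ)⁻¹ • (M : D) = 1 := by
        rw [Algebra.smul_def, map_inv₀, map_natCast, inv_mul_cancel₀]
        intro h
        apply hM'
        have h' : algebraMap ℚ D (M : ℚ) = algebraMap ℚ D 0 := by simpa using h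
        exact (algebraMap ℚ D).injective h'
      have e2 : (r₀ : ℚ) • w = (r₀ : D) * w := by
        rw [Algebra.smul_def]
        simp
      rw [e1, e2]
      abel
    rw [e, sz_smul]
    push_cast
    rw [abs_mul, abs_inv, Nat.abs_cast, Nat.abs_cast]
    have : (0 : ℝ) < M := by exact_mod_cast hM0
    rw [inv_mul_eq_div, div_mul_eq_mul_div, div_lt_iff₀ this]
    exact hsz
  have hu := hU.nbhd (Units.mk0 x hx0) hc hs
  refine ⟨c ⟨Units.mk0 x hx0, hu⟩, M, hM', ⟨Units.mk0 x hx0, hu⟩, ?_, rfl⟩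
  simp only [Units.val_mk0]
  rw [hx, smul_smul, mul_inv_cancel₀ hM', one_smul]

end Vale.Agent.P011.MPQ
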