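import Vale.Agent.P011.MPQ.CF1Final
import Vale.Agent.P011.MPQ.CF2

/-!
# P011, quaternion Margulis-Platonov, Theorem CF, part 3: density of every colour, Theorem CF
-/

namespace Vale.Agent.P011.MPQ

open Module

variable {D : Type*} [DivisionRing D] [Algebra ℚ D] {N : ℕ}

/-- The integral coordinates of a lattice vector. -/
noncomputable def crd (b : Basis (Fin N) ℚ D) (x : D) : Fin N → ℤ := fun i => ⌊b.repr x i⌋

theorem vec_crd {b : Basis (Fin N) ℚ D} {x : D} (hx : x ∈ lat b) : vec b (crd b x) = x := by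
  obtain ⟨n, rfl⟩ := mem_lat_iff_vec.mp hx
  congr 1
  funext i
  simp [crd]

theorem abs_crd_le {b : Basis (Fin N) ℚ D} {x : D} (hx : x ∈ lat b) (i : Fin N) :
    |(crd b x i : ℝ)| ≤ sz b x := by
  have h := abs_repr_le b x i
  rw [← vec_crd hx, repr_vec, vec_crd hx] at h
  simpa using h

/-- Every element has a positive multiple in the lattice. -/
theorem exists_nat_smul_mem (b : Basis (Fin N) ℚ D) (x : D) :
    ∃ q : ℕ, 0 < q ∧ (q : ℚ) • x ∈ lat b := by
  refine ⟨∏ i, (b.repr x i).den, Finset.prod_pos fun i _ => Rat.den_pos _, fun i => ?_⟩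
  rw [map_smul]
  simp only [Finsupp.smul_apply, smul_eq_mul]
  rw [← Finset.mul_prod_erase _ _ (Finset.mem_univ i)]
  refine ⟨(b.repr x i).num * ∏ j ∈ Finset.univ.erase i, ((b.repr x j).den : ℤ), ?_⟩
  push_cast
  have : ((b.repr x i).den : ℚ) * b.repr x i = (b.repr x i).num := by
    rw [mul_comm]
    exact Rat.mul_den_eq_num _
  rw [← this]
  ring

theorem one_le_sz_one {b : Basis (Fin N) ℚ D} (hO : IsOrder b) : 1 ≤ sz b 1 := by
  obtain ⟨o, ho⟩ := exists_one hO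
  have h0 : o ≠ 0 := by
    rintro rfl
    rw [map_zero] at ho
    exact one_ne_zero ho.symm
  obtain ⟨i, hi⟩ : ∃ i, o i ≠ 0 := by
    by_contra h
    push Not at h
    exact h0 (funext h)
  have h := abs_repr_le b 1 i
  rw [← ho, repr_vec, ho] at h
  refine le_trans ?_ h
  have : (1 : ℤ) ≤ |o i| := Int.one_le_abs hi
  have h2 : ((1 : ℤ) : ℝ) ≤ ((|o i| : ℤ) : ℝ) := by exact_mod_cast this
  simpa using h2

/-- The affine family `M + r₀ w`, `M = 1 + r₀ K₁ X`. -/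
noncomputable def Yv (b : Basis (Fin N) ℚ D) (r₀ K₁ X : ℕ) (x : Fin N → ℤ) : D :=
  ((1 + r₀ * (K₁ * X) : ℕ) : D) + (r₀ : D) * vec b x

theorem Yv_add (b : Basis (Fin N) ℚ D) (r₀ K₁ X : ℕ) (x w : Fin N → ℤ) (t : ℤ) :
    Yv b r₀ K₁ X (x + t • w) = Yv b r₀ K₁ X x + ((r₀ : ℚ) * t) • vec b w := by
  unfold Yv
  rw [map_add, map_zsmul, mul_add, ← add_assoc]
  congr 1
  rw [← Int.cast_smul_eq_zsmul ℚ t (vec b w), mul_smul, Algebra.smul_def (r₀ : ℚ)]
  simp

theorem sz_natCast_mul (b : Basis (Fin N) ℚ D) (k : ℕ) (x : D) :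
    sz b ((k : D) * x) = k * sz b x := by
  have : (k : D) * x = (k : ℚ) • x := by
    rw [Algebra.smul_def]
    simp
  rw [this, sz_smul]
  simp

/-- The bound for the size of `M + r₀ w`. -/
theorem sz_Yv_le {b : Basis (Fin N) ℚ D} (r₀ K₁ X : ℕ) (hX : 1 ≤ X) (x : Fin N → ℤ)
    (hx : ∀ i, |x i| ≤ X) :
    sz b (Yv b r₀ K₁ X x) ≤ ((1 + r₀ * K₁) * sz b 1 + r₀) * X := by
  unfold Yv
  refine (sz_add_le _ _ _).trans ?_
  have h1 : sz b (((1 + r₀ * (K₁ * X) : ℕ) : D)) = (1 + r₀ * (K₁ * X)) * sz b 1 := by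
    have := sz_natCast_mul b (1 + r₀ * (K₁ * X)) 1
    rw [mul_one] at this
    rw [this]
    push_cast
    ring
  have h2 : sz b ((r₀ : D) * vec b x) ≤ r₀ * X := by
    rw [sz_natCast_mul]
    refine mul_le_mul_of_nonneg_left ?_ (by positivity)
    rw [sz_vec_le b x (by positivity)]
    intro i
    exact_mod_cast hx i
  rw [h1]
  have h3 : (1 : ℝ) ≤ X := by exact_mod_cast hX
  have h4 := sz_nonneg b 1
  have h5 : (1 : ℝ) * sz b 1 ≤ X * sz b 1 := mul_le_mul_of_nonneg_right h3 h4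
  nlinarith

section main

variable {b : Basis (Fin N) ℚ D} {r₀ : ℕ} {ρ₀ : ℝ} {U : Subgroup Dˣ} {R : Type*} [Group R]

/-- `M + r₀ w` has a colour. -/
theorem exists_col_Yv (hO : IsOrder b) (hU : TOpen b r₀ ρ₀ U) (c : U →* R) (K₁ : ℕ)
    (hK₁ : 1 ≤ K₁) (hK₁' : 1 ≤ ρ₀ * K₁) (X : ℕ) (x : Fin N → ℤ) (hx : ∀ i, |x i| ≤ X) :
    ∃ s : R, ECol c (Yv b r₀ K₁ X x) s := by
  have hxs : sz b (vec b x) ≤ X := by
    rw [sz_vec_le b x (by positivity)]
    intro i
    exact_mod_cast hx i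
  have hr : (0 : ℝ) < r₀ := by exact_mod_cast hU.r_pos
  have hrx : (r₀ : ℝ) * sz b (vec b x) ≤ r₀ * X := mul_le_mul_of_nonneg_left hxs hr.le
  have hrX : (0 : ℝ) ≤ r₀ * X := by positivity
  refine exists_col r₀ ρ₀ U hU c (1 + r₀ * (K₁ * X)) (by omega) ?_ ⟨_, rfl⟩ (vec b x)
    (vec_mem b x) ?_ ?_
  · simp
  · push_cast
    have h1 : (r₀ : ℝ) * X * 1 ≤ r₀ * X * (ρ₀ * K₁) := mul_le_mul_of_nonneg_left hK₁' hrX
    have := hU.ρ_pos
    nlinarith
  · intro h
    have h1 : (r₀ : D) * vec b x = -(((1 + r₀ * (K₁ * X) : ℕ) : D) * 1) := by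
      rw [mul_one]
      exact eq_neg_of_add_eq_zero_right h
    have h2 := congrArg (sz b) h1
    rw [sz_natCast_mul, sz_neg, sz_natCast_mul] at h2
    have h3 := one_le_sz_one hO
    push_cast at h2
    have h4 : (1 : ℝ) ≤ K₁ := by exact_mod_cast hK₁
    have h5 : (r₀ : ℝ) * X * 1 ≤ r₀ * X * K₁ := mul_le_mul_of_nonneg_left h4 hrX
    have h6 : (0 : ℝ) < 1 + r₀ * (K₁ * X) := by positivity
    have h7 : (1 + (r₀ : ℝ) * (K₁ * X)) * 1 ≤ (1 + r₀ * (K₁ * X)) * sz b 1 :=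
      mul_le_mul_of_nonneg_left h3 h6.le
    nlinarith

theorem Yv_injective (hU : TOpen b r₀ ρ₀ U) (K₁ X : ℕ) : Function.Injective (Yv b r₀ K₁ X) := by
  intro x y h
  unfold Yv at h
  have h1 := add_left_cancel h
  have h2 : (r₀ : D) ≠ 0 := by
    have : (r₀ : ℚ) ≠ 0 := by exact_mod_cast hU.r_pos.ne'
    intro h0
    apply this
    have h' : algebraMap ℚ D (r₀ : ℚ) = algebraMap ℚ D 0 := by simpa using h0
    exact (algebraMap ℚ D).injective h'
  exact vec_injective b (mul_left_cancel₀ h2 h1)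

theorem exists_K₁ (ρ₀ : ℝ) (hρ : 0 < ρ₀) : ∃ K₁ : ℕ, 1 ≤ K₁ ∧ 1 ≤ ρ₀ * K₁ := by
  obtain ⟨k, hk⟩ := exists_nat_ge (1 / ρ₀)
  refine ⟨k + 1, by omega, ?_⟩
  rw [div_le_iff₀ hρ] at hk
  push_cast
  nlinarith

theorem Yv_mem (hO : IsOrder b) (r₀ K₁ X : ℕ) (x : Fin N → ℤ) : Yv b r₀ K₁ X x ∈ lat b := by
  unfold Yv
  refine add_mem ?_ ?_
  · rw [← nsmul_one]
    exact nsmul_mem hO.one _
  · rw [← nsmul_eq_mul]
    exact nsmul_mem (vec_mem b x) _

/-- (B) every colour has positive density. -/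
theorem colour_density (hO : IsOrder b) (hU : TOpen b r₀ ρ₀ U) [Finite R] (c : U →* R)
    (hc : Function.Surjective c) :
    ∃ (η : ℝ) (n₀ : ℕ), 0 < η ∧ ∀ (s : R) (n : ℕ), n₀ ≤ n → ∃ Δ : Finset (Fin N → ℤ),
      (∀ d ∈ Δ, ∀ i, |d i| ≤ n) ∧ η * (2 * (n : ℝ) + 1) ^ N ≤ Δ.card ∧
        ∀ d ∈ Δ, ECol c (vec b d) s := by
  classical
  have := Fintype.ofFinite R
  obtain ⟨K₁, hK₁, hK₁'⟩ := exists_K₁ ρ₀ hU.ρ_pos
  -- representatives of the colours in the lattice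
  have hG : ∀ g : R, ∃ x ∈ lat b, ECol c x g := by
    intro g
    obtain ⟨u, rfl⟩ := hc g
    obtain ⟨q, hq, hqu⟩ := exists_nat_smul_mem b ((u : Dˣ) : D)
    exact ⟨_, hqu, (ECol.of_mem u).smul (by exact_mod_cast hq.ne')⟩
  choose G hGm hGc using hG
  set CY : ℝ := (1 + r₀ * K₁) * sz b 1 + r₀ with hCY
  have hCY0 : 0 ≤ CY := by
    have := sz_nonneg b 1
    positivity
  set CG : ℝ := ∑ g : R, sz b (G g) with hCG
  have hCG0 : 0 ≤ CG := Finset.sum_nonneg fun g _ => sz_nonneg _ _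
  have hGle : ∀ g, sz b (G g) ≤ CG := fun g =>
    Finset.single_le_sum (fun g _ => sz_nonneg b (G g)) (Finset.mem_univ g)
  obtain ⟨C, hC⟩ := exists_nat_ge (mulC b * (CY * CG) + 1)
  have hC0 : 0 < C := by
    have : (0 : ℝ) < C := lt_of_lt_of_le (by have := mulC_pos b; positivity) hC
    exact_mod_cast this
  -- the main estimate
  have hmain : ∀ (s : R) (n : ℕ), 1 ≤ n → ∃ Δ : Finset (Fin N → ℤ),
      (∀ d ∈ Δ, ∀ i, |d i| ≤ C * n) ∧ (2 * (n : ℝ) + 1) ^ N ≤ Fintype.card R * Δ.card ∧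
        ∀ d ∈ Δ, ECol c (vec b d) s := by
    intro s n hn
    have hcol : ∀ w : Fin N → ℤ, ∃ s : R, w ∈ sbox N n → ECol c (Yv b r₀ K₁ n w) s := by
      intro w
      by_cases hw : w ∈ sbox N n
      · obtain ⟨s, hs⟩ := exists_col_Yv hO hU c K₁ hK₁ hK₁' n w (mem_sbox.mp hw)
        exact ⟨s, fun _ => hs⟩
      · exact ⟨1, fun h => absurd h hw⟩
    choose κ hκ using hcol
    obtain ⟨s₀, hs₀⟩ : ∃ s₀ : R, ((sbox N n).card : ℝ) ≤
        Fintype.card R * (((sbox N n).filter (fun w => κ w = s₀)).card : ℝ) := by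
      by_contra hcon
      push Not at hcon
      have h1 : ((sbox N n).card : ℝ) = ∑ s : R, (((sbox N n).filter (fun w => κ w = s)).card : ℝ) := by
        rw [← Nat.cast_sum]
        congr 1
        exact Finset.card_eq_sum_card_fiberwise (fun w _ => Finset.mem_univ _)
      have h2 : ∑ s : R, (Fintype.card R * (((sbox N n).filter (fun w => κ w = s)).card : ℝ)) <
          ∑ s : R, ((sbox N n).card : ℝ) :=
        Finset.sum_lt_sum_of_nonempty Finset.univ_nonempty (fun s _ => hcon s)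
      rw [← Finset.mul_sum, ← h1, Finset.sum_const, nsmul_eq_mul, Finset.card_univ] at h2
      exact lt_irrefl _ h2
    set g : D := G (s₀⁻¹ * s) with hg
    have hg0 : g ≠ 0 := (hGc _).ne_zero
    have hmem : ∀ w, Yv b r₀ K₁ n w * g ∈ lat b := fun w =>
      hO.mul _ (Yv_mem hO r₀ K₁ n w) _ (hGm _)
    refine ⟨((sbox N n).filter (fun w => κ w = s₀)).image
      (fun w => crd b (Yv b r₀ K₁ n w * g)), ?_, ?_, ?_⟩
    · intro d hd i
      rw [Finset.mem_image] at hd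
      obtain ⟨w, hw, rfl⟩ := hd
      rw [Finset.mem_filter] at hw
      have h1 := abs_crd_le (hmem w) i
      have h2 := sz_mul_le b (Yv b r₀ K₁ n w) g
      have h3 := sz_Yv_le (b := b) r₀ K₁ n hn w (mem_sbox.mp hw.1)
      rw [← hCY] at h3
      have h4 := hGle (s₀⁻¹ * s)
      rw [← hg] at h4
      have hn0 : (0 : ℝ) ≤ n := by positivity
      have h5 : sz b (Yv b r₀ K₁ n w) * sz b g ≤ CY * n * CG :=
        mul_le_mul h3 h4 (sz_nonneg _ _) (by positivity)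
      have h6 : mulC b * (sz b (Yv b r₀ K₁ n w) * sz b g) ≤ mulC b * (CY * n * CG) :=
        mul_le_mul_of_nonneg_left h5 (mulC_pos b).le
      have h7 : mulC b * (CY * n * CG) ≤ C * n := by
        have : mulC b * (CY * CG) * n ≤ C * n :=
          mul_le_mul_of_nonneg_right (by linarith) hn0
        linarith
      have h8 : |(crd b (Yv b r₀ K₁ n w * g) i : ℝ)| ≤ C * n := by linarith
      exact_mod_cast h8
    · rw [Finset.card_image_of_injOn]
      · rw [card_sbox] at hs₀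
        push_cast at hs₀
        exact hs₀
      · intro w _ w' _ h
        have h1 : Yv b r₀ K₁ n w * g = Yv b r₀ K₁ n w' * g := by
          rw [← vec_crd (hmem w), ← vec_crd (hmem w')]
          exact congrArg (vec b) h
        exact Yv_injective hU K₁ n (mul_right_cancel₀ hg0 h1)
    · intro d hd
      rw [Finset.mem_image] at hd
      obtain ⟨w, hw, rfl⟩ := hd
      rw [Finset.mem_filter] at hw
      rw [vec_crd (hmem w)]
      have h1 := (hκ w hw.1).mul (hGc (s₀⁻¹ * s))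
      rw [hw.2, mul_inv_cancel_left] at h1
      exact h1
  have hR : (0 : ℝ) < Fintype.card R := by exact_mod_cast Fintype.card_pos
  have hCr : (0 : ℝ) < C := by exact_mod_cast hC0
  refine ⟨1 / (Fintype.card R * (2 * C) ^ N), C, by positivity, fun s n hn => ?_⟩
  have hn' : 1 ≤ n / C := (Nat.one_le_div_iff hC0).mpr hn
  obtain ⟨Δ, h1, h2, h3⟩ := hmain s (n / C) hn'
  refine ⟨Δ, fun d hd i => (h1 d hd i).trans ?_, ?_, h3⟩
  · exact_mod_cast Nat.mul_div_le n C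
  · rw [div_mul_eq_mul_div, one_mul, div_le_iff₀ (by positivity)]
    have h4 : (2 * (n : ℝ) + 1) ≤ 2 * C * (2 * ((n / C : ℕ) : ℝ) + 1) := by
      have h5 : n + 1 ≤ C * (n / C + 1) := by
        have := Nat.lt_mul_div_succ n hC0
        exact this
      have h6 : ((n : ℝ) + 1) ≤ C * (((n / C : ℕ) : ℝ) + 1) := by exact_mod_cast h5
      have h7 : (0 : ℝ) ≤ ((n / C : ℕ) : ℝ) := by positivity
      nlinarith
    have h5 : (2 * (n : ℝ) + 1) ^ N ≤ (2 * C * (2 * ((n / C : ℕ) : ℝ) + 1)) ^ N :=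
      pow_le_pow_left₀ (by positivity) h4 N
    rw [mul_pow] at h5
    calc (2 * (n : ℝ) + 1) ^ N ≤ (2 * C) ^ N * (2 * ((n / C : ℕ) : ℝ) + 1) ^ N := h5
      _ ≤ (2 * C) ^ N * (Fintype.card R * Δ.card) :=
        mul_le_mul_of_nonneg_left h2 (by positivity)
      _ = Δ.card * (Fintype.card R * (2 * C) ^ N) := by ring

/-- THEOREM CF. -/
theorem cf (hO : IsOrder b) (hU : TOpen b r₀ ρ₀ U) [Finite R] (c : U →* R)
    (hc : Function.Surjective c) (hZ : Subgroup.center R = ⊥) :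
    ∃ (r : ℕ) (ρ : ℝ), 0 < r ∧ 0 < ρ ∧ ∀ x : U, Cong b r ((x : Dˣ) : D) 1 →
      sz b (((x : Dˣ) : D) - 1) < ρ → c x = 1 := by
  classical
  have := Fintype.ofFinite R
  obtain ⟨K₁, hK₁, hK₁'⟩ := exists_K₁ ρ₀ hU.ρ_pos
  obtain ⟨η, n₀, hη, hden⟩ := colour_density hO hU c hc
  set ε : ℝ := η / (2 * 3 ^ N) with hε
  have hε0 : 0 < ε := by positivity
  obtain ⟨T, K, hT, hK, hcf⟩ := cf1 N R ε η hε0 hη
  have hr : (0 : ℝ) < r₀ := by exact_mod_cast hU.r_pos
  have hKr : (0 : ℝ) < K := by exact_mod_cast hK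
  set CY : ℝ := (1 + r₀ * K₁) * sz b 1 + r₀ with hCY
  have hCY0 : 0 < CY := by
    have := sz_nonneg b 1
    positivity
  have hmC := mulC_pos b
  refine ⟨r₀ * T, 1 / (8 * (mulC b * CY * K)), Nat.mul_pos hU.r_pos hT, by positivity, ?_⟩
  intro d hd hds
  obtain ⟨q, hq0, hqc, z, hz, hqz⟩ := hd
  set X : ℕ := K * (2 * n₀ + 8 * q + 8) with hX
  have hXK : K ≤ X := Nat.le_mul_of_pos_right K (by omega)
  have hX1 : 1 ≤ X := le_trans hK hXK
  -- the colouring
  have hcol : ∀ w : Fin N → ℤ, ∃ s : R, w ∈ Bx N X → ECol c (Yv b r₀ K₁ X w) s := by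
    intro w
    by_cases hw : w ∈ Bx N X
    · obtain ⟨s, hs⟩ := exists_col_Yv hO hU c K₁ hK₁ hK₁' X w (fun i => by
        have := (mem_Bx.mp hw) i
        rw [abs_of_nonneg this.1]
        exact this.2.le)
      exact ⟨s, fun _ => hs⟩
    · exact ⟨1, fun h => absurd h hw⟩
  choose χ hχ using hcol
  obtain ⟨t, m, a, y, ht, htT, hm, hbox, hexc⟩ := hcf X hXK χ (by
    intro a β' hab t ht htT l hl _
    obtain ⟨g, hg⟩ : ∃ g : R, ¬ ((β'⁻¹ * a) * (β'⁻¹ * g) = (β'⁻¹ * g) * (β'⁻¹ * a)) := by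
      by_contra h
      push Not at h
      exact hab (eq_of_comm hZ h).symm
    have hln : n₀ ≤ l := by
      have h1 : K * (2 * n₀ + 8 * q + 8) ≤ K * l := hl
      have := Nat.le_of_mul_le_mul_left h1 hK
      omega
    obtain ⟨Δ, h1, h2, h3⟩ := hden g l hln
    refine ⟨Δ, h1, h2, ?_⟩
    intro d hd x hx h hh hx' ⟨e1, e2⟩
    apply hg
    have k1 := hχ x hx
    have k2 := hχ _ hx'
    rw [e1] at k1
    rw [e2, Yv_add] at k2
    have hne : ((r₀ : ℚ) * (((t : ℤ) * h : ℤ) : ℚ)) ≠ 0 := by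
      have h1 : (r₀ : ℚ) ≠ 0 := by exact_mod_cast hU.r_pos.ne'
      have h2 : (((t : ℤ) * h : ℤ) : ℚ) ≠ 0 := by
        have : (t : ℤ) * h ≠ 0 := mul_ne_zero (by exact_mod_cast ht.ne') hh
        exact_mod_cast this
      exact mul_ne_zero h1 h2
    exact ECol.comm hc hZ k1 ((h3 d hd).smul hne) k2)
  have hmn : 2 * n₀ + 8 * q + 8 ≤ m := Nat.le_of_mul_le_mul_left hm hK
  -- (D)
  have hD : ∀ v : Fin N → ℤ, (∀ i, |v i| ≤ (m / 2 : ℕ)) → χ (y + (t : ℤ) • v) = a := by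
    intro v hv
    have hvm : ∀ i, |v i| ≤ m := fun i => (hv i).trans (by
      exact_mod_cast Nat.div_le_self m 2)
    have k1 := hχ _ (hbox v hvm)
    refine eq_of_comm hZ (fun β => ?_)
    obtain ⟨Δ, h1, h2, h3⟩ := hden β (m / 2) (by omega)
    have hadd : ∀ w ∈ Δ, ∀ i, |(v + w) i| ≤ m := by
      intro w hw i
      have e1 := hv i
      have e2 := h1 w hw i
      have e3 : |v i + w i| ≤ |v i| + |w i| := abs_add_le _ _
      have e4 : ((m / 2 : ℕ) : ℤ) + ((m / 2 : ℕ) : ℤ) ≤ m := by omega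
      rw [Pi.add_apply]
      omega
    obtain ⟨w, hw, hwa⟩ : ∃ w ∈ Δ, χ (y + (t : ℤ) • (v + w)) = a := by
      by_contra hcon
      push Not at hcon
      have hsub : Δ.image (fun w => v + w) ⊆
          ({w ∈ sbox N m | χ (y + (t : ℤ) • w) ≠ a} : Finset (Fin N → ℤ)) := by
        intro u hu
        rw [Finset.mem_image] at hu
        obtain ⟨w, hw, rfl⟩ := hu
        rw [Finset.mem_filter, mem_sbox]
        exact ⟨hadd w hw, hcon w hw⟩
      have hc1 := Finset.card_le_card hsub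
      rw [Finset.card_image_of_injective _ (add_right_injective v)] at hc1
      have hc2 : (Δ.card : ℝ) ≤ ε * (2 * (m : ℝ) + 1) ^ N :=
        le_trans (by exact_mod_cast hc1) hexc
      have hc3 : (2 * (m : ℝ) + 1) ≤ 3 * (2 * ((m / 2 : ℕ) : ℝ) + 1) := by
        have : 2 * m + 1 ≤ 3 * (2 * (m / 2) + 1) := by omega
        exact_mod_cast this
      have hc4 : (2 * (m : ℝ) + 1) ^ N ≤ 3 ^ N * (2 * ((m / 2 : ℕ) : ℝ) + 1) ^ N := by
        rw [← mul_pow]
        exact pow_le_pow_left₀ (by positivity) hc3 N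
      have hc5 : (0 : ℝ) < (2 * ((m / 2 : ℕ) : ℝ) + 1) ^ N := by positivity
      have hc6 : ε * (2 * (m : ℝ) + 1) ^ N ≤
          η / 2 * (2 * ((m / 2 : ℕ) : ℝ) + 1) ^ N := by
        calc ε * (2 * (m : ℝ) + 1) ^ N ≤ ε * (3 ^ N * (2 * ((m / 2 : ℕ) : ℝ) + 1) ^ N) :=
            mul_le_mul_of_nonneg_left hc4 hε0.le
          _ = η / 2 * (2 * ((m / 2 : ℕ) : ℝ) + 1) ^ N := by
            rw [hε]
            field_simp
      have hc7 := h2.trans (hc2.trans hc6)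
      have hc8 : η / 2 * (2 * ((m / 2 : ℕ) : ℝ) + 1) ^ N <
          η * (2 * ((m / 2 : ℕ) : ℝ) + 1) ^ N := by
        apply mul_lt_mul_of_pos_right _ hc5
        linarith
      linarith
    have k2 := hχ _ (hbox (v + w) (hadd w hw))
    rw [hwa, smul_add, ← add_assoc, Yv_add] at k2
    have hne : ((r₀ : ℚ) * ((t : ℤ) : ℚ)) ≠ 0 := by
      have h1 : (r₀ : ℚ) ≠ 0 := by exact_mod_cast hU.r_pos.ne'
      have h2 : ((t : ℤ) : ℚ) ≠ 0 := by
        have : (t : ℤ) ≠ 0 := by exact_mod_cast ht.ne'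
        exact_mod_cast this
      exact mul_ne_zero h1 h2
    exact ECol.comm hc hZ k1 ((h3 w hw).smul hne) k2
  -- (E)
  obtain ⟨T', rfl⟩ := htT
  obtain ⟨o, ho⟩ := exists_one hO
  have hcop : IsCoprime ((r₀ : ℤ) * t) (q : ℤ) := by
    have : Nat.Coprime (r₀ * t) q := by
      refine Nat.Coprime.coprime_dvd_left ⟨T', ?_⟩ hqc.symm
      ring
    have h := Nat.isCoprime_iff_coprime.mpr this
    push_cast at h
    exact h
  obtain ⟨A, B, hAB⟩ := hcop
  have hq0' : (0 : ℤ) < q := by exact_mod_cast Nat.pos_of_ne_zero hq0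
  set cf : Fin N → ℤ := fun i => ((1 + r₀ * (K₁ * X) : ℕ) : ℤ) * o i + r₀ * y i with hcfdef
  set v : Fin N → ℤ := fun i => (-(A * cf i)) % q with hv
  have hv0 : ∀ i, 0 ≤ v i ∧ v i < q := fun i =>
    ⟨Int.emod_nonneg _ hq0'.ne', Int.emod_lt_of_pos _ hq0'⟩
  have hvdvd : ∀ i, ∃ k : ℤ, cf i + r₀ * (t * v i) = q * k := by
    intro i
    have h1 := Int.emod_add_mul_ediv (-(A * cf i)) q
    refine ⟨B * cf i - r₀ * t * (-(A * cf i) / q), ?_⟩
    have h2 : v i = -(A * cf i) - q * (-(A * cf i) / q) := by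
      rw [hv]
      simp only
      linarith
    rw [h2]
    linear_combination (-(cf i)) * hAB
  choose k hk using hvdvd
  have hvm : ∀ i, |v i| ≤ m := by
    intro i
    rw [abs_of_nonneg (hv0 i).1]
    have := (hv0 i).2
    have h2 : (q : ℤ) ≤ m := by exact_mod_cast (by omega : q ≤ m)
    omega
  set Y := Yv b r₀ K₁ X (y + (t : ℤ) • v) with hY
  have hYk : Y = (q : D) * vec b k := by
    have e1 : Y = vec b (fun i => cf i + r₀ * (t * v i)) := by
      rw [hY]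
      unfold Yv
      rw [← vec_nsmul_one b ho, ← nsmul_eq_mul, ← map_nsmul, ← map_add]
      congr 1
      funext i
      simp only [Pi.add_apply, Pi.smul_apply, hcfdef]
      simp only [nsmul_eq_mul, smul_eq_mul]
      ring
    rw [e1, ← nsmul_eq_mul, ← map_nsmul]
    congr 1
    funext i
    rw [hk i]
    simp
  set v' : Fin N → ℤ := T' • crd b (z * vec b k) with hv'
  have hzk : z * vec b k ∈ lat b := hO.mul _ hz _ (vec_mem b k)
  have hmulY : (((d : Dˣ) : D) - 1) * Y = ((r₀ : ℚ) * ((t : ℤ) : ℚ)) • vec b v' := by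
    rw [hYk, hv', map_nsmul, vec_crd hzk]
    have e1 : (((d : Dˣ) : D) - 1) * ((q : D) * vec b k) =
        ((q : D) * (((d : Dˣ) : D) - 1)) * vec b k := by
      rw [← mul_assoc, (Nat.cast_commute q (((d : Dˣ) : D) - 1)).eq]
    rw [e1, hqz, mul_assoc, nsmul_eq_mul, Algebra.smul_def]
    push_cast
    simp [mul_assoc]
  have hdY : ((d : Dˣ) : D) * Y = Yv b r₀ K₁ X (y + (t : ℤ) • (v + v')) := by
    have e1 : ((d : Dˣ) : D) * Y = Y + (((d : Dˣ) : D) - 1) * Y := by noncomm_ring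
    rw [e1, hmulY, smul_add, ← add_assoc, Yv_add b r₀ K₁ X (y + (t : ℤ) • v) v' (t : ℤ)]
  have hYsz : sz b Y ≤ CY * X := by
    refine sz_Yv_le r₀ K₁ X hX1 _ (fun i => ?_)
    have := (mem_Bx.mp (hbox v hvm)) i
    rw [abs_of_nonneg this.1]
    exact this.2.le
  have hv's : sz b (vec b v') ≤ m / 8 := by
    have h1 := sz_mul_le b (((d : Dˣ) : D) - 1) Y
    rw [hmulY, sz_smul] at h1
    have h2 : |((((r₀ : ℚ) * ((t : ℤ) : ℚ)) : ℚ) : ℝ)| = r₀ * t := by
      push_cast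
      rw [abs_of_nonneg (by positivity)]
    rw [h2] at h1
    have h3 : (1 : ℝ) ≤ r₀ * t := by
      have : 1 ≤ r₀ * t := Nat.mul_pos hU.r_pos ht
      exact_mod_cast this
    have h4 : sz b (vec b v') ≤ r₀ * t * sz b (vec b v') := by
      have := sz_nonneg b (vec b v')
      nlinarith
    have h5 : sz b (((d : Dˣ) : D) - 1) * sz b Y ≤ 1 / (8 * (mulC b * CY * K)) * (CY * X) :=
      mul_le_mul hds.le hYsz (sz_nonneg _ _) (by positivity)
    have h6 : mulC b * (sz b (((d : Dˣ) : D) - 1) * sz b Y) ≤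
        mulC b * (1 / (8 * (mulC b * CY * K)) * (CY * X)) :=
      mul_le_mul_of_nonneg_left h5 hmC.le
    have h7 : mulC b * (1 / (8 * (mulC b * CY * K)) * (CY * X)) = X / (8 * K) := by
      field_simp
    have h8 : (X : ℝ) / (8 * K) ≤ m / 8 := by
      rw [div_le_div_iff₀ (by positivity) (by norm_num)]
      have : (X : ℝ) ≤ K * m := by exact_mod_cast hm
      nlinarith
    linarith
  have hvv : ∀ i, |(v + v') i| ≤ (m / 2 : ℕ) := by
    intro i
    have h1 : |(v' i : ℝ)| ≤ m / 8 := by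
      have := abs_repr_le b (vec b v') i
      rw [repr_vec] at this
      refine le_trans ?_ hv's
      simpa using this
    have h2 : 8 * |v' i| ≤ m := by
      have : (8 : ℝ) * |(v' i : ℝ)| ≤ m := by linarith
      exact_mod_cast this
    have h3 := hv0 i
    have h4 : |v i + v' i| ≤ |v i| + |v' i| := abs_add_le _ _
    rw [abs_of_nonneg h3.1] at h4
    have h5 : 2 * (n₀ : ℤ) + 8 * q + 8 ≤ m := by exact_mod_cast hmn
    rw [Pi.add_apply]
    omega
  have hv2 : ∀ i, |v i| ≤ (m / 2 : ℕ) := by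
    intro i
    have h3 := hv0 i
    rw [abs_of_nonneg h3.1]
    have h5 : 2 * (n₀ : ℤ) + 8 * q + 8 ≤ m := by exact_mod_cast hmn
    omega
  have k1 := hχ _ (hbox v hvm)
  rw [hD v hv2] at k1
  have k2 := hχ _ (hbox (v + v') (fun i => (hvv i).trans (by
      exact_mod_cast Nat.div_le_self m 2)))
  rw [hD _ hvv, ← hdY] at k2
  have k3 := (ECol.of_mem (c := c) d).mul k1
  have := ECol.uniq hc hZ k3 k2
  exact mul_eq_right.mp this

end main

end Vale.Agent.P011.MPQ
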