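import Vale.Agent.P011.MPQ.CF3

/-!
Theorem CF for homomorphisms to arbitrary finite groups: near `1` they take values in the
hypercentre of their image.
-/

namespace Vale.Agent.P011.MPQ

open Module

/-- The upper central series of a finite group becomes stationary. -/
theorem exists_ucs_eq (R : Type*) [Group R] [Finite R] :
    ∃ n, Subgroup.upperCentralSeries R (n + 1) = Subgroup.upperCentralSeries R n := by
  by_contra h
  push Not at h
  have hmono : StrictMono (Subgroup.upperCentralSeries R) :=
    strictMono_nat_of_lt_succ fun n =>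
      lt_of_le_of_ne (Subgroup.upperCentralSeries_mono R (Nat.le_succ n)) (h n).symm
  exact not_injective_infinite_finite _ hmono.injective

/-- The quotient by a stationary term of the upper central series has trivial centre. -/
theorem center_quot_eq_bot {R : Type*} [Group R] {n : ℕ}
    (hn : Subgroup.upperCentralSeries R (n + 1) = Subgroup.upperCentralSeries R n) :
    Subgroup.center (R ⧸ Subgroup.upperCentralSeries R n) = ⊥ := by
  rw [eq_bot_iff]
  intro q
  refine QuotientGroup.induction_on q fun x hx => ?_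
  rw [Subgroup.mem_bot, QuotientGroup.eq_one_iff, ← hn, Subgroup.mem_upperCentralSeries_succ_iff]
  intro y
  rw [← QuotientGroup.eq_one_iff]
  have h := Subgroup.mem_center_iff.mp hx (y : R ⧸ Subgroup.upperCentralSeries R n)
  rw [commutatorElement_def, QuotientGroup.mk_mul, QuotientGroup.mk_mul, QuotientGroup.mk_mul,
    QuotientGroup.mk_inv, QuotientGroup.mk_inv, ← h, mul_assoc, mul_assoc, mul_inv_cancel_left,
    mul_inv_cancel]

/-- From finite groups with trivial centre to finite groups: a homomorphism which is trivial near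
`1` for all finite quotients with trivial centre takes values in the hypercentre near `1`. -/
theorem hyper_of_cf.{u, w} {G : Type u} [Group G] {P : ℕ → ℝ → G → Prop}
    (h : ∀ (Q : Type w) [Group Q] [Finite Q] (c : G →* Q), Function.Surjective c →
      Subgroup.center Q = ⊥ → ∃ r : ℕ, r ≠ 0 ∧ ∃ ρ : ℝ, 0 < ρ ∧ ∀ x, P r ρ x → c x = 1)
    (R : Type w) [Group R] [Finite R] (c : G →* R) :
    ∃ n r : ℕ, r ≠ 0 ∧ ∃ ρ : ℝ, 0 < ρ ∧ ∀ x, P r ρ x →
      c.rangeRestrict x ∈ Subgroup.upperCentralSeries c.range n := by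
  obtain ⟨n, hn⟩ := exists_ucs_eq c.range
  obtain ⟨r, hr, ρ, hρ, h⟩ := h (c.range ⧸ Subgroup.upperCentralSeries c.range n)
    ((QuotientGroup.mk' (Subgroup.upperCentralSeries c.range n)).comp c.rangeRestrict)
    ((QuotientGroup.mk'_surjective _).comp c.rangeRestrict_surjective) (center_quot_eq_bot hn)
  refine ⟨n, r, hr, ρ, hρ, fun x hx => ?_⟩
  have h1 := h x hx
  rwa [MonoidHom.comp_apply, QuotientGroup.mk'_apply, QuotientGroup.eq_one_iff] at h1

section

variable {D : Type*} [DivisionRing D] [Algebra ℚ D] {N : ℕ} {b : Basis (Fin N) ℚ D} {r₀ : ℕ}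
  {ρ₀ : ℝ} {U : Subgroup Dˣ} {R : Type*} [Group R]

/-- THEOREM CF': close to `1` a homomorphism to a finite group takes values in the hypercentre of
its image. -/
theorem cf_prime (hO : IsOrder b) (hU : TOpen b r₀ ρ₀ U) [Finite R] (c : U →* R) :
    ∃ (n r : ℕ) (ρ : ℝ), 0 < r ∧ 0 < ρ ∧ ∀ x : U, Cong b r ((x : Dˣ) : D) 1 →
      sz b (((x : Dˣ) : D) - 1) < ρ →
        c.rangeRestrict x ∈ Subgroup.upperCentralSeries c.range n := by
  obtain ⟨n, hn⟩ := exists_ucs_eq c.range
  obtain ⟨r, ρ, hr, hρ, h⟩ := cf hO hU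
    ((QuotientGroup.mk' (Subgroup.upperCentralSeries c.range n)).comp c.rangeRestrict)
    ((QuotientGroup.mk'_surjective _).comp c.rangeRestrict_surjective) (center_quot_eq_bot hn)
  refine ⟨n, r, ρ, hr, hρ, fun x hx hs => ?_⟩
  have h1 := h x hx hs
  rwa [MonoidHom.comp_apply, QuotientGroup.mk'_apply, QuotientGroup.eq_one_iff] at h1

end

end Vale.Agent.P011.MPQ
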