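import Vale.Agent.P011.Arith.Defs

/-!
Definitions for the theorem on subgroups of finite index of the norm-one group of a quaternion
algebra over a number field.
-/

open NumberField IsDedekindDomain

namespace Vale.Agent.P011.MPQ

open Arith

section quat

variable {F : Type} [Field F]

/-- The quaternion algebra. -/
abbrev Qt (a b : Fˣ) : Type := QuaternionAlgebra F (a : F) 0 (b : F)

/-- The reduced norm. -/
def nrd {a b : Fˣ} (x : Qt a b) : F :=
  x.re ^ 2 - a * x.imI ^ 2 - b * x.imJ ^ 2 + a * b * x.imK ^ 2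

/-- The reduced norm form is anisotropic. -/
def Aniso (a b : Fˣ) : Prop := ∀ x : Qt a b, nrd x = 0 → x = 0

theorem nrd_mul {a b : Fˣ} (x y : Qt a b) : nrd (x * y) = nrd x * nrd y := by
  simp only [nrd, QuaternionAlgebra.re_mul, QuaternionAlgebra.imI_mul, QuaternionAlgebra.imJ_mul,
    QuaternionAlgebra.imK_mul]
  ring

theorem nrd_one {a b : Fˣ} : nrd (1 : Qt a b) = 1 := by
  simp [nrd]

/-- The norm-one group. -/
def SL1 (a b : Fˣ) : Subgroup (Qt a b)ˣ where
  carrier := {x | nrd (x : Qt a b) = 1}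
  mul_mem' := by
    intro x y hx hy
    change nrd ((x * y : (Qt a b)ˣ) : Qt a b) = 1
    rw [Units.val_mul, nrd_mul, hx, hy, one_mul]
  one_mem' := nrd_one
  inv_mem' := by
    intro x hx
    have h : nrd ((x * x⁻¹ : (Qt a b)ˣ) : Qt a b) = 1 := by rw [mul_inv_cancel]; exact nrd_one
    rw [Units.val_mul, nrd_mul] at h
    have hx' : nrd (x : Qt a b) = 1 := hx
    rw [hx', one_mul] at h
    exact h

variable [NumberField F]

/-- Small elements of the field at the primes dividing `r` and at infinity. -/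
def Cl (r : ℕ) (ρ : ℝ) (x : F) : Prop :=
  (∀ v : HeightOneSpectrum (𝓞 F), v.valuation F (r : F) < 1 →
    v.valuation F x ≤ v.valuation F (r : F)) ∧ ∀ w : InfinitePlace F, w x < ρ

/-- Quaternions close to one. -/
def ClQ {a b : Fˣ} (r : ℕ) (ρ : ℝ) (x : Qt a b) : Prop :=
  Cl r ρ (x.re - 1) ∧ Cl r ρ x.imI ∧ Cl r ρ x.imJ ∧ Cl r ρ x.imK

/-- The finite prime `w` ramifies in the quaternion algebra. -/
def Ram (a b : Fˣ) (w : HeightOneSpectrum (𝓞 F)) : Prop := b ∉ NF a ⊔ LS (w.valuation F)

end quat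

end Vale.Agent.P011.MPQ
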