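import Vale.Agent.P011.MPQ.ELocal

/-!
# Block E: continuity of products of powers in stereographic coordinates
-/

open scoped Quaternion

namespace Vale.Agent.P011.MPQ

section cont

variable {X R : Type} [TopologicalSpace X] [NormedField R] {a b : R}

/-- Continuity of a quaternion-valued map at a point. -/
structure CAt (f : X → ℍ[R,a,b]) (x : X) : Prop where
  re : ContinuousAt (fun y => (f y).re) x
  imI : ContinuousAt (fun y => (f y).imI) x
  imJ : ContinuousAt (fun y => (f y).imJ) x
  imK : ContinuousAt (fun y => (f y).imK) x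

theorem CAt.const (q : ℍ[R,a,b]) (x : X) : CAt (fun _ => q) x :=
  ⟨continuousAt_const, continuousAt_const, continuousAt_const, continuousAt_const⟩

theorem CAt.mul {f g : X → ℍ[R,a,b]} {x : X} (hf : CAt f x) (hg : CAt g x) :
    CAt (fun y => f y * g y) x := by
  obtain ⟨f0, f1, f2, f3⟩ := hf
  obtain ⟨g0, g1, g2, g3⟩ := hg
  refine ⟨?_, ?_, ?_, ?_⟩
  · simp only [QuaternionAlgebra.re_mul]
    fun_prop
  · simp only [QuaternionAlgebra.imI_mul]
    fun_prop
  · simp only [QuaternionAlgebra.imJ_mul]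
    fun_prop
  · simp only [QuaternionAlgebra.imK_mul]
    fun_prop

theorem CAt.star {f : X → ℍ[R,a,b]} {x : X} (hf : CAt f x) : CAt (fun y => star (f y)) x := by
  obtain ⟨f0, f1, f2, f3⟩ := hf
  refine ⟨?_, ?_, ?_, ?_⟩
  · simp only [QuaternionAlgebra.re_star, zero_mul, add_zero]
    exact f0
  · simp only [QuaternionAlgebra.imI_star]
    exact f1.neg
  · simp only [QuaternionAlgebra.imJ_star]
    exact f2.neg
  · simp only [QuaternionAlgebra.imK_star]
    exact f3.neg

theorem CAt.pow {f : X → ℍ[R,a,b]} {x : X} (hf : CAt f x) (n : ℕ) : CAt (fun y => f y ^ n) x := by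
  induction n with
  | zero => simpa using CAt.const 1 x
  | succ n ih =>
    simp only [pow_succ]
    exact ih.mul hf

theorem CAt.listProd {x : X} (l : List (X → ℍ[R,a,b])) (hl : ∀ f ∈ l, CAt f x) :
    CAt (fun y => (l.map fun f => f y).prod) x := by
  induction l with
  | nil => simpa using CAt.const 1 x
  | cons f l ih =>
    simp only [List.map_cons, List.prod_cons]
    exact (hl f List.mem_cons_self).mul (ih fun g hg => hl g (List.mem_cons_of_mem _ hg))

theorem CAt.e_cf {p : X → Fin 3 → R} {x : X} (hp : ContinuousAt p x)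
    (h : 1 + pn a b (p x) ≠ 0) : CAt (fun y => e_cf a b (p y)) x := by
  have h0 : ContinuousAt (fun y => p y 0) x := (continuousAt_apply 0 (p x)).comp hp
  have h1 : ContinuousAt (fun y => p y 1) x := (continuousAt_apply 1 (p x)).comp hp
  have h2 : ContinuousAt (fun y => p y 2) x := (continuousAt_apply 2 (p x)).comp hp
  have hn : ContinuousAt (fun y => pn a b (p y)) x := by
    unfold pn
    fun_prop
  have hd : ContinuousAt (fun y => 1 + pn a b (p y)) x := continuousAt_const.add hn
  refine ⟨?_, ?_, ?_, ?_⟩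
  · exact (continuousAt_const.sub hn).div hd h
  · exact (continuousAt_const.mul h0).div hd h
  · exact (continuousAt_const.mul h1).div hd h
  · exact (continuousAt_const.mul h2).div hd h

theorem CAt.pw {m : ℕ} (e : ℕ) (P0 : Fin m → Fin 3 → R) (h : ∀ i, 1 + pn a b (P0 i) ≠ 0) :
    CAt (fun P : Fin m → Fin 3 → R => pw a b e (List.ofFn P)) P0 := by
  have h1 : (fun P : Fin m → Fin 3 → R => MPQ.pw a b e (List.ofFn P)) = fun P =>
      ((List.ofFn fun i => fun P : Fin m → Fin 3 → R => MPQ.e_cf a b (P i) ^ e).map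
        fun f => f P).prod := by
    funext P
    rw [MPQ.pw, List.map_ofFn, List.map_ofFn]
    rfl
  rw [h1]
  apply CAt.listProd
  intro f hf
  obtain ⟨i, rfl⟩ := List.mem_ofFn.mp hf
  exact (CAt.e_cf (continuousAt_apply i P0) (h i)).pow e

/-- All coordinates are small. -/
def Sm (ε : ℝ) (q : ℍ[R,a,b]) : Prop := ‖q.re‖ < ε ∧ ‖q.imI‖ < ε ∧ ‖q.imJ‖ < ε ∧ ‖q.imK‖ < ε

/-- The product of powers moves continuously. -/
theorem exists_delta {m : ℕ} (e : ℕ) (g : ℍ[R,a,b]) (P0 : Fin m → Fin 3 → R)
    (h : ∀ i, 1 + pn a b (P0 i) ≠ 0) {ε : ℝ}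
    (hs : Sm ε (g * star (pw a b e (List.ofFn P0)) - 1)) :
    ∃ δ : ℝ, 0 < δ ∧ ∀ P : Fin m → Fin 3 → R, (∀ i j, ‖P i j - P0 i j‖ < δ) →
      (∀ i, 1 + pn a b (P i) ≠ 0) ∧ Sm ε (g * star (pw a b e (List.ofFn P)) - 1) := by
  have hc : CAt (fun P : Fin m → Fin 3 → R => g * star (pw a b e (List.ofFn P))) P0 :=
    (CAt.const g P0).mul (CAt.pw e P0 h).star
  obtain ⟨c0, c1, c2, c3⟩ := hc
  obtain ⟨s0, s1, s2, s3⟩ := hs
  simp only [QuaternionAlgebra.re_sub, QuaternionAlgebra.imI_sub, QuaternionAlgebra.imJ_sub,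
    QuaternionAlgebra.imK_sub] at s0 s1 s2 s3
  have e0 := (((c0.sub continuousAt_const).norm).eventually_lt continuousAt_const s0)
  have e1 := (((c1.sub continuousAt_const).norm).eventually_lt continuousAt_const s1)
  have e2 := (((c2.sub continuousAt_const).norm).eventually_lt continuousAt_const s2)
  have e3 := (((c3.sub continuousAt_const).norm).eventually_lt continuousAt_const s3)
  have e4 : ∀ᶠ P in nhds P0, ∀ i, 1 + pn a b (P i) ≠ 0 := by
    rw [Filter.eventually_all]
    intro i
    have hn : ContinuousAt (fun P : Fin m → Fin 3 → R => 1 + pn a b (P i)) P0 := by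
      unfold pn
      fun_prop
    exact hn.eventually_ne (h i)
  have e5 := e4.and (e0.and (e1.and (e2.and e3)))
  obtain ⟨δ, hδ, hball⟩ := Metric.eventually_nhds_iff.mp e5
  refine ⟨δ, hδ, fun P hP => ?_⟩
  have h1 : dist P P0 < δ := by
    rw [dist_pi_lt_iff hδ]
    intro i
    rw [dist_pi_lt_iff hδ]
    intro j
    rw [dist_eq_norm]
    exact hP i j
  obtain ⟨r4, r0, r1, r2, r3⟩ := hball h1
  refine ⟨r4, ?_⟩
  unfold Sm
  simp only [QuaternionAlgebra.re_sub, QuaternionAlgebra.imI_sub, QuaternionAlgebra.imJ_sub,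
    QuaternionAlgebra.imK_sub]
  exact ⟨r0, r1, r2, r3⟩

end cont

/-- Padding with trivial factors. -/
theorem exists_pad {R : Type} [Field R] {a b : R} {e : ℕ} (l : List (Fin 3 → R))
    (hl : ∀ p ∈ l, 1 + pn a b p ≠ 0) {m : ℕ} (hm : l.length ≤ m) :
    ∃ P : Fin m → Fin 3 → R, (∀ i, 1 + pn a b (P i) ≠ 0) ∧
      pw a b e (List.ofFn P) = pw a b e l := by
  have h1 : (l ++ List.replicate (m - l.length) 0).length = m := by
    rw [List.length_append, List.length_replicate]
    omega
  refine ⟨fun i => (l ++ List.replicate (m - l.length) 0).get (Fin.cast h1.symm i), ?_, ?_⟩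
  · intro i
    have h2 := List.get_mem (l ++ List.replicate (m - l.length) 0) (Fin.cast h1.symm i)
    rcases List.mem_append.mp h2 with h | h
    · exact hl _ h
    · change 1 + pn a b (List.get _ _) ≠ 0
      rw [List.eq_of_mem_replicate h]
      simp [pn]
  · have h2 : List.ofFn (fun i => (l ++ List.replicate (m - l.length) 0).get
        (Fin.cast h1.symm i)) = l ++ List.replicate (m - l.length) 0 := by
      apply List.ext_get
      · rw [List.length_ofFn, h1]
      · intro i h3 h4
        simp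
    rw [h2, pw, pw, List.map_append, List.prod_append, List.map_replicate, cf_zero, one_pow,
      List.prod_replicate, one_pow, mul_one]

end Vale.Agent.P011.MPQ
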