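import Mathlib

/-!
# Block E: products of powers in norm-one groups of quaternion algebras over local fields
-/

open scoped Quaternion

namespace Vale.Agent.P011.MPQ

section basic

variable {R : Type} [Field R] {a b : R}

/-- The norm form on pure quaternions. -/
def pn (a b : R) (p : Fin 3 → R) : R := -(a * p 0 ^ 2) - b * p 1 ^ 2 + a * b * p 2 ^ 2

/-- Stereographic coordinates on the norm-one group. -/
def e_cf (a b : R) (p : Fin 3 → R) : ℍ[R,a,b] :=
  ⟨(1 - pn a b p) / (1 + pn a b p), 2 * p 0 / (1 + pn a b p), 2 * p 1 / (1 + pn a b p),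
    2 * p 2 / (1 + pn a b p)⟩

theorem norm_re (q : ℍ[R,a,b]) :
    (q * star q).re = q.re ^ 2 - a * q.imI ^ 2 - b * q.imJ ^ 2 + a * b * q.imK ^ 2 := by
  simp
  ring

theorem norm_one_iff (q : ℍ[R,a,b]) :
    q * star q = 1 ↔ q.re ^ 2 - a * q.imI ^ 2 - b * q.imJ ^ 2 + a * b * q.imK ^ 2 = 1 := by
  rw [← norm_re]
  constructor
  · intro h
    rw [h]
    rfl
  · intro h
    rw [QuaternionAlgebra.mul_star_eq_coe, h]
    rfl

theorem cf_norm {p : Fin 3 → R} (hp : 1 + pn a b p ≠ 0) : e_cf a b p * star (e_cf a b p) = 1 := by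
  rw [norm_one_iff]
  simp only [e_cf]
  have h1 : pn a b p = -(a * p 0 ^ 2) - b * p 1 ^ 2 + a * b * p 2 ^ 2 := rfl
  field_simp
  rw [h1]
  ring

theorem cf_zero : e_cf a b (0 : Fin 3 → R) = 1 := by
  ext <;> simp [e_cf, pn]

/-- Every element of norm one and real part different from `-1` has stereographic coordinates. -/
theorem exists_cf [CharZero R] {q : ℍ[R,a,b]} (hq : q * star q = 1) (hre : q.re ≠ -1) :
    ∃ p : Fin 3 → R, 1 + pn a b p ≠ 0 ∧ e_cf a b p = q := by
  rw [norm_one_iff] at hq
  have h1 : 1 + q.re ≠ 0 := fun h => hre (by linear_combination h)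
  have h2 : (2 : R) ≠ 0 := two_ne_zero
  refine ⟨![q.imI / (1 + q.re), q.imJ / (1 + q.re), q.imK / (1 + q.re)], ?_⟩
  have h3 : 1 + pn a b ![q.imI / (1 + q.re), q.imJ / (1 + q.re), q.imK / (1 + q.re)] =
      2 / (1 + q.re) := by
    simp only [pn, Matrix.cons_val_zero, Matrix.cons_val_one, Matrix.cons_val]
    field_simp
    linear_combination hq
  refine ⟨by rw [h3]; exact div_ne_zero h2 h1, ?_⟩
  have h4 : pn a b ![q.imI / (1 + q.re), q.imJ / (1 + q.re), q.imK / (1 + q.re)] =
      2 / (1 + q.re) - 1 := by rw [← h3]; ring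
  have h5 : 2 / (1 + q.re) ≠ 0 := div_ne_zero h2 h1
  apply QuaternionAlgebra.ext
  · simp only [e_cf]
    rw [h3, h4]
    field_simp
    ring
  · simp only [e_cf]
    rw [h3]
    simp only [Matrix.cons_val_zero]
    field_simp
  · simp only [e_cf]
    rw [h3]
    simp only [Matrix.cons_val_one, Matrix.cons_val_zero]
    field_simp
  · simp only [e_cf]
    rw [h3]
    simp only [Matrix.cons_val]
    field_simp

/-- The product of the `e`-th powers of the elements with the given coordinates. -/
def pw (a b : R) (e : ℕ) (l : List (Fin 3 → R)) : ℍ[R,a,b] := (l.map fun p => e_cf a b p ^ e).prod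

/-- Every element of norm one is a product of `e`-th powers, given by stereographic coordinates. -/
def AllPow (R : Type) [Field R] (a b : R) (e : ℕ) : Prop :=
  ∀ g : ℍ[R,a,b], g * star g = 1 → ∃ l : List (Fin 3 → R),
    (∀ p ∈ l, 1 + pn a b p ≠ 0) ∧ pw a b e l = g

theorem allPow_of_list [CharZero R] {e : ℕ}
    (h : ∀ g : ℍ[R,a,b], g * star g = 1 → ∃ l : List ℍ[R,a,b],
      (∀ x ∈ l, x * star x = 1 ∧ x.re ≠ -1) ∧ (l.map fun x => x ^ e).prod = g) :
    AllPow R a b e := by
  intro g hg
  obtain ⟨l, hl, rfl⟩ := h g hg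
  clear hg h
  induction l with
  | nil => exact ⟨[], by simp, by simp [pw]⟩
  | cons x l ih =>
    obtain ⟨l', hl', h'⟩ := ih (fun y hy => hl y (List.mem_cons_of_mem _ hy))
    obtain ⟨p, hp, hpx⟩ := exists_cf (hl x List.mem_cons_self).1 (hl x List.mem_cons_self).2
    refine ⟨p :: l', ?_, ?_⟩
    · intro p' hp'
      rcases List.mem_cons.mp hp' with h | h
      · rw [h]; exact hp
      · exact hl' p' h
    · rw [pw, List.map_cons, List.prod_cons, hpx, List.map_cons, List.prod_cons, ← h']
      rfl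

end basic

section split

variable {R : Type} [Field R] [CharZero R] {a x y : R}

/-- The matrix of a quaternion, in a split algebra. -/
def toM (a x y : R) {b : R} (q : ℍ[R,a,b]) : Matrix (Fin 2) (Fin 2) R :=
  !![q.re + q.imJ * x + q.imK * (a * y), a * (q.imI - q.imJ * y - q.imK * x);
    q.imI + q.imJ * y + q.imK * x, q.re - q.imJ * x - q.imK * (a * y)]

/-- The quaternion of a matrix. -/
noncomputable def ofM (a x y b : R) (m : Matrix (Fin 2) (Fin 2) R) : ℍ[R,a,b] :=
  ⟨(m 0 0 + m 1 1) / 2, (m 1 0 + m 0 1 / a) / 2,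
    (((m 0 0 - m 1 1) / 2) * x - a * y * ((m 1 0 - m 0 1 / a) / 2)) / b,
    (x * ((m 1 0 - m 0 1 / a) / 2) - y * ((m 0 0 - m 1 1) / 2)) / b⟩

omit [CharZero R] in
theorem toM_mul {b : R} (hb : b = x ^ 2 - a * y ^ 2) (p q : ℍ[R,a,b]) :
    toM a x y (p * q) = toM a x y p * toM a x y q := by
  subst hb
  ext i j
  fin_cases i <;> fin_cases j <;> simp [toM, Matrix.mul_apply, Fin.sum_univ_two] <;> ring

theorem toM_ofM {b : R} (hb : b = x ^ 2 - a * y ^ 2) (ha : a ≠ 0) (hb0 : b ≠ 0)
    (m : Matrix (Fin 2) (Fin 2) R) : toM a x y (ofM a x y b m) = m := by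
  have h2 : (2 : R) ≠ 0 := two_ne_zero
  ext i j
  fin_cases i <;> fin_cases j <;> simp only [toM, ofM, Fin.zero_eta, Fin.mk_one,
    Matrix.of_apply, Matrix.cons_val', Matrix.cons_val_zero, Matrix.cons_val_one,
    Matrix.cons_val_fin_one]
  · field_simp
    rw [hb]; ring
  · field_simp
    rw [hb]; ring
  · field_simp
    rw [hb]; ring
  · field_simp
    rw [hb]; ring

theorem ofM_toM {b : R} (hb : b = x ^ 2 - a * y ^ 2) (ha : a ≠ 0) (hb0 : b ≠ 0)
    (q : ℍ[R,a,b]) : ofM a x y b (toM a x y q) = q := by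
  have h2 : (2 : R) ≠ 0 := two_ne_zero
  apply QuaternionAlgebra.ext
  · simp only [toM, ofM, Matrix.of_apply, Matrix.cons_val', Matrix.cons_val_zero,
      Matrix.cons_val_one, Matrix.cons_val_fin_one]
    field_simp
    ring
  · simp only [toM, ofM, Matrix.of_apply, Matrix.cons_val', Matrix.cons_val_zero,
      Matrix.cons_val_one, Matrix.cons_val_fin_one]
    field_simp
    ring
  · simp only [toM, ofM, Matrix.of_apply, Matrix.cons_val', Matrix.cons_val_zero,
      Matrix.cons_val_one, Matrix.cons_val_fin_one]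
    field_simp
    linear_combination (-2 * q.imJ) * hb
  · simp only [toM, ofM, Matrix.of_apply, Matrix.cons_val', Matrix.cons_val_zero,
      Matrix.cons_val_one, Matrix.cons_val_fin_one]
    field_simp
    linear_combination (-2 * q.imK) * hb

omit [CharZero R] in
theorem det_toM {b : R} (hb : b = x ^ 2 - a * y ^ 2) (q : ℍ[R,a,b]) :
    (toM a x y q).det = q.re ^ 2 - a * q.imI ^ 2 - b * q.imJ ^ 2 + a * b * q.imK ^ 2 := by
  subst hb
  rw [Matrix.det_fin_two]
  simp only [toM, Matrix.of_apply, Matrix.cons_val', Matrix.cons_val_zero,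
    Matrix.cons_val_one, Matrix.cons_val_fin_one]
  ring

/-- The elementary matrices. -/
def uU (t : R) : Matrix (Fin 2) (Fin 2) R := !![1, t; 0, 1]

/-- The elementary matrices. -/
def uL (t : R) : Matrix (Fin 2) (Fin 2) R := !![1, 0; t, 1]

omit [CharZero R] in
theorem uU_mul (s t : R) : uU s * uU t = uU (s + t) := by
  ext i j
  fin_cases i <;> fin_cases j <;> simp [uU, Matrix.mul_apply, Fin.sum_univ_two, add_comm]

omit [CharZero R] in
theorem uL_mul (s t : R) : uL s * uL t = uL (s + t) := by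
  ext i j
  fin_cases i <;> fin_cases j <;> simp [uL, Matrix.mul_apply, Fin.sum_univ_two, add_comm]

omit [CharZero R] in
theorem uU_pow (t : R) (n : ℕ) : uU t ^ n = uU (n * t) := by
  induction n with
  | zero =>
    ext i j
    fin_cases i <;> fin_cases j <;> simp [uU]
  | succ n ih => rw [pow_succ, ih, uU_mul]; congr 1; push_cast; ring

omit [CharZero R] in
theorem uL_pow (t : R) (n : ℕ) : uL t ^ n = uL (n * t) := by
  induction n with
  | zero =>
    ext i j
    fin_cases i <;> fin_cases j <;> simp [uL]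
  | succ n ih => rw [pow_succ, ih, uL_mul]; congr 1; push_cast; ring

omit [CharZero R] in
theorem sl2_dec (m : Matrix (Fin 2) (Fin 2) R) (hm : m.det = 1) :
    ∃ t1 t2 t3 t4 : R, m = uU t1 * uL t2 * uU t3 * uL t4 := by
  have key : ∀ m : Matrix (Fin 2) (Fin 2) R, m.det = 1 → m 1 0 ≠ 0 →
      ∃ t1 t2 t3 : R, m = uU t1 * uL t2 * uU t3 := by
    intro m hm h0
    rw [Matrix.det_fin_two] at hm
    refine ⟨(m 0 0 - 1) / m 1 0, m 1 0, (m 1 1 - 1) / m 1 0, ?_⟩
    ext i j
    fin_cases i <;> fin_cases j <;> simp [uU, uL, Matrix.mul_apply, Fin.sum_univ_two] <;>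
      field_simp
    · ring
    · linear_combination -hm
    · ring
  by_cases h0 : m 1 0 = 0
  · have hm' := hm
    rw [Matrix.det_fin_two, h0, mul_zero, sub_zero] at hm'
    have h1 : m 1 1 ≠ 0 := by
      intro h
      rw [h, mul_zero] at hm'
      exact zero_ne_one hm'
    obtain ⟨t1, t2, t3, h⟩ := key (m * uL 1) (by
      rw [Matrix.det_mul, hm, one_mul]
      simp [uL, Matrix.det_fin_two]) (by
      simp [uL, Matrix.mul_apply, Fin.sum_univ_two, h0, h1])
    refine ⟨t1, t2, t3, -1, ?_⟩
    rw [← h, mul_assoc, uL_mul]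
    have : uL ((1 : R) + -1) = 1 := by
      ext i j
      fin_cases i <;> fin_cases j <;> simp [uL]
    rw [this, mul_one]
  · obtain ⟨t1, t2, t3, h⟩ := key m hm h0
    refine ⟨t1, t2, t3, 0, ?_⟩
    have : uL (0 : R) = 1 := by
      ext i j
      fin_cases i <;> fin_cases j <;> simp [uL]
    rw [this, mul_one]
    exact h

/-- E1. In a split algebra every element of norm one is a product of four `e`-th powers. -/
theorem allPow_split {b : R} (hb : b = x ^ 2 - a * y ^ 2) (ha : a ≠ 0) (hb0 : b ≠ 0) {e : ℕ}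
    (he : e ≠ 0) : AllPow R a b e := by
  apply allPow_of_list
  intro g hg
  have hinj : Function.Injective (toM a x y : ℍ[R,a,b] → _) := fun p q h => by
    rw [← ofM_toM hb ha hb0 p, h, ofM_toM hb ha hb0]
  have he' : (e : R) ≠ 0 := Nat.cast_ne_zero.mpr he
  have hpow : ∀ (q : ℍ[R,a,b]) (n : ℕ), toM a x y (q ^ n) = toM a x y q ^ n := by
    intro q n
    induction n with
    | zero =>
      rw [pow_zero, pow_zero]
      ext i j
      fin_cases i <;> fin_cases j <;> simp [toM]
    | succ n ih => rw [pow_succ, pow_succ, toM_mul hb, ih]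
  have hone : ∀ m : Matrix (Fin 2) (Fin 2) R, m.det = 1 →
      ofM a x y b m * star (ofM a x y b m) = 1 := by
    intro m hm
    rw [norm_one_iff, ← det_toM hb, toM_ofM hb ha hb0, hm]
  have hre : ∀ m : Matrix (Fin 2) (Fin 2) R, m 0 0 = 1 → m 1 1 = 1 →
      (ofM a x y b m).re ≠ -1 := by
    intro m h0 h1 h
    have h2 : (ofM a x y b m).re = 1 := by
      change (m 0 0 + m 1 1) / 2 = 1
      rw [h0, h1]
      norm_num
    rw [h2] at h
    have h3 : (2 : R) = 0 := by linear_combination h
    exact two_ne_zero h3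
  obtain ⟨t1, t2, t3, t4, h⟩ := sl2_dec (toM a x y g) (by
    rw [det_toM hb]
    exact (norm_one_iff g).mp hg)
  have hU : ∀ t : R, (uU t).det = 1 := fun t => by simp [uU, Matrix.det_fin_two]
  have hL : ∀ t : R, (uL t).det = 1 := fun t => by simp [uL, Matrix.det_fin_two]
  refine ⟨[ofM a x y b (uU (t1 / e)), ofM a x y b (uL (t2 / e)), ofM a x y b (uU (t3 / e)),
    ofM a x y b (uL (t4 / e))], ?_, ?_⟩
  · intro q hq
    simp only [List.mem_cons, List.not_mem_nil, or_false] at hq
    rcases hq with rfl | rfl | rfl | rfl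
    · exact ⟨hone _ (hU _), hre _ rfl rfl⟩
    · exact ⟨hone _ (hL _), hre _ rfl rfl⟩
    · exact ⟨hone _ (hU _), hre _ rfl rfl⟩
    · exact ⟨hone _ (hL _), hre _ rfl rfl⟩
  · apply hinj
    simp only [List.map_cons, List.map_nil, List.prod_cons, List.prod_nil, mul_one]
    rw [toM_mul hb, toM_mul hb, toM_mul hb, hpow, hpow, hpow, hpow, toM_ofM hb ha hb0,
      toM_ofM hb ha hb0, toM_ofM hb ha hb0, toM_ofM hb ha hb0, uU_pow, uL_pow, uU_pow, uL_pow,
      mul_div_cancel₀ _ he', mul_div_cancel₀ _ he', mul_div_cancel₀ _ he',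
      mul_div_cancel₀ _ he', h, mul_assoc, mul_assoc]

end split

section map

variable {R S : Type} [Field R] [Field S] {a b : R}

/-- Extension of scalars for quaternions. -/
def mapQ (f : R →+* S) : ℍ[R,a,b] →+* ℍ[S,f a,f b] where
  toFun q := ⟨f q.re, f q.imI, f q.imJ, f q.imK⟩
  map_one' := by ext <;> simp
  map_zero' := by ext <;> simp
  map_add' p q := by ext <;> simp
  map_mul' p q := by ext <;> simp

theorem mapQ_apply (f : R →+* S) (q : ℍ[R,a,b]) :
    mapQ f q = ⟨f q.re, f q.imI, f q.imJ, f q.imK⟩ := rfl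

theorem mapQ_injective (f : R →+* S) : Function.Injective (mapQ f : ℍ[R,a,b] → _) := by
  intro p q h
  have h1 := congrArg QuaternionAlgebra.re h
  have h2 := congrArg QuaternionAlgebra.imI h
  have h3 := congrArg QuaternionAlgebra.imJ h
  have h4 := congrArg QuaternionAlgebra.imK h
  exact QuaternionAlgebra.ext (f.injective h1) (f.injective h2) (f.injective h3) (f.injective h4)

theorem mapQ_star (f : R →+* S) (q : ℍ[R,a,b]) : mapQ f (star q) = star (mapQ f q) := by
  ext <;> simp [mapQ_apply]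

theorem pn_map (f : R →+* S) (p : Fin 3 → R) : pn (f a) (f b) (fun i => f (p i)) = f (pn a b p) := by
  simp [pn]

theorem mapQ_cf (f : R →+* S) (p : Fin 3 → R) :
    mapQ f (e_cf a b p) = e_cf (f a) (f b) (fun i => f (p i)) := by
  rw [mapQ_apply, e_cf, e_cf, pn_map]
  have h2 : f 2 = 2 := map_ofNat f 2
  simp [h2]

theorem mapQ_pw (f : R →+* S) (e : ℕ) (l : List (Fin 3 → R)) :
    mapQ f (pw a b e l) = pw (f a) (f b) e (l.map fun p i => f (p i)) := by
  rw [pw, pw, map_list_prod, List.map_map, List.map_map]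
  congr 1
  apply List.map_congr_left
  intro p _
  simp only [Function.comp_apply, map_pow, mapQ_cf]

theorem AllPow.transfer (f : R →+* S) (f' : S → R) (hf : ∀ x, f (f' x) = x) {e : ℕ}
    (h : AllPow S (f a) (f b) e) : AllPow R a b e := by
  intro g hg
  obtain ⟨l, hl, hl'⟩ := h (mapQ f g) (by
    rw [← mapQ_star, ← map_mul, hg, map_one])
  refine ⟨l.map fun p i => f' (p i), ?_, ?_⟩
  · intro p hp
    obtain ⟨p', hp', rfl⟩ := List.mem_map.mp hp
    intro h0
    apply hl p' hp'
    have h1 := pn_map (a := a) (b := b) f (fun i => f' (p' i))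
    have h2 : (fun i => f (f' (p' i))) = p' := by
      funext i
      exact hf _
    rw [h2] at h1
    rw [h1, ← map_one f, ← map_add, h0, map_zero]
  · apply mapQ_injective f
    rw [mapQ_pw, List.map_map]
    have h2 : ((fun (p : Fin 3 → R) i => f (p i)) ∘ fun (p : Fin 3 → S) i => f' (p i)) =
        id := by
      funext p i
      exact hf _
    rw [h2, List.map_id]
    exact hl'

end map

section real

open Real

/-- The circle through a pure unit quaternion. -/
noncomputable def circ (a b : ℝ) (u : Fin 3 → ℝ) (t : ℝ) : ℍ[ℝ,a,b] :=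
  ⟨cos t, sin t * u 0, sin t * u 1, sin t * u 2⟩

theorem circ_mul {a b : ℝ} {u : Fin 3 → ℝ} (hu : pn a b u = 1) (s t : ℝ) :
    circ a b u s * circ a b u t = circ a b u (s + t) := by
  rw [pn] at hu
  ext
  · simp only [circ, QuaternionAlgebra.mk_mul_mk, cos_add]
    linear_combination (-(sin s * sin t)) * hu
  · simp only [circ, QuaternionAlgebra.mk_mul_mk, sin_add]
    ring
  · simp only [circ, QuaternionAlgebra.mk_mul_mk, sin_add]
    ring
  · simp only [circ, QuaternionAlgebra.mk_mul_mk, sin_add]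
    ring

theorem circ_pow {a b : ℝ} {u : Fin 3 → ℝ} (hu : pn a b u = 1) (t : ℝ) (n : ℕ) :
    circ a b u t ^ n = circ a b u (n * t) := by
  induction n with
  | zero => ext <;> simp [circ]
  | succ n ih =>
    rw [pow_succ, ih, circ_mul hu]
    congr 1
    push_cast
    ring

theorem circ_norm {a b : ℝ} {u : Fin 3 → ℝ} (hu : pn a b u = 1) (t : ℝ) :
    circ a b u t * star (circ a b u t) = 1 := by
  rw [norm_one_iff]
  rw [pn] at hu
  simp only [circ]
  linear_combination (sin t ^ 2) * hu + sin_sq_add_cos_sq t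

/-- E2. -/
theorem allPow_real {a b : ℝ} (ha : a ≠ 0) (hb : b ≠ 0) {e : ℕ} (he : e ≠ 0) :
    AllPow ℝ a b e := by
  by_cases hab : a < 0 ∧ b < 0
  · obtain ⟨ha', hb'⟩ := hab
    apply allPow_of_list
    intro g hg
    rw [norm_one_iff] at hg
    have h1 : 0 ≤ -(a * g.imI ^ 2) := by nlinarith [sq_nonneg g.imI]
    have h2 : 0 ≤ -(b * g.imJ ^ 2) := by nlinarith [sq_nonneg g.imJ]
    have hab : 0 < a * b := mul_pos_of_neg_of_neg ha' hb'
    have h3 : 0 ≤ a * b * g.imK ^ 2 := by positivity
    obtain ⟨u, hu, s, hs, hcs, hg'⟩ : ∃ u : Fin 3 → ℝ, pn a b u = 1 ∧ ∃ s : ℝ, 0 ≤ s ∧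
        g.re ^ 2 + s ^ 2 = 1 ∧ g = ⟨g.re, s * u 0, s * u 1, s * u 2⟩ := by
      set S := pn a b ![g.imI, g.imJ, g.imK] with hS
      have hS' : S = -(a * g.imI ^ 2) - b * g.imJ ^ 2 + a * b * g.imK ^ 2 := by
        simp [hS, pn]
      have hS0 : 0 ≤ S := by rw [hS']; linarith
      by_cases h0 : S = 0
      · refine ⟨![1 / sqrt (-a), 0, 0], ?_, 0, le_rfl, ?_, ?_⟩
        · simp only [pn, Matrix.cons_val_zero, Matrix.cons_val_one, Matrix.cons_val]
          have h4 : sqrt (-a) ^ 2 = -a := sq_sqrt (by linarith)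
          rw [div_pow, h4]
          field_simp
          norm_num
        · rw [hS'] at h0
          nlinarith
        · have h5 : a * g.imI ^ 2 = 0 := by rw [hS'] at h0; linarith
          have h6 : b * g.imJ ^ 2 = 0 := by rw [hS'] at h0; linarith
          have h7 : a * b * g.imK ^ 2 = 0 := by rw [hS'] at h0; linarith
          have h8 : g.imI = 0 := by
            have := (mul_eq_zero.mp h5).resolve_left ha
            exact pow_eq_zero_iff two_ne_zero |>.mp this
          have h9 : g.imJ = 0 := by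
            have := (mul_eq_zero.mp h6).resolve_left hb
            exact pow_eq_zero_iff two_ne_zero |>.mp this
          have h10 : g.imK = 0 := by
            have := (mul_eq_zero.mp h7).resolve_left hab.ne'
            exact pow_eq_zero_iff two_ne_zero |>.mp this
          ext <;> simp [h8, h9, h10]
      · have hSp : 0 < S := lt_of_le_of_ne hS0 (Ne.symm h0)
        have h4 : sqrt S ^ 2 = S := sq_sqrt hS0
        have h5 : sqrt S ≠ 0 := (sqrt_pos.mpr hSp).ne'
        refine ⟨![g.imI / sqrt S, g.imJ / sqrt S, g.imK / sqrt S], ?_, sqrt S, sqrt_nonneg _,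
          ?_, ?_⟩
        · simp only [pn, Matrix.cons_val_zero, Matrix.cons_val_one, Matrix.cons_val]
          rw [div_pow, div_pow, div_pow, h4]
          field_simp
          rw [hS']
        · rw [h4, hS']
          linarith
        · ext
          · rfl
          · simp only [Matrix.cons_val_zero]
            field_simp
          · simp only [Matrix.cons_val_one, Matrix.cons_val_zero]
            field_simp
          · simp only [Matrix.cons_val]
            field_simp
    set θ := arccos g.re with hθ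
    have hc1 : -1 ≤ g.re := by nlinarith [sq_nonneg s, sq_nonneg (g.re - 1)]
    have hc2 : g.re ≤ 1 := by nlinarith [sq_nonneg s]
    have hcos : cos θ = g.re := cos_arccos hc1 hc2
    have hsin : sin θ = s := by
      rw [hθ, sin_arccos]
      have : 1 - g.re ^ 2 = s ^ 2 := by linarith
      rw [this, sqrt_sq hs]
    have he' : (e : ℝ) ≠ 0 := Nat.cast_ne_zero.mpr he
    have he1 : (1 : ℝ) ≤ e := by exact_mod_cast Nat.one_le_iff_ne_zero.mpr he
    have hθ0 : 0 ≤ θ := arccos_nonneg _
    have hθπ : θ ≤ π := arccos_le_pi _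
    have hre : (circ a b u (θ / (2 * e))).re ≠ -1 := by
      change cos (θ / (2 * e)) ≠ -1
      have : 0 ≤ cos (θ / (2 * e)) := by
        apply cos_nonneg_of_neg_pi_div_two_le_of_le
        · have : 0 ≤ θ / (2 * e) := by positivity
          linarith [pi_pos]
        · rw [div_le_iff₀ (by positivity)]
          nlinarith [pi_pos]
      linarith
    refine ⟨[circ a b u (θ / (2 * e)), circ a b u (θ / (2 * e))], ?_, ?_⟩
    · intro x hx
      simp only [List.mem_cons, List.not_mem_nil, or_false, or_self] at hx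
      subst hx
      exact ⟨circ_norm hu _, hre⟩
    · simp only [List.map_cons, List.map_nil, List.prod_cons, List.prod_nil, mul_one]
      rw [circ_pow hu, circ_mul hu]
      have : (e : ℝ) * (θ / (2 * e)) + e * (θ / (2 * e)) = θ := by
        field_simp
        ring
      rw [this, hg', circ, hcos, hsin]
  · rw [not_and_or, not_lt, not_lt] at hab
    rcases hab with h | h
    · have h' : 0 < a := lt_of_le_of_ne h (Ne.symm ha)
      have h4 : sqrt a ^ 2 = a := sq_sqrt h
      have h5 : sqrt a ≠ 0 := (sqrt_pos.mpr h').ne'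
      refine allPow_split (x := (b + 1) / 2) (y := (b - 1) / (2 * sqrt a)) ?_ ha hb he
      rw [div_pow, div_pow, mul_pow, h4]
      field_simp
      ring
    · refine allPow_split (x := sqrt b) (y := 0) ?_ ha hb he
      rw [sq_sqrt h]
      ring

/-- E2, the complex case. -/
theorem allPow_complex {a b : ℂ} (ha : a ≠ 0) (hb : b ≠ 0) {e : ℕ} (he : e ≠ 0) :
    AllPow ℂ a b e := by
  obtain ⟨x, hx⟩ := IsAlgClosed.exists_pow_nat_eq b (n := 2) (by norm_num)
  exact allPow_split (x := x) (y := 0) (by rw [hx]; ring) ha hb he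

end real

end Vale.Agent.P011.MPQ
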