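import Vale.Agent.P011.MPQ.Defs
import Vale.Agent.P011.MPQ.ECont
import Vale.Agent.P011.Even.Completion
import Vale.Agent.P011.Arith.Quad

/-!
# Block E: from neighbourhoods of one to conditions at the ramified places
-/

open NumberField IsDedekindDomain
open scoped Quaternion

namespace Vale.Agent.P011.MPQ

open Arith Vale.Agent.P011.Even

section local_

variable {F : Type} [Field F] [NumberField F]

/-- The embedding of the field in its completion. -/
noncomputable abbrev iv (v : HeightOneSpectrum (𝓞 F)) : F →+* v.adicCompletion F :=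
  algebraMap F (v.adicCompletion F)

/-- The embedding of the field in its completion. -/
noncomputable abbrev iw (w : InfinitePlace F) : F →+* w.Completion :=
  algebraMap F w.Completion

omit [NumberField F] in
theorem norm_iw (w : InfinitePlace F) (x : F) : ‖iw w x‖ = w x :=
  InfinitePlace.Completion.norm_coe w ((WithAbs.equiv w.1).symm x)

/-- Powers at unramified finite places. -/
theorem allPow_fin (v : HeightOneSpectrum (𝓞 F)) {a b : Fˣ} (hv : ¬ Ram a b v) {e : ℕ}
    (he : e ≠ 0) : AllPow (v.adicCompletion F) (iv v a) (iv v b) e := by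
  rw [Ram, not_not] at hv
  obtain ⟨x, y, h⟩ := (mem_LN_iff v a b).mpr hv
  exact allPow_split (x := x) (y := y) h (by simp) (by simp) he

omit [NumberField F] in
/-- Powers at infinite places. -/
theorem allPow_inf (w : InfinitePlace F) (a b : Fˣ) {e : ℕ} (he : e ≠ 0) :
    AllPow w.Completion (iw w a) (iw w b) e := by
  rcases w.isReal_or_isComplex with hw | hw
  · let f := InfinitePlace.Completion.ringEquivRealOfIsReal hw
    exact AllPow.transfer f.toRingHom f.symm (fun x => f.apply_symm_apply x)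
      (allPow_real ((map_ne_zero _).mpr ((map_ne_zero _).mpr a.ne_zero))
        ((map_ne_zero _).mpr ((map_ne_zero _).mpr b.ne_zero)) he)
  · let f := InfinitePlace.Completion.ringEquivComplexOfIsComplex hw
    exact AllPow.transfer f.toRingHom f.symm (fun x => f.apply_symm_apply x)
      (allPow_complex ((map_ne_zero _).mpr ((map_ne_zero _).mpr a.ne_zero))
        ((map_ne_zero _).mpr ((map_ne_zero _).mpr b.ne_zero)) he)

/-- A valuation bound which gives a norm bound. -/
theorem exists_val_bound (v : HeightOneSpectrum (𝓞 F)) {r : ℝ} (hr : 0 < r) :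
    ∃ γ : Z0, γ ≠ 0 ∧ ∀ x : F, v.valuation F x < γ → ‖iv v x‖ < r := by
  let _ := nnf v
  obtain ⟨z, hz0, hz⟩ := NormedField.exists_norm_lt (v.adicCompletion F) hr
  refine ⟨Valued.v z, (Valuation.ne_zero_iff _).mpr (norm_pos_iff.mp hz0), fun x hx => ?_⟩
  rw [← valued_alg v x, ← norm_lt_iff] at hx
  exact hx.trans hz

/-- Weak approximation, with targets in the completions. -/
theorem approx_all {S : Set (HeightOneSpectrum (𝓞 F))} (hS : S.Finite)
    (z : ∀ v : HeightOneSpectrum (𝓞 F), v.adicCompletion F) (δ : HeightOneSpectrum (𝓞 F) → ℝ)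
    (hδ : ∀ v, 0 < δ v) (z' : ∀ w : InfinitePlace F, w.Completion) (δ' : InfinitePlace F → ℝ)
    (hδ' : ∀ w, 0 < δ' w) :
    ∃ f : F, (∀ v ∈ S, ‖iv v f - z v‖ < δ v) ∧ ∀ w, ‖iw w f - z' w‖ < δ' w := by
  choose x hx using fun v => dense v (z v) (δ v / 2) (half_pos (hδ v))
  have hd : ∀ w : InfinitePlace F, ∃ t : F, ‖z' w - iw w t‖ < δ' w / 2 := by
    intro w
    have h1 := Metric.denseRange_iff.mp (InfinitePlace.Completion.denseRange_coe w) (z' w)
      (δ' w / 2) (half_pos (hδ' w))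
    obtain ⟨t, ht⟩ := h1
    refine ⟨WithAbs.equiv w.1 t, ?_⟩
    rw [dist_eq_norm] at ht
    exact ht
  choose t ht using hd
  choose γ hγ0 hγ using fun v => exists_val_bound v (half_pos (hδ v))
  obtain ⟨w0, hw0⟩ := Finite.exists_min δ'
  obtain ⟨f, hf1, hf2⟩ := approxVal hS.toFinset x γ (fun v _ => hγ0 v) t (half_pos (hδ' w0))
  refine ⟨f, fun v hv => ?_, fun w => ?_⟩
  · have h1 := hγ v _ (hf1 v (hS.mem_toFinset.mpr hv))
    have h2 := hx v
    have h3 : iv v f - z v = iv v (f - x v) - (z v - iv v (x v)) := by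
      rw [map_sub]
      abel
    rw [h3]
    calc ‖iv v (f - x v) - (z v - iv v (x v))‖ ≤ ‖iv v (f - x v)‖ + ‖z v - iv v (x v)‖ :=
          norm_sub_le _ _
      _ < δ v / 2 + δ v / 2 := add_lt_add h1 h2
      _ = δ v := add_halves _
  · have h1 : ‖iw w (f - t w)‖ < δ' w / 2 := by
      rw [norm_iw]
      exact (hf2 w).trans_le (by have := hw0 w; linarith)
    have h2 := ht w
    have h3 : iw w f - z' w = iw w (f - t w) - (z' w - iw w (t w)) := by
      rw [map_sub]
      abel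
    rw [h3]
    calc ‖iw w (f - t w) - (z' w - iw w (t w))‖ ≤ ‖iw w (f - t w)‖ + ‖z' w - iw w (t w)‖ :=
          norm_sub_le _ _
      _ < δ' w / 2 + δ' w / 2 := add_lt_add h1 h2
      _ = δ' w := add_halves _

end local_

section gen

variable {R : Type} [Field R]

/-- The norm form of a ramified quaternion algebra is anisotropic. -/
theorem aniso_gen {A B : R} (h2 : (2 : R) ≠ 0) (hA0 : A ≠ 0)
    (hBn : ¬ ∃ x y : R, B = x ^ 2 - A * y ^ 2) {c0 c1 c2 c3 : R}
    (hc : c0 ^ 2 - A * c1 ^ 2 - B * c2 ^ 2 + A * B * c3 ^ 2 = 0) :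
    c0 = 0 ∧ c1 = 0 ∧ c2 = 0 ∧ c3 = 0 := by
  have hAn : ∀ x y : R, x ^ 2 - A * y ^ 2 = 0 → x = 0 ∧ y = 0 := by
    intro x y h
    have hy : y = 0 := by
      by_contra hy
      apply hBn
      have hc : A = (x / y) ^ 2 := by
        field_simp
        linear_combination -h
      have hc0 : x / y ≠ 0 := by
        intro h0
        rw [h0] at hc
        exact hA0 (by rw [hc]; ring)
      refine ⟨(B + 1) / 2, (B - 1) / (2 * (x / y)), ?_⟩
      generalize x / y = c at hc hc0
      rw [hc]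
      field_simp
      ring
    rw [hy] at h
    refine ⟨?_, hy⟩
    have : x ^ 2 = 0 := by linear_combination h
    exact pow_eq_zero_iff two_ne_zero |>.mp this
  have h1 : (c0 ^ 2 - A * c1 ^ 2) - B * (c2 ^ 2 - A * c3 ^ 2) = 0 := by
    linear_combination hc
  have h3 : c2 ^ 2 - A * c3 ^ 2 = 0 := by
    by_contra h0
    apply hBn
    refine ⟨(c0 * c2 - A * c1 * c3) / (c2 ^ 2 - A * c3 ^ 2),
      (c1 * c2 - c0 * c3) / (c2 ^ 2 - A * c3 ^ 2), ?_⟩
    field_simp
    linear_combination (-(c2 ^ 2 - A * c3 ^ 2)) * h1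
  rw [h3, mul_zero, sub_zero] at h1
  obtain ⟨h4, h5⟩ := hAn _ _ h1
  obtain ⟨h6, h7⟩ := hAn _ _ h3
  exact ⟨h4, h5, h6, h7⟩

end gen

section gen2

variable {R : Type} [NormedField R] [ProperSpace R]

/-- An anisotropic continuous form bounds its arguments. -/
theorem bound_gen {A B : R} {N : (Fin 4 → R) → R} (hN : ∀ c, N c = c 0 ^ 2 - A * c 1 ^ 2 -
    B * c 2 ^ 2 + A * B * c 3 ^ 2) (hN0 : ∀ c, N c = 0 → c = 0) :
    ∃ m : ℝ, 0 < m ∧ ∀ (c : Fin 4 → R) (ε : ℝ), 0 < ε → ‖N c‖ < ε ^ 2 * m → ∀ i, ‖c i‖ < ε := by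
  have hcont : Continuous fun c => ‖N c‖ := by
    apply Continuous.norm
    have h1 : N = fun c : Fin 4 → R =>
        c 0 ^ 2 - A * c 1 ^ 2 - B * c 2 ^ 2 + A * B * c 3 ^ 2 := funext hN
    rw [h1]
    fun_prop
  have hcpt : IsCompact (Metric.sphere (0 : Fin 4 → R) 1) := isCompact_sphere _ _
  have hne : (Metric.sphere (0 : Fin 4 → R) 1).Nonempty := by
    refine ⟨fun _ => 1, ?_⟩
    rw [mem_sphere_zero_iff_norm, pi_norm_const, norm_one]
  obtain ⟨c1, hc1, hmin⟩ := hcpt.exists_isMinOn hne hcont.continuousOn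
  have hm0 : 0 < ‖N c1‖ := by
    rw [norm_pos_iff]
    intro h0
    have := hN0 c1 h0
    rw [this, mem_sphere_zero_iff_norm, norm_zero] at hc1
    exact zero_ne_one hc1
  refine ⟨‖N c1‖, hm0, fun c ε hε hc i => ?_⟩
  obtain ⟨i0, hi0⟩ := Finite.exists_max fun i => ‖c i‖
  refine lt_of_le_of_lt (hi0 i) ?_
  by_cases h0 : c i0 = 0
  · rw [h0, norm_zero]
    exact hε
  · have hn0 : 0 < ‖c i0‖ := norm_pos_iff.mpr h0
    have hsph : (fun j => c j / c i0) ∈ Metric.sphere (0 : Fin 4 → R) 1 := by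
      rw [mem_sphere_zero_iff_norm]
      apply le_antisymm
      · rw [pi_norm_le_iff_of_nonneg zero_le_one]
        intro j
        rw [norm_div, div_le_one hn0]
        exact hi0 j
      · have h1 := norm_le_pi_norm (fun j => c j / c i0) i0
        change ‖c i0 / c i0‖ ≤ _ at h1
        rwa [div_self h0, norm_one] at h1
    have h2 : ‖N c1‖ ≤ ‖N fun j => c j / c i0‖ := hmin hsph
    have h3 : N (fun j => c j / c i0) = N c / c i0 ^ 2 := by
      rw [hN, hN]
      field_simp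
    rw [h3, norm_div, norm_pow, le_div_iff₀ (by positivity)] at h2
    have h4 : ‖c i0‖ ^ 2 * ‖N c1‖ < ε ^ 2 * ‖N c1‖ := by linarith
    have h5 := lt_of_mul_lt_mul_right h4 hm0.le
    exact lt_of_pow_lt_pow_left₀ 2 hε.le h5

/-- At a ramified place elements of small norm are small. -/
theorem small_gen [CharZero R] {A B : R} (hA0 : A ≠ 0)
    (hBn : ¬ ∃ x y : R, B = x ^ 2 - A * y ^ 2) {ε : ℝ} (hε : 0 < ε) :
    ∃ m : ℝ, 0 < m ∧ ∀ q : ℍ[R,A,B], ‖q.re ^ 2 - A * q.imI ^ 2 - B * q.imJ ^ 2 +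
      A * B * q.imK ^ 2‖ < m → Sm ε q := by
  obtain ⟨m, hm, hb⟩ := bound_gen (A := A) (B := B)
    (N := fun c => c 0 ^ 2 - A * c 1 ^ 2 - B * c 2 ^ 2 + A * B * c 3 ^ 2) (fun _ => rfl) (by
      intro c hc
      obtain ⟨h4, h5, h6, h7⟩ := aniso_gen two_ne_zero hA0 hBn hc
      funext i
      fin_cases i
      · exact h4
      · exact h5
      · exact h6
      · exact h7)
  refine ⟨ε ^ 2 * m, by positivity, fun q hq => ?_⟩
  have h3 := hb ![q.re, q.imI, q.imJ, q.imK] ε hε hq
  exact ⟨h3 0, h3 1, h3 2, h3 3⟩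

end gen2

section local2

variable {F : Type} [Field F] [NumberField F]

/-- At a ramified place elements of small norm are small. -/
theorem ram_bound (v : HeightOneSpectrum (𝓞 F)) {a b : Fˣ} (hv : Ram a b v) {ε : ℝ} (hε : 0 < ε) :
    ∃ γ : Z0, γ ≠ 0 ∧ ∀ q : Qt a b, v.valuation F (nrd q) < γ → Sm ε (mapQ (iv v) q) := by
  have hBn : ¬ ∃ x y : v.adicCompletion F, iv v b = x ^ 2 - iv v a * y ^ 2 := fun h =>
    hv ((mem_LN_iff v a b).mp h)
  obtain ⟨m, hm, hb⟩ := small_gen ((map_ne_zero (iv v)).mpr a.ne_zero) hBn hε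
  obtain ⟨γ, hγ0, hγ⟩ := exists_val_bound v hm
  refine ⟨γ, hγ0, fun q hq => hb _ ?_⟩
  have h1 := hγ _ hq
  have h2 : iv v (nrd q) = (mapQ (iv v) q).re ^ 2 - iv v a * (mapQ (iv v) q).imI ^ 2 -
      iv v b * (mapQ (iv v) q).imJ ^ 2 + iv v a * iv v b * (mapQ (iv v) q).imK ^ 2 := by
    simp only [nrd, mapQ_apply, map_add, map_sub, map_mul, map_pow]
  rwa [h2] at h1

end local2

end Vale.Agent.P011.MPQ
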