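import Vale.Agent.P011.MPQ.FGSize
import Vale.Agent.P011.Arith.SUnit

/-!
Simultaneous approximation of quaternions by integral quaternions.
-/

open NumberField IsDedekindDomain

namespace Vale.Agent.P011.MPQ.FG

section pigeon

/-- Simultaneous approximation of rational numbers. -/
theorem dirichlet_pigeon {J : Type} [Fintype J] (k : ℕ) (hk : 0 < k) (q : J → ℝ) :
    ∃ m : ℕ, 0 < m ∧ m ≤ k ^ Fintype.card J ∧ ∃ z : J → ℤ, ∀ j, |m * q j - z j| ≤ 1 / k := by
  classical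
  have hk' : (0 : ℝ) < k := by exact_mod_cast hk
  have hlt : ∀ (m : ℕ) (j : J), ⌊(k : ℝ) * Int.fract (m * q j)⌋.toNat < k := by
    intro m j
    have h1 : (k : ℝ) * Int.fract (m * q j) < k := by
      have := Int.fract_lt_one (m * q j)
      nlinarith
    have h2 : ⌊(k : ℝ) * Int.fract (m * q j)⌋ < k := Int.floor_lt.mpr (by exact_mod_cast h1)
    have h3 : 0 ≤ ⌊(k : ℝ) * Int.fract (m * q j)⌋ :=
      Int.floor_nonneg.mpr (mul_nonneg hk'.le (Int.fract_nonneg _))
    omega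
  let g : Fin (k ^ Fintype.card J + 1) → (J → Fin k) := fun m j =>
    ⟨⌊(k : ℝ) * Int.fract ((m : ℕ) * q j)⌋.toNat, hlt m j⟩
  obtain ⟨m₁, m₂, hne, he⟩ := Fintype.exists_ne_map_eq_of_card_lt g (by simp)
  have key : ∀ m₁ m₂ : Fin (k ^ Fintype.card J + 1), m₁ < m₂ → g m₁ = g m₂ →
      ∃ m : ℕ, 0 < m ∧ m ≤ k ^ Fintype.card J ∧ ∃ z : J → ℤ, ∀ j, |m * q j - z j| ≤ 1 / k := by
    intro m₁ m₂ hlt' he
    refine ⟨m₂ - m₁, by omega, by omega, fun j => ⌊(m₂ : ℕ) * q j⌋ - ⌊(m₁ : ℕ) * q j⌋, fun j => ?_⟩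
    have h1 : ⌊(k : ℝ) * Int.fract ((m₁ : ℕ) * q j)⌋ = ⌊(k : ℝ) * Int.fract ((m₂ : ℕ) * q j)⌋ := by
      have h := congrFun he j
      have h' : ⌊(k : ℝ) * Int.fract ((m₁ : ℕ) * q j)⌋.toNat =
          ⌊(k : ℝ) * Int.fract ((m₂ : ℕ) * q j)⌋.toNat := congrArg Fin.val h
      have h3 : 0 ≤ ⌊(k : ℝ) * Int.fract ((m₁ : ℕ) * q j)⌋ :=
        Int.floor_nonneg.mpr (mul_nonneg hk'.le (Int.fract_nonneg _))
      have h4 : 0 ≤ ⌊(k : ℝ) * Int.fract ((m₂ : ℕ) * q j)⌋ :=
        Int.floor_nonneg.mpr (mul_nonneg hk'.le (Int.fract_nonneg _))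
      omega
    have e : (((m₂ : ℕ) - (m₁ : ℕ) : ℕ) : ℝ) * q j -
        ((⌊(m₂ : ℕ) * q j⌋ - ⌊(m₁ : ℕ) * q j⌋ : ℤ) : ℝ) =
        Int.fract ((m₂ : ℕ) * q j) - Int.fract ((m₁ : ℕ) * q j) := by
      rw [Nat.cast_sub (by omega), Int.fract, Int.fract]
      push_cast
      ring
    rw [e, le_div_iff₀ hk']
    have f1 := Int.floor_le ((k : ℝ) * Int.fract ((m₁ : ℕ) * q j))
    have f2 := Int.lt_floor_add_one ((k : ℝ) * Int.fract ((m₁ : ℕ) * q j))
    have f3 := Int.floor_le ((k : ℝ) * Int.fract ((m₂ : ℕ) * q j))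
    have f4 := Int.lt_floor_add_one ((k : ℝ) * Int.fract ((m₂ : ℕ) * q j))
    rw [h1] at f1 f2
    have e2 : |Int.fract ((m₂ : ℕ) * q j) - Int.fract ((m₁ : ℕ) * q j)| * k =
        |(k : ℝ) * Int.fract ((m₂ : ℕ) * q j) - k * Int.fract ((m₁ : ℕ) * q j)| := by
      rw [← mul_sub, abs_mul, abs_of_pos hk', mul_comm]
    rw [e2, abs_le]
    constructor <;> linarith
  rcases lt_or_gt_of_ne hne with h | h
  · exact key m₁ m₂ h he
  · exact key m₂ m₁ h he.symm

end pigeon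

section fld

variable {F : Type} [Field F] [NumberField F]

theorem adicAbv_le_one (v : HeightOneSpectrum (𝓞 F)) (x : F) :
    NumberField.HeightOneSpectrum.adicAbv F v x ≤ 1 ↔ v.valuation F x ≤ 1 := by
  have h := Arith.plAbv_lt v 1 x
  rw [map_one, map_one] at h
  exact ⟨fun h1 => not_lt.mp fun h2 => absurd (h.mpr h2) (not_lt.mpr h1),
    fun h1 => not_lt.mp fun h2 => absurd (h.mp h2) (not_lt.mpr h1)⟩

theorem val_nat_le (v : HeightOneSpectrum (𝓞 F)) (n : ℕ) : v.valuation F (n : F) ≤ 1 := by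
  have h : v.valuation F (algebraMap (𝓞 F) F (n : 𝓞 F)) ≤ 1 := v.valuation_le_one (n : 𝓞 F)
  rwa [map_natCast] at h

theorem val_int_le (v : HeightOneSpectrum (𝓞 F)) (n : ℤ) : v.valuation F (n : F) ≤ 1 := by
  have h : v.valuation F (algebraMap (𝓞 F) F (n : 𝓞 F)) ≤ 1 := v.valuation_le_one (n : 𝓞 F)
  rwa [map_intCast] at h

/-- Splitting of a denominator. -/
theorem split_den (M : ℕ) : ∀ D : ℕ, D ≠ 0 → ∃ D₁ D₂ k : ℕ, D = D₁ * D₂ ∧ Nat.Coprime D₁ M ∧
    D₂ ∣ M ^ k := by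
  intro D
  induction D using Nat.strong_induction_on with
  | _ D ih =>
    intro hD
    by_cases h : Nat.Coprime D M
    · exact ⟨D, 1, 0, (mul_one D).symm, h, one_dvd _⟩
    · have hg : Nat.gcd D M ≠ 1 := h
      obtain ⟨D', hD'⟩ := Nat.gcd_dvd_left D M
      have hD0 : D' ≠ 0 := by
        rintro rfl
        rw [mul_zero] at hD'
        exact hD hD'
      have hg0 : Nat.gcd D M ≠ 0 := by
        intro h0
        rw [h0, zero_mul] at hD'
        exact hD hD'
      have hlt : D' < D := by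
        have h2 : 2 ≤ Nat.gcd D M := by omega
        have h3 : 0 < D' := Nat.pos_of_ne_zero hD0
        calc D' < 2 * D' := by omega
          _ ≤ Nat.gcd D M * D' := Nat.mul_le_mul_right _ h2
          _ = D := hD'.symm
      obtain ⟨D₁, D₂, k, h1, h2, h3⟩ := ih D' hlt hD0
      refine ⟨D₁, Nat.gcd D M * D₂, k + 1, ?_, h2, ?_⟩
      · calc D = Nat.gcd D M * D' := hD'
          _ = Nat.gcd D M * (D₁ * D₂) := by rw [← h1]
          _ = _ := by ring
      · rw [pow_succ, mul_comm]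
        exact mul_dvd_mul h3 (Nat.gcd_dvd_right D M)

theorem val_eq_one_of_dvd {v : HeightOneSpectrum (𝓞 F)} {m n : ℕ} (h : m ∣ n)
    (hn : v.valuation F (n : F) = 1) : v.valuation F (m : F) = 1 := by
  obtain ⟨k, rfl⟩ := h
  rw [Nat.cast_mul, map_mul] at hn
  refine le_antisymm (val_nat_le v m) ?_
  by_contra h'
  rw [not_le] at h'
  have := mul_lt_one_of_lt_of_le h' (val_nat_le v k)
  exact this.ne hn

/-- Every element is congruent to an element which is integral outside `M`, modulo elements which are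
integral at `M`. -/
theorem exists_sub_int (M : ℕ) (θ : F) : ∃ y : F, IntF (SM F M) y ∧
    ∀ v ∈ SM F M, v.valuation F (θ - y) ≤ 1 := by
  have halg : IsAlgebraic ℤ θ :=
    (IsFractionRing.isAlgebraic_iff ℤ ℚ F).mpr (Algebra.IsAlgebraic.isAlgebraic (R := ℚ) θ)
  obtain ⟨d, hd0, hd⟩ := halg.exists_integral_multiple
  have hD0 : d.natAbs ≠ 0 := Int.natAbs_ne_zero.mpr hd0
  have hg : IsIntegral ℤ ((d.natAbs : F) * θ) := by
    have e : ((d.natAbs : F) * θ) = d • θ ∨ ((d.natAbs : F) * θ) = -(d • θ) := by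
      rw [Nat.cast_natAbs]
      rcases abs_choice d with h | h
      · left
        rw [h, zsmul_eq_mul]
      · right
        rw [h, zsmul_eq_mul]
        push_cast
        ring
    rcases e with e | e
    · rw [e]; exact hd
    · rw [e]; exact hd.neg
  obtain ⟨D₁, D₂, k, hD, hc, hk⟩ := split_den M d.natAbs hD0
  have hc' : Nat.Coprime D₁ D₂ := Nat.Coprime.coprime_dvd_right hk (hc.pow_right k)
  have hbez : ((D₁.gcdA D₂ : ℤ) : F) * (D₁ : F) + ((D₁.gcdB D₂ : ℤ) : F) * (D₂ : F) = 1 := by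
    have h := Nat.gcd_eq_gcd_ab D₁ D₂
    rw [hc'] at h
    have h2 := congrArg (Int.cast : ℤ → F) h
    push_cast at h2
    linear_combination -h2
  have h1 : D₁ ≠ 0 := fun h => hD0 (by rw [hD, h, zero_mul])
  have h2 : D₂ ≠ 0 := fun h => hD0 (by rw [hD, h, mul_zero])
  have h1' : (D₁ : F) ≠ 0 := by exact_mod_cast h1
  have h2' : (D₂ : F) ≠ 0 := by exact_mod_cast h2
  set g : F := (d.natAbs : F) * θ with hgdef
  have hgi : ∀ v : HeightOneSpectrum (𝓞 F), v.valuation F g ≤ 1 := by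
    intro v
    exact v.valuation_le_one (⟨g, hg⟩ : 𝓞 F)
  have hθ : θ = g / ((D₁ : F) * D₂) := by
    rw [hgdef, hD]
    push_cast
    field_simp
  refine ⟨g * (D₁.gcdA D₂ : ℤ) / D₂, ?_, ?_⟩
  · intro v hv
    have hv' : v.valuation F (M : F) = 1 := by
      by_contra h
      exact hv h
    have e : v.valuation F (D₂ : F) = 1 := by
      refine val_eq_one_of_dvd hk ?_
      push_cast
      rw [map_pow, hv', one_pow]
    rw [map_div₀, map_mul, e, div_one]
    exact mul_le_one' (hgi v) (val_int_le v _)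
  · intro v hv
    have hv' : v.valuation F (M : F) < 1 := lt_of_le_of_ne (val_nat_le v M) hv
    have e : v.valuation F (D₁ : F) = 1 := by
      refine le_antisymm (val_nat_le v _) ?_
      by_contra h
      rw [not_le] at h
      have hb := Nat.gcd_eq_gcd_ab D₁ M
      rw [hc] at hb
      have hb2 := congrArg (Int.cast : ℤ → F) hb
      push_cast at hb2
      have h3 : v.valuation F (1 : F) < 1 := by
        rw [hb2]
        refine lt_of_le_of_lt (Valuation.map_add _ _ _) (max_lt ?_ ?_)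
        · rw [map_mul]
          exact mul_lt_one_of_lt_of_le h (val_int_le v _)
        · rw [map_mul]
          exact mul_lt_one_of_lt_of_le hv' (val_int_le v _)
      rw [map_one] at h3
      exact lt_irrefl _ h3
    have e2 : θ - g * (D₁.gcdA D₂ : ℤ) / D₂ = g * (D₁.gcdB D₂ : ℤ) / D₁ := by
      rw [hθ]
      field_simp
      linear_combination (-g) * hbez
    rw [e2, map_div₀, map_mul, e, div_one]
    exact mul_le_one' (hgi v) (val_int_le v _)

/-- Simultaneous approximation by algebraic integers. -/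
theorem exists_near_int (ρ : ℝ) (hρ : 0 < ρ) : ∃ H₀ : ℕ, 0 < H₀ ∧ ∀ ψ : Fin 4 → F,
    ∃ m : ℕ, 0 < m ∧ m ≤ H₀ ∧ ∃ y : Fin 4 → 𝓞 F, ∀ (w : InfinitePlace F) (i : Fin 4),
      w (m * ψ i - (y i : F)) ≤ ρ := by
  classical
  let J := Module.Free.ChooseBasisIndex ℤ (𝓞 F)
  let B : Module.Basis J ℚ F := integralBasis F
  let C : ℝ := ∑ w : InfinitePlace F, ∑ j : J, w (B j)
  have hC : 0 ≤ C := Finset.sum_nonneg fun w _ => Finset.sum_nonneg fun j _ => apply_nonneg w _
  obtain ⟨k, hk⟩ := exists_nat_gt (C / ρ)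
  have hk0 : (0 : ℝ) < k := lt_of_le_of_lt (div_nonneg hC hρ.le) hk
  have hk1 : 0 < k := by exact_mod_cast hk0
  refine ⟨k ^ Fintype.card (Fin 4 × J), pow_pos hk1 _, fun ψ => ?_⟩
  obtain ⟨m, hm, hm', z, hz⟩ := dirichlet_pigeon k hk1
    (fun p : Fin 4 × J => ((B.repr (ψ p.1) p.2 : ℚ) : ℝ))
  refine ⟨m, hm, hm', fun i => ∑ j : J, z (i, j) • RingOfIntegers.basis F j, fun w i => ?_⟩
  have e : (m : F) * ψ i - ((∑ j : J, z (i, j) • RingOfIntegers.basis F j : 𝓞 F) : F) =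
      ∑ j : J, ((m * B.repr (ψ i) j - z (i, j) : ℚ) : F) * B j := by
    have h1 := B.sum_repr (ψ i)
    have h2 : ((∑ j : J, z (i, j) • RingOfIntegers.basis F j : 𝓞 F) : F) =
        ∑ j : J, (z (i, j) : F) * B j := by
      rw [RingOfIntegers.coe_eq_algebraMap, map_sum]
      refine Finset.sum_congr rfl fun j _ => ?_
      rw [zsmul_eq_mul, map_mul, map_intCast, integralBasis_apply]
    rw [h2]
    conv_lhs => rw [← h1]
    rw [Finset.mul_sum, ← Finset.sum_sub_distrib]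
    refine Finset.sum_congr rfl fun j _ => ?_
    rw [Algebra.smul_def, eq_ratCast]
    push_cast
    ring
  rw [e]
  have h3 : w (∑ j : J, ((m * B.repr (ψ i) j - z (i, j) : ℚ) : F) * B j) ≤
      ∑ j : J, 1 / k * w (B j) := by
    refine (w.1.sum_le _ _).trans (Finset.sum_le_sum fun j _ => ?_)
    have h4 : w (((m * B.repr (ψ i) j - z (i, j) : ℚ) : F) * B j) =
        w ((m * B.repr (ψ i) j - z (i, j) : ℚ) : F) * w (B j) := map_mul w _ _
    refine le_of_eq_of_le h4 (mul_le_mul_of_nonneg_right ?_ (apply_nonneg w _))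
    have h5 : w ((m * B.repr (ψ i) j - z (i, j) : ℚ) : F) =
        |((m * B.repr (ψ i) j - z (i, j) : ℚ) : ℝ)| := by
      rw [← InfinitePlace.norm_embedding_eq, map_ratCast, ← Complex.ofReal_ratCast,
        Complex.norm_real, Real.norm_eq_abs]
    rw [h5]
    have := hz (i, j)
    push_cast
    exact this
  refine h3.trans ?_
  rw [← Finset.mul_sum]
  have h6 : ∑ j : J, w (B j) ≤ C :=
    Finset.single_le_sum (f := fun w : InfinitePlace F => ∑ j : J, w (B j))
      (fun w _ => Finset.sum_nonneg fun j _ => apply_nonneg w _) (Finset.mem_univ w)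
  have h7 : C / k ≤ ρ := by
    rw [div_le_iff₀ hk0]
    rw [div_lt_iff₀ hρ] at hk
    linarith
  calc 1 / (k : ℝ) * ∑ j : J, w (B j) ≤ 1 / k * C := mul_le_mul_of_nonneg_left h6 (by positivity)
    _ = C / k := by ring
    _ ≤ ρ := h7

end fld

end Vale.Agent.P011.MPQ.FG
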