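import Vale.Agent.P011.MPQ.FGRed

/-!
The norm-one group of the quaternions which are integral outside `M` is finitely generated.
-/

open NumberField IsDedekindDomain

namespace Vale.Agent.P011.MPQ.FG

open Arith

section units

variable {F : Type} [Field F] {a b : Fˣ}

/-- The reduced norm as a homomorphism. -/
def nrdHom (a b : Fˣ) : Qt a b →* F where
  toFun := nrd
  map_one' := nrd_one
  map_mul' := nrd_mul

/-- The reduced norm of units. -/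
def nrdU (a b : Fˣ) : (Qt a b)ˣ →* Fˣ := Units.map (nrdHom a b)

theorem nrdU_coe (x : (Qt a b)ˣ) : ((nrdU a b x : Fˣ) : F) = nrd (x : Qt a b) := rfl

/-- A quaternion of nonzero reduced norm is a unit. -/
def mkU (x : Qt a b) (hx : nrd x ≠ 0) : (Qt a b)ˣ where
  val := x
  inv := (nrd x)⁻¹ • cj x
  val_inv := by
    rw [mul_smul_comm, mul_cj, Algebra.algebraMap_eq_smul_one, smul_smul, inv_mul_cancel₀ hx,
      one_smul]
  inv_val := by
    rw [smul_mul_assoc, cj_mul_self, Algebra.algebraMap_eq_smul_one, smul_smul, inv_mul_cancel₀ hx,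
      one_smul]

@[simp] theorem mkU_val (x : Qt a b) (hx : nrd x ≠ 0) : ((mkU x hx : (Qt a b)ˣ) : Qt a b) = x := rfl

theorem nrd_unit_ne (x : (Qt a b)ˣ) : nrd (x : Qt a b) ≠ 0 := (nrdU a b x).ne_zero

theorem nrd_smul (c : F) (x : Qt a b) : nrd (c • x) = c ^ 2 * nrd x := by
  simp only [nrd, QuaternionAlgebra.re_smul, QuaternionAlgebra.imI_smul, QuaternionAlgebra.imJ_smul,
    QuaternionAlgebra.imK_smul, smul_eq_mul]
  ring

/-- Scalar units. -/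
def scU (a b : Fˣ) : Fˣ →* (Qt a b)ˣ := Units.map (algebraMap F (Qt a b)).toMonoidHom

theorem scU_coe (ε : Fˣ) : ((scU a b ε : (Qt a b)ˣ) : Qt a b) = (ε : F) • (1 : Qt a b) :=
  Algebra.algebraMap_eq_smul_one _

theorem inv_coe (x : (Qt a b)ˣ) :
    ((x⁻¹ : (Qt a b)ˣ) : Qt a b) = (nrd (x : Qt a b))⁻¹ • cj (x : Qt a b) := by
  have h : x⁻¹ = (mkU (x : Qt a b) (nrd_unit_ne x))⁻¹ := by
    congr 1
    ext <;> rfl
  rw [h]
  rfl

end units

section chain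

variable {F : Type} [Field F] [NumberField F] {a b : Fˣ}

/-- The unit is reduced. -/
structure Red (M : ℕ) (C : HeightOneSpectrum (𝓞 F) ⊕ InfinitePlace F → ℝ) (u : Qt a b) (c : ℝ)
    (x : (Qt a b)ˣ) : Prop where
  int : IntQ (SM F M) (x : Qt a b)
  int' : IntQ (SM F M) ((x⁻¹ : (Qt a b)ˣ) : Qt a b)
  bd : ∀ p ∈ TM F M, Nv (pabv p) c u (x : Qt a b) ^ 2 ≤
    C p * (pabv p (nrd (x : Qt a b)) * Wv (pabv p) c u)

theorem exists_red (hab : Aniso a b) {M : ℕ} {ρ : ℝ} {r₀ H₀ : ℕ} (hG : Good4 a b M ρ r₀ H₀)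
    (hA : Adm a b (SM F M)) : ∃ C : HeightOneSpectrum (𝓞 F) ⊕ InfinitePlace F → ℝ,
      (∀ p, 1 ≤ C p) ∧ ∀ (u : Qt a b) (c : ℝ), 0 < c → ∃ x : (Qt a b)ˣ, Red M C u c x := by
  classical
  choose C hC1 hC2 using fun p : TM F M => shortest_bound hG hA p.1 p.2
  refine ⟨fun p => if hp : p ∈ TM F M then C ⟨p, hp⟩ else 1, fun p => ?_, fun u c hc => ?_⟩
  · by_cases hp : p ∈ TM F M
    · simp only [dif_pos hp]; exact hC1 _
    · simp only [dif_neg hp]; exact le_rfl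
  · obtain ⟨x, hx0, hx1, hx2, hx3⟩ := exists_shortest (a := a) (b := b) hG.M0 (c := c) u
    have hn : nrd x ≠ 0 := fun h => hx0 (hab x h)
    refine ⟨mkU x hn, hx1, ?_, fun p hp => ?_⟩
    · exact shortest_unit hG hA hc u x hx0 hx1 hx2 hx3 _ (mkU x hn).val_inv
    · simp only [dif_pos hp]
      exact hC2 ⟨p, hp⟩ c hc u x ⟨hn, hx1, hx2, hx3⟩

/-- Neighbouring reduced units have a balanced quotient. -/
theorem Red.step {M : ℕ} {C : HeightOneSpectrum (𝓞 F) ⊕ InfinitePlace F → ℝ} {u : Qt a b}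
    {c c' : ℝ} (hC : ∀ p, 1 ≤ C p) (hc : 0 < c) (h1 : c ≤ c') (h2 : c' ≤ 2 * c) {x y : (Qt a b)ˣ}
    (hx : Red M C u c x) (hy : Red M C u c' y) (p : HeightOneSpectrum (𝓞 F) ⊕ InfinitePlace F)
    (hp : p ∈ TM F M) : szv (pabv p) ((x⁻¹ * y : (Qt a b)ˣ) : Qt a b) ^ 2 ≤
      4 * Ec (pabv p) a b ^ 2 * C p ^ 2 * pabv p (nrd ((x⁻¹ * y : (Qt a b)ˣ) : Qt a b)) := by
  set f := pabv p with hf
  have hx1 := hx.bd p hp
  have hy1 := hy.bd p hp
  have hnx : 0 < f (nrd (x : Qt a b)) := f.pos (nrd_unit_ne x)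
  have hny : 0 < f (nrd (y : Qt a b)) := f.pos (nrd_unit_ne y)
  have hW : 0 < Wv f c u := zero_lt_one.trans_le (one_le_Wv f c u)
  have hE : 1 ≤ Ec f a b := one_le_Ec f
  have hCp := hC p
  have hsu := szv_nonneg f u
  have hnu := f.nonneg (nrd u)
  -- comparison of the weights
  have hW' : Wv f c' u ≤ 4 * Wv f c u := by
    have hm1 : c * szv f u ≤ Wv f c u := (le_max_left _ _).trans (le_max_right _ _)
    have hm2 : c ^ 2 * f (nrd u) ≤ Wv f c u := (le_max_right _ _).trans (le_max_right _ _)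
    have hm0 : 1 ≤ Wv f c u := one_le_Wv f c u
    refine max_le (by linarith) (max_le ?_ ?_)
    · nlinarith
    · have : c' ^ 2 ≤ 4 * c ^ 2 := by nlinarith
      nlinarith
  have hNy : Nv f c u (y : Qt a b) ≤ Nv f c' u (y : Qt a b) :=
    max_le_max le_rfl (mul_le_mul_of_nonneg_right h1 (szv_nonneg f _))
  have hNy2 : Nv f c u (y : Qt a b) ^ 2 ≤ C p * (f (nrd (y : Qt a b)) * (4 * Wv f c u)) := by
    have h3 : Nv f c u (y : Qt a b) ^ 2 ≤ Nv f c' u (y : Qt a b) ^ 2 :=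
      pow_le_pow_left₀ (Nv_nonneg f c u _) hNy 2
    refine h3.trans (hy1.trans ?_)
    exact mul_le_mul_of_nonneg_left (mul_le_mul_of_nonneg_left hW' hny.le) (by linarith)
  have heps := eps_ineq f (two_ne_zero) hc.le u (x : Qt a b) (y : Qt a b)
  set s := szv f (cj (x : Qt a b) * (y : Qt a b)) with hs
  have hs0 : 0 ≤ s := szv_nonneg f _
  have hsq : (s * Wv f c u) ^ 2 ≤ Ec f a b ^ 2 * ((C p * (f (nrd (x : Qt a b)) * Wv f c u)) *
      (C p * (f (nrd (y : Qt a b)) * (4 * Wv f c u)))) := by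
    have h3 : (s * Wv f c u) ^ 2 ≤ (Ec f a b * (Nv f c u (x : Qt a b) * Nv f c u (y : Qt a b))) ^ 2 :=
      pow_le_pow_left₀ (mul_nonneg hs0 hW.le) heps 2
    refine h3.trans ?_
    have e : (Ec f a b * (Nv f c u (x : Qt a b) * Nv f c u (y : Qt a b))) ^ 2 =
        Ec f a b ^ 2 * (Nv f c u (x : Qt a b) ^ 2 * Nv f c u (y : Qt a b) ^ 2) := by ring
    rw [e]
    exact mul_le_mul_of_nonneg_left (mul_le_mul hx1 hNy2 (sq_nonneg _)
      (mul_nonneg (by linarith) (mul_nonneg hnx.le hW.le))) (sq_nonneg _)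
  have hs2 : s ^ 2 ≤ 4 * Ec f a b ^ 2 * C p ^ 2 * (f (nrd (x : Qt a b)) * f (nrd (y : Qt a b))) := by
    have h3 : s ^ 2 * Wv f c u ^ 2 ≤ (4 * Ec f a b ^ 2 * C p ^ 2 *
        (f (nrd (x : Qt a b)) * f (nrd (y : Qt a b)))) * Wv f c u ^ 2 := by
      calc s ^ 2 * Wv f c u ^ 2 = (s * Wv f c u) ^ 2 := by ring
        _ ≤ _ := hsq
        _ = _ := by ring
    exact le_of_mul_le_mul_right h3 (by positivity)
  have e1 : ((x⁻¹ * y : (Qt a b)ˣ) : Qt a b) =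
      (nrd (x : Qt a b))⁻¹ • (cj (x : Qt a b) * (y : Qt a b)) := by
    rw [Units.val_mul, inv_coe, smul_mul_assoc]
  have e2 : f (nrd ((x⁻¹ * y : (Qt a b)ˣ) : Qt a b)) =
      (f (nrd (x : Qt a b)))⁻¹ * f (nrd (y : Qt a b)) := by
    rw [e1, nrd_smul, nrd_mul, nrd_cj, ← map_inv₀, ← map_mul]
    congr 1
    have := nrd_unit_ne x
    field_simp
  rw [e2, e1, szv_smul, map_inv₀, mul_pow]
  have h4 : (f (nrd (x : Qt a b)))⁻¹ ^ 2 * s ^ 2 ≤ (f (nrd (x : Qt a b)))⁻¹ ^ 2 *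
      (4 * Ec f a b ^ 2 * C p ^ 2 * (f (nrd (x : Qt a b)) * f (nrd (y : Qt a b)))) :=
    mul_le_mul_of_nonneg_left hs2 (by positivity)
  refine h4.trans (le_of_eq ?_)
  field_simp

/-- Representatives of the reduced norms modulo squares. -/
theorem exists_reps (M : ℕ) (hM : M ≠ 0) : ∃ Δ : Set (Qt a b)ˣ, Δ.Finite ∧ 1 ∈ Δ ∧
    (∀ δ ∈ Δ, IntQ (SM F M) (δ : Qt a b) ∧ IntQ (SM F M) ((δ⁻¹ : (Qt a b)ˣ) : Qt a b)) ∧
    ∀ x : (Qt a b)ˣ, nrdU a b x ∈ (SM F M).unit F → IntQ (SM F M) (x : Qt a b) →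
      IntQ (SM F M) ((x⁻¹ : (Qt a b)ˣ) : Qt a b) →
      ∃ δ ∈ Δ, ∃ ε : Fˣ, nrdU a b x = nrdU a b δ * ε ^ 2 := by
  classical
  have hS := finite_SM (F := F) M hM
  let U : Subgroup Fˣ := (SM F M).unit F
  have hidx : (Sq F).relIndex U ≠ 0 := by
    rw [Sq_relIndex_unit _ hS]
    positivity
  have hfinq : Finite (U ⧸ (Sq F).subgroupOf U) := by
    have : ((Sq F).subgroupOf U).FiniteIndex := ⟨hidx⟩
    infer_instance
  -- the classes
  let X : Set (Qt a b)ˣ := {x | nrdU a b x ∈ U ∧ IntQ (SM F M) (x : Qt a b) ∧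
    IntQ (SM F M) ((x⁻¹ : (Qt a b)ˣ) : Qt a b)}
  let cls : X → U ⧸ (Sq F).subgroupOf U := fun x => QuotientGroup.mk ⟨nrdU a b x.1, x.2.1⟩
  have hr : (Set.range cls).Finite := Set.toFinite _
  choose g hg using fun q : Set.range cls => q.2
  have _hft : Finite (Set.range cls) := hr
  refine ⟨insert 1 (Set.range fun q => (g q).1), (Set.finite_range _).insert 1,
    Set.mem_insert _ _, ?_, ?_⟩
  · rintro δ (rfl | ⟨q, rfl⟩)
    · exact ⟨IntQ.one, by rw [inv_one]; exact IntQ.one⟩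
    · exact ⟨(g q).2.2.1, (g q).2.2.2⟩
  · intro x h1 h2 h3
    have hq : cls (g ⟨cls ⟨x, h1, h2, h3⟩, ⟨_, rfl⟩⟩) = cls ⟨x, h1, h2, h3⟩ :=
      hg ⟨cls ⟨x, h1, h2, h3⟩, ⟨_, rfl⟩⟩
    set y := g ⟨cls ⟨x, h1, h2, h3⟩, ⟨_, rfl⟩⟩ with hy
    refine ⟨y.1, Or.inr ⟨_, rfl⟩, ?_⟩
    have h4 := QuotientGroup.eq.mp hq
    rw [Subgroup.mem_subgroupOf] at h4
    obtain ⟨ε, hε⟩ := h4
    refine ⟨ε, ?_⟩
    have h5 : ε ^ 2 = (nrdU a b y.1)⁻¹ * nrdU a b x := hε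
    rw [h5, mul_inv_cancel_left]

end chain

end Vale.Agent.P011.MPQ.FG
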