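import Vale.Agent.P011.MPQ.FGPlace

/-!
Shortest vectors of the ring of quaternions which are integral outside `M`.
-/

open NumberField IsDedekindDomain

namespace Vale.Agent.P011.MPQ.FG

section minimal

variable {F : Type} [Field F] [NumberField F]

theorem exists_den (x : F) : ∃ d : ℕ, d ≠ 0 ∧
    ∀ v : HeightOneSpectrum (𝓞 F), v.valuation F ((d : F) * x) ≤ 1 := by
  have halg : IsAlgebraic ℤ x :=
    (IsFractionRing.isAlgebraic_iff ℤ ℚ F).mpr (Algebra.IsAlgebraic.isAlgebraic (R := ℚ) x)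
  obtain ⟨d, hd0, hd⟩ := halg.exists_integral_multiple
  refine ⟨d.natAbs, Int.natAbs_ne_zero.mpr hd0, fun v => ?_⟩
  have hg : IsIntegral ℤ ((d.natAbs : F) * x) := by
    have e : ((d.natAbs : F) * x) = d • x ∨ ((d.natAbs : F) * x) = -(d • x) := by
      rw [Nat.cast_natAbs]
      rcases abs_choice d with h | h
      · left
        rw [h, zsmul_eq_mul]
      · right
        rw [h, zsmul_eq_mul]
        push_cast
        ring
    rcases e with e | e
    · rw [e]; exact hd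
    · rw [e]; exact hd.neg
  exact v.valuation_le_one (⟨_, hg⟩ : 𝓞 F)

theorem finite_SM (M : ℕ) (hM : M ≠ 0) : (SM F M).Finite :=
  Arith.finite_valuation_ne_one (M : F) (by exact_mod_cast hM)

/-- The parameters of the approximation are small enough. -/
structure Good4 (a b : Fˣ) (M : ℕ) (ρ : ℝ) (r₀ H₀ : ℕ) : Prop where
  M0 : M ≠ 0
  ρ0 : 0 < ρ
  small : ∀ w : InfinitePlace F, Kc w.1 a b * ρ ≤ 1 / 4
  int : ∀ v : HeightOneSpectrum (𝓞 F), ∀ x y : Qt a b,
    szv (pabv (.inl v)) y ≤ pabv (.inl v) (r₀ : F) → szv (pabv (.inl v)) (x * y) ≤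
      szv (pabv (.inl v)) x
  dvd : ∀ m : ℕ, 0 < m → m ≤ H₀ → m ∣ M
  dir : ∀ θ : Qt a b, ∃ m : ℕ, 0 < m ∧ m ≤ H₀ ∧ ∃ y : Qt a b, IntQ (SM F M) y ∧
    (∀ w : InfinitePlace F, szv w.1 ((m : F) • θ - y) ≤ ρ) ∧
    ∀ v ∈ SM F M, szv (pabv (.inl v)) ((m : F) • θ - y) ≤ pabv (.inl v) (r₀ : F)

/-- The quaternion with given coordinates. -/
def ofco (a b : Fˣ) (t : Fin 4 → F) : Qt a b := ⟨t 0, t 1, t 2, t 3⟩

omit [NumberField F] in
theorem szv_ofco_le {a b : Fˣ} (f : AbsoluteValue F ℝ) (t : Fin 4 → F) (r : ℝ)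
    (h : ∀ i, f (t i) ≤ r) : szv f (ofco a b t) ≤ r :=
  (szv_le_iff f).mpr ⟨h 0, h 1, h 2, h 3⟩

theorem exists_good4 (a b : Fˣ) : ∃ M₀ : ℕ, M₀ ≠ 0 ∧ ∀ M : ℕ, M ≠ 0 → M₀ ∣ M →
    ∃ (ρ : ℝ) (r₀ H₀ : ℕ), Good4 a b M ρ r₀ H₀ := by
  classical
  obtain ⟨da, hda, hda'⟩ := exists_den (a : F)
  obtain ⟨db, hdb, hdb'⟩ := exists_den (b : F)
  obtain ⟨dc, hdc, hdc'⟩ := exists_den ((a : F) * b)
  set r₀ : ℕ := da * db * dc with hr₀
  have hr0 : r₀ ≠ 0 := mul_ne_zero (mul_ne_zero hda hdb) hdc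
  have hr0' : (0 : ℝ) < r₀ := by exact_mod_cast Nat.pos_of_ne_zero hr0
  have hra : ∀ v : HeightOneSpectrum (𝓞 F), v.valuation F ((r₀ : F) * a) ≤ 1 := by
    intro v
    have e : (r₀ : F) * a = (db : F) * dc * ((da : F) * a) := by rw [hr₀]; push_cast; ring
    rw [e, map_mul, map_mul]
    exact mul_le_one' (mul_le_one' (val_nat_le v _) (val_nat_le v _)) (hda' v)
  have hrb : ∀ v : HeightOneSpectrum (𝓞 F), v.valuation F ((r₀ : F) * b) ≤ 1 := by
    intro v
    have e : (r₀ : F) * b = (da : F) * dc * ((db : F) * b) := by rw [hr₀]; push_cast; ring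
    rw [e, map_mul, map_mul]
    exact mul_le_one' (mul_le_one' (val_nat_le v _) (val_nat_le v _)) (hdb' v)
  have hrc : ∀ v : HeightOneSpectrum (𝓞 F), v.valuation F ((r₀ : F) * ((a : F) * b)) ≤ 1 := by
    intro v
    have e : (r₀ : F) * ((a : F) * b) = (da : F) * db * ((dc : F) * (a * b)) := by
      rw [hr₀]; push_cast; ring
    rw [e, map_mul, map_mul]
    exact mul_le_one' (mul_le_one' (val_nat_le v _) (val_nat_le v _)) (hdc' v)
  set C : ℝ := ∑ w : InfinitePlace F, Kc w.1 a b with hC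
  have hKc : ∀ w : InfinitePlace F, 0 ≤ Kc w.1 a b := fun w => zero_le_one.trans (one_le_Kc w.1)
  have hC0 : 0 ≤ C := Finset.sum_nonneg fun w _ => hKc w
  have hCw : ∀ w : InfinitePlace F, Kc w.1 a b ≤ C := fun w =>
    Finset.single_le_sum (f := fun w : InfinitePlace F => Kc w.1 a b) (fun w _ => hKc w)
      (Finset.mem_univ w)
  set ρ : ℝ := 1 / (4 * (1 + C)) with hρ
  have hρ0 : 0 < ρ := by positivity
  obtain ⟨H₀, hH0, hH⟩ := exists_near_int (F := F) (ρ / r₀) (by positivity)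
  refine ⟨H₀.factorial, Nat.factorial_ne_zero _, fun M hM hdvd => ⟨ρ, r₀, H₀, hM, hρ0, ?_, ?_, ?_, ?_⟩⟩
  · intro w
    have h1 : Kc w.1 a b * ρ ≤ (1 + C) * ρ :=
      mul_le_mul_of_nonneg_right ((hCw w).trans (by linarith)) hρ0.le
    refine h1.trans (le_of_eq ?_)
    rw [hρ]
    field_simp
  · intro v x y hy
    have hr1 : 0 ≤ pabv (.inl v) (r₀ : F) := (pabv (.inl v)).nonneg _
    set κ : ℝ := max 1 (max (pabv (.inl v) (a : F)) (max (pabv (.inl v) (b : F))
      (pabv (.inl v) ((a : F) * b)))) with hκ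
    have hκ1 : 1 ≤ κ := le_max_left _ _
    have h1 := szv_mul_le' (pabv (.inl v)) (pabv_nonarch v) hκ1
      ((le_max_left _ _).trans (le_max_right _ _))
      ((le_max_left _ _).trans ((le_max_right _ _).trans (le_max_right _ _)))
      ((le_max_right _ _).trans ((le_max_right _ _).trans (le_max_right _ _))) x y
    have h2 : κ * pabv (.inl v) (r₀ : F) ≤ 1 := by
      rw [hκ, max_mul_of_nonneg _ _ hr1, max_mul_of_nonneg _ _ hr1, max_mul_of_nonneg _ _ hr1,
        one_mul, ← map_mul, ← map_mul, ← map_mul, mul_comm (a : F) (r₀ : F),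
        mul_comm (b : F) (r₀ : F), mul_comm ((a : F) * b) (r₀ : F)]
      refine max_le ?_ (max_le ?_ (max_le ?_ ?_))
      · exact (pabv_inl_le_one v _).mpr (val_nat_le v _)
      · exact (pabv_inl_le_one v _).mpr (hra v)
      · exact (pabv_inl_le_one v _).mpr (hrb v)
      · exact (pabv_inl_le_one v _).mpr (hrc v)
    refine h1.trans ?_
    have hx := szv_nonneg (pabv (.inl v)) x
    calc κ * (szv (pabv (.inl v)) x * szv (pabv (.inl v)) y)
        ≤ κ * (szv (pabv (.inl v)) x * pabv (.inl v) (r₀ : F)) :=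
          mul_le_mul_of_nonneg_left (mul_le_mul_of_nonneg_left hy hx) (by linarith)
      _ = szv (pabv (.inl v)) x * (κ * pabv (.inl v) (r₀ : F)) := by ring
      _ ≤ szv (pabv (.inl v)) x * 1 := mul_le_mul_of_nonneg_left h2 hx
      _ = _ := mul_one _
  · intro m hm hm'
    exact (Nat.dvd_factorial hm hm').trans hdvd
  · intro θ
    have hr0F : (r₀ : F) ≠ 0 := by exact_mod_cast hr0
    let t : Fin 4 → F := ![θ.re, θ.imI, θ.imJ, θ.imK]
    choose y₁ hy₁ hy₁' using fun i : Fin 4 => exists_sub_int M (t i / r₀)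
    obtain ⟨m, hm, hm', y₂, hy₂⟩ := hH (fun i => t i / r₀ - y₁ i)
    let s : Fin 4 → F := fun i => r₀ * (m * y₁ i + (y₂ i : F))
    have hd : (m : F) • θ - ofco a b s =
        ofco a b (fun i => r₀ * (m * (t i / r₀ - y₁ i) - (y₂ i : F))) := by
      have e : ∀ i, (m : F) * t i - s i = r₀ * (m * (t i / r₀ - y₁ i) - (y₂ i : F)) := by
        intro i
        simp only [s]
        field_simp
        ring
      ext
      · exact e 0
      · exact e 1
      · exact e 2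
      · exact e 3
    refine ⟨m, hm, hm', ofco a b s, ?_, ?_, ?_⟩
    · have e : ∀ i, IntF (SM F M) (s i) := fun i =>
        (IntF.nat r₀).mul (((IntF.nat m).mul (hy₁ i)).add (IntF.ofInt (y₂ i)))
      exact ⟨e 0, e 1, e 2, e 3⟩
    · intro w
      rw [hd]
      refine szv_ofco_le _ _ _ fun i => ?_
      have h1 : w.1 ((r₀ : F) * (m * (t i / r₀ - y₁ i) - (y₂ i : F))) =
          w.1 (r₀ : F) * w.1 (m * (t i / r₀ - y₁ i) - (y₂ i : F)) := map_mul _ _ _
      rw [h1]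
      have h2 : w.1 (r₀ : F) ≤ r₀ := pabv_nat (.inr w) r₀
      have h3 := hy₂ w i
      calc w.1 (r₀ : F) * w.1 (m * (t i / r₀ - y₁ i) - (y₂ i : F)) ≤ r₀ * (ρ / r₀) :=
            mul_le_mul h2 h3 (w.1.nonneg _) hr0'.le
        _ = ρ := by field_simp
    · intro v hv
      rw [hd]
      refine szv_ofco_le _ _ _ fun i => ?_
      rw [map_mul]
      refine mul_le_of_le_one_right ((pabv (.inl v)).nonneg _) ?_
      rw [pabv_inl_le_one]
      refine ((v.valuation F).map_sub _ _).trans (max_le ?_ ?_)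
      · rw [map_mul]
        exact mul_le_one' (val_nat_le v _) (hy₁' i v hv)
      · exact v.valuation_le_one (y₂ i)

/-- Quaternions which are integral everywhere and bounded at infinity form a finite set. -/
theorem finite_bounded (a b : Fˣ) (B : ℝ) : {x : Qt a b | IntQ ∅ x ∧
    ∀ w : InfinitePlace F, szv w.1 x ≤ B}.Finite := by
  let E : Set F := {z : F | IsIntegral ℤ z ∧ ∀ φ : F →+* ℂ, ‖φ z‖ ≤ B}
  have hE : E.Finite := Embeddings.finite_of_norm_le F ℂ B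
  let g : Qt a b → F × F × F × F := fun x => (x.re, x.imI, x.imJ, x.imK)
  have hg : Function.Injective g := by
    intro x y h
    simp only [g, Prod.mk.injEq] at h
    exact QuaternionAlgebra.ext h.1 h.2.1 h.2.2.1 h.2.2.2
  have hfin : (E ×ˢ (E ×ˢ (E ×ˢ E))).Finite := hE.prod (hE.prod (hE.prod hE))
  refine (hfin.preimage hg.injOn).subset ?_
  rintro x ⟨⟨h1, h2, h3, h4⟩, hx⟩
  have key : ∀ z : F, IntF (∅ : Set (HeightOneSpectrum (𝓞 F))) z →
      (∀ w : InfinitePlace F, w z ≤ B) → z ∈ E := by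
    intro z hz hz'
    refine ⟨?_, fun φ => ?_⟩
    · obtain ⟨y, hy⟩ := HeightOneSpectrum.mem_integers_of_valuation_le_one F z
        (fun v => hz v (Set.notMem_empty v))
      rw [← hy]
      exact y.isIntegral_coe
    · have := hz' (InfinitePlace.mk φ)
      rwa [InfinitePlace.apply] at this
  exact ⟨key _ h1 fun w => (szv_re w.1 x).trans (hx w), key _ h2 fun w => (szv_imI w.1 x).trans (hx w),
    key _ h3 fun w => (szv_imJ w.1 x).trans (hx w), key _ h4 fun w => (szv_imK w.1 x).trans (hx w)⟩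

/-- The total size at infinity. -/
noncomputable def gsz {a b : Fˣ} (c : ℝ) (u x : Qt a b) : ℝ := ∑ w : InfinitePlace F, Nv w.1 c u x

theorem intQ_empty {a b : Fˣ} {M : ℕ} {x : Qt a b} (h : IntQ (SM F M) x)
    (h' : ∀ v ∈ SM F M, szv (pabv (.inl v)) x ≤ 1) : IntQ ∅ x := by
  have key : ∀ z : F, IntF (SM F M) z → (∀ v ∈ SM F M, pabv (.inl v) z ≤ 1) → IntF ∅ z := by
    intro z hz hz' v _
    by_cases hv : v ∈ SM F M
    · exact (pabv_inl_le_one v z).mp (hz' v hv)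
    · exact hz v hv
  exact ⟨key _ h.1 fun v hv => (szv_re _ x).trans (h' v hv),
    key _ h.2.1 fun v hv => (szv_imI _ x).trans (h' v hv),
    key _ h.2.2.1 fun v hv => (szv_imJ _ x).trans (h' v hv),
    key _ h.2.2.2 fun v hv => (szv_imK _ x).trans (h' v hv)⟩

/-- A shortest vector. -/
theorem exists_shortest {a b : Fˣ} {M : ℕ} (hM : M ≠ 0) {c : ℝ} (u : Qt a b) :
    ∃ x : Qt a b, x ≠ 0 ∧ IntQ (SM F M) x ∧ (∀ v ∈ SM F M, Nv (pabv (.inl v)) c u x ≤ 1) ∧
      ∀ z : Qt a b, z ≠ 0 → IntQ (SM F M) z → (∀ v ∈ SM F M, Nv (pabv (.inl v)) c u z ≤ 1) →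
        gsz c u x ≤ gsz c u z := by
  classical
  let A : Set (Qt a b) := {x | x ≠ 0 ∧ IntQ (SM F M) x ∧
    ∀ v ∈ SM F M, Nv (pabv (.inl v)) c u x ≤ 1}
  have hS := finite_SM (F := F) M hM
  have hM' : (M : F) ≠ 0 := by exact_mod_cast hM
  -- a power of `M` belongs to the set
  obtain ⟨k, hk⟩ : ∃ k : ℕ, ∀ v ∈ SM F M,
      (pabv (.inl v) (M : F)) ^ k * Nv (pabv (.inl v)) c u 1 ≤ 1 := by
    have h : ∀ v ∈ SM F M, ∀ᶠ k : ℕ in Filter.atTop,
        (pabv (.inl v) (M : F)) ^ k * Nv (pabv (.inl v)) c u 1 ≤ 1 := by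
      intro v hv
      have h1 : pabv (.inl v) (M : F) < 1 :=
        (pabv_inl_lt_one v _).mpr (lt_of_le_of_ne (val_nat_le v M) hv)
      have h2 := (tendsto_pow_atTop_nhds_zero_of_lt_one ((pabv (.inl v)).nonneg _) h1).mul_const
        (Nv (pabv (.inl v)) c u 1)
      rw [zero_mul] at h2
      exact h2.eventually (eventually_le_nhds one_pos)
    exact ((Filter.eventually_all_finite hS).mpr h).exists
  have hne : ((M : F) ^ k • (1 : Qt a b)) ∈ A := by
    refine ⟨smul_ne_zero (pow_ne_zero _ hM') one_ne_zero,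
      IntQ.smul ((IntF.nat M).pow k) IntQ.one, fun v hv => ?_⟩
    rw [Nv_smul, map_pow]
    exact hk v hv
  set x₀ : Qt a b := (M : F) ^ k • (1 : Qt a b) with hx₀
  have hfin : {x ∈ A | gsz c u x ≤ gsz c u x₀}.Finite := by
    refine (finite_bounded a b (gsz c u x₀)).subset ?_
    rintro x ⟨⟨_, h2, h3⟩, h4⟩
    refine ⟨intQ_empty h2 fun v hv => (szv_le_Nv _ c u x).trans (h3 v hv), fun w => ?_⟩
    refine (szv_le_Nv w.1 c u x).trans (le_trans ?_ h4)
    exact Finset.single_le_sum (f := fun w : InfinitePlace F => Nv w.1 c u x)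
      (fun w _ => Nv_nonneg w.1 c u x) (Finset.mem_univ w)
  obtain ⟨x, ⟨hxA, hx2⟩, hmin⟩ := Set.exists_min_image _ (fun x => gsz c u x) hfin
    ⟨x₀, hne, le_rfl⟩
  refine ⟨x, hxA.1, hxA.2.1, hxA.2.2, fun z h1 h2 h3 => ?_⟩
  by_cases hz : gsz c u z ≤ gsz c u x₀
  · exact hmin z ⟨⟨h1, h2, h3⟩, hz⟩
  · exact hx2.trans (not_le.mp hz).le

theorem gsz_pos {a b : Fˣ} (c : ℝ) (u : Qt a b) {x : Qt a b} (hx : x ≠ 0) : 0 < gsz c u x :=
  Finset.sum_pos (fun w _ => Nv_pos w.1 c u hx) Finset.univ_nonempty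

/-- The inverse of a shortest vector is integral outside `M`. -/
theorem shortest_unit {a b : Fˣ} {M : ℕ} {ρ : ℝ} {r₀ H₀ : ℕ} (hG : Good4 a b M ρ r₀ H₀)
    (hA : Adm a b (SM F M)) {c : ℝ} (hc : 0 < c) (u x : Qt a b) (hx0 : x ≠ 0)
    (hx1 : IntQ (SM F M) x) (hx2 : ∀ v ∈ SM F M, Nv (pabv (.inl v)) c u x ≤ 1)
    (hx3 : ∀ z : Qt a b, z ≠ 0 → IntQ (SM F M) z →
      (∀ v ∈ SM F M, Nv (pabv (.inl v)) c u z ≤ 1) → gsz c u x ≤ gsz c u z)
    (x' : Qt a b) (hxx : x * x' = 1) : IntQ (SM F M) x' := by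
  obtain ⟨m, hm, hm', y, hy1, hy2, hy3⟩ := hG.dir x'
  have hz : x * ((m : F) • x' - y) = (m : F) • (1 : Qt a b) - x * y := by
    rw [mul_sub, mul_smul_comm, hxx]
  have hz1 : IntQ (SM F M) (x * ((m : F) • x' - y)) := by
    rw [hz]
    exact (IntQ.smul (IntF.nat m) IntQ.one).sub (hx1.mul hA hy1)
  have h0 : x * ((m : F) • x' - y) = 0 := by
    by_contra hne
    have h1 : ∀ v ∈ SM F M, Nv (pabv (.inl v)) c u (x * ((m : F) • x' - y)) ≤ 1 := by
      intro v hv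
      refine le_trans (max_le ?_ ?_) (hx2 v hv)
      · exact (hG.int v _ _ (hy3 v hv)).trans (szv_le_Nv _ c u x)
      · rw [← mul_assoc]
        exact (mul_le_mul_of_nonneg_left (hG.int v _ _ (hy3 v hv)) hc.le).trans
          (cszv_le_Nv _ c u x)
    have h2 := hx3 _ hne hz1 h1
    have h3 : gsz c u (x * ((m : F) • x' - y)) ≤ 1 / 4 * gsz c u x := by
      unfold gsz
      rw [Finset.mul_sum]
      refine Finset.sum_le_sum fun w _ => ?_
      refine (Nv_mul_le_of w.1 (szv_mul_le w.1) (zero_le_one.trans (one_le_Kc w.1)) hc.le u x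
        ((m : F) • x' - y)).trans ?_
      have h4 := Nv_nonneg w.1 c u x
      have h5 := one_le_Kc w.1 (a := a) (b := b)
      calc Kc w.1 a b * (Nv w.1 c u x * szv w.1 ((m : F) • x' - y))
          ≤ Kc w.1 a b * (Nv w.1 c u x * ρ) :=
            mul_le_mul_of_nonneg_left (mul_le_mul_of_nonneg_left (hy2 w) h4) (by linarith)
        _ = Kc w.1 a b * ρ * Nv w.1 c u x := by ring
        _ ≤ _ := mul_le_mul_of_nonneg_right (hG.small w) h4
    have h6 := gsz_pos c u hx0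
    linarith
  rw [hz, sub_eq_zero] at h0
  have hmF : (m : F) ≠ 0 := by exact_mod_cast hm.ne'
  have hmi : IntF (SM F M) ((m : F)⁻¹) := by
    intro v hv
    have h1 : v.valuation F (M : F) = 1 := by
      by_contra h
      exact hv h
    rw [map_inv₀, val_eq_one_of_dvd (hG.dvd m hm hm') h1, inv_one]
  have h7 : x' = (m : F)⁻¹ • y := by
    have h8 : x * ((m : F)⁻¹ • y) = 1 := by
      rw [mul_smul_comm, ← h0, smul_smul, inv_mul_cancel₀ hmF, one_smul]
    have h9 : x * (x' - (m : F)⁻¹ • y) = 0 := by rw [mul_sub, hxx, h8, sub_self]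
    have h10 : cj x * x * (x' - (m : F)⁻¹ • y) = 0 := by rw [mul_assoc, h9, mul_zero]
    have hn : nrd x ≠ 0 := by
      intro hn
      have h11 : nrd (x * x') = 0 := by rw [nrd_mul, hn, zero_mul]
      rw [hxx, nrd_one] at h11
      exact one_ne_zero h11
    rw [cj_mul_self, Algebra.algebraMap_eq_smul_one, smul_mul_assoc, one_mul] at h10
    exact sub_eq_zero.mp ((smul_eq_zero.mp h10).resolve_left hn)
  rw [h7]
  exact IntQ.smul hmi hy1

/-- There is no test element for a shortest vector. -/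
theorem shortest_core {a b : Fˣ} {M : ℕ} {ρ : ℝ} {r₀ H₀ : ℕ} (hG : Good4 a b M ρ r₀ H₀)
    (hA : Adm a b (SM F M)) {c : ℝ} (hc : 0 < c) (u x : Qt a b) (hx0 : nrd x ≠ 0)
    (hx1 : IntQ (SM F M) x) (hx2 : ∀ v ∈ SM F M, Nv (pabv (.inl v)) c u x ≤ 1)
    (hx3 : ∀ z : Qt a b, z ≠ 0 → IntQ (SM F M) z →
      (∀ v ∈ SM F M, Nv (pabv (.inl v)) c u z ≤ 1) → gsz c u x ≤ gsz c u z)
    (θ : Qt a b) (h1 : ∀ w : InfinitePlace F, ∀ m : ℕ, 0 < m → m ≤ H₀ →
      Nv w.1 c u (x * ((m : F) • θ)) ≤ 1 / 4 * Nv w.1 c u x)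
    (h1' : ∀ v ∈ SM F M, ∀ m : ℕ, 0 < m → m ≤ H₀ →
      Nv (pabv (.inl v)) c u (x * ((m : F) • θ)) ≤ 1)
    (h2 : (∃ w : InfinitePlace F, ∀ m : ℕ, 0 < m → m ≤ H₀ → ρ < szv w.1 ((m : F) • θ)) ∨
      ∃ v ∈ SM F M, ∀ m : ℕ, 0 < m → m ≤ H₀ → 1 < szv (pabv (.inl v)) ((m : F) • θ)) :
    False := by
  obtain ⟨m, hm, hm', y, hy1, hy2, hy3⟩ := hG.dir θ
  have hx : x ≠ 0 := by
    rintro rfl
    exact hx0 (by simp [nrd])
  have hy0 : y ≠ 0 := by
    rintro rfl
    rcases h2 with ⟨w, hw⟩ | ⟨v, hv, hw⟩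
    · have := hy2 w
      rw [sub_zero] at this
      exact absurd (hw m hm hm') (not_lt.mpr this)
    · have := hy3 v hv
      rw [sub_zero] at this
      have h3 : pabv (.inl v) (r₀ : F) ≤ 1 := (pabv_inl_le_one v _).mpr (val_nat_le v _)
      exact absurd (hw m hm hm') (not_lt.mpr (this.trans h3))
  have hxy0 : x * y ≠ 0 := by
    intro h
    have h10 : cj x * x * y = 0 := by rw [mul_assoc, h, mul_zero]
    rw [cj_mul_self, Algebra.algebraMap_eq_smul_one, smul_mul_assoc, one_mul] at h10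
    exact hy0 ((smul_eq_zero.mp h10).resolve_left hx0)
  have e : x * y = x * ((m : F) • θ) - x * ((m : F) • θ - y) := by
    rw [← mul_sub, sub_sub_cancel]
  have h3 : ∀ v ∈ SM F M, Nv (pabv (.inl v)) c u (x * y) ≤ 1 := by
    intro v hv
    rw [e]
    refine (Nv_sub_le_max _ (pabv_nonarch v) hc.le _ _ _).trans (max_le (h1' v hv m hm hm') ?_)
    refine le_trans (max_le ?_ ?_) (hx2 v hv)
    · exact (hG.int v _ _ (hy3 v hv)).trans (szv_le_Nv _ c u x)
    · rw [← mul_assoc]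
      exact (mul_le_mul_of_nonneg_left (hG.int v _ _ (hy3 v hv)) hc.le).trans
        (cszv_le_Nv _ c u x)
  have h4 := hx3 _ hxy0 (hx1.mul hA hy1) h3
  have h5 : gsz c u (x * y) ≤ 1 / 2 * gsz c u x := by
    unfold gsz
    rw [Finset.mul_sum]
    refine Finset.sum_le_sum fun w _ => ?_
    rw [e]
    refine (Nv_sub_le w.1 hc.le _ _ _).trans ?_
    have h6 := h1 w m hm hm'
    have h7 : Nv w.1 c u (x * ((m : F) • θ - y)) ≤ 1 / 4 * Nv w.1 c u x := by
      refine (Nv_mul_le_of w.1 (szv_mul_le w.1) (zero_le_one.trans (one_le_Kc w.1)) hc.le u x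
        ((m : F) • θ - y)).trans ?_
      have h4 := Nv_nonneg w.1 c u x
      have h5 := one_le_Kc w.1 (a := a) (b := b)
      calc Kc w.1 a b * (Nv w.1 c u x * szv w.1 ((m : F) • θ - y))
          ≤ Kc w.1 a b * (Nv w.1 c u x * ρ) :=
            mul_le_mul_of_nonneg_left (mul_le_mul_of_nonneg_left (hy2 w) h4) (by linarith)
        _ = Kc w.1 a b * ρ * Nv w.1 c u x := by ring
        _ ≤ _ := mul_le_mul_of_nonneg_right (hG.small w) h4
    linarith
  have h8 := gsz_pos c u hx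
  linarith

end minimal

end Vale.Agent.P011.MPQ.FG
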