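import Vale.Agent.P011.MPQ.FGDir

/-!
Finite and infinite places and weak approximation.
-/

open NumberField IsDedekindDomain

namespace Vale.Agent.P011.MPQ.FG

section places

variable {F : Type} [Field F] [NumberField F]

/-- The absolute value of a place. -/
noncomputable def pabv : HeightOneSpectrum (𝓞 F) ⊕ InfinitePlace F → AbsoluteValue F ℝ
  | .inl v => NumberField.HeightOneSpectrum.adicAbv F v
  | .inr w => w.1

theorem pabv_inr (w : InfinitePlace F) (x : F) : pabv (.inr w) x = w x := rfl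

theorem pabv_inl_le_one (v : HeightOneSpectrum (𝓞 F)) (x : F) :
    pabv (.inl v) x ≤ 1 ↔ v.valuation F x ≤ 1 := adicAbv_le_one v x

theorem pabv_inl_lt_one (v : HeightOneSpectrum (𝓞 F)) (x : F) :
    pabv (.inl v) x < 1 ↔ v.valuation F x < 1 := Arith.plAbv_lt_one v x

theorem pabv_nonarch (v : HeightOneSpectrum (𝓞 F)) : IsNonarchimedean (pabv (F := F) (.inl v)) :=
  NumberField.HeightOneSpectrum.isNonarchimedean_adicAbv F v

theorem pabv_nat (p : HeightOneSpectrum (𝓞 F) ⊕ InfinitePlace F) (n : ℕ) :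
    pabv p (n : F) ≤ n := by
  induction n with
  | zero => simp
  | succ n ih =>
    push_cast
    refine ((pabv p).add_le _ _).trans ?_
    rw [map_one]
    linarith

theorem pabv_inequiv (p q : HeightOneSpectrum (𝓞 F) ⊕ InfinitePlace F) (h : p ≠ q) :
    ¬ (pabv p).IsEquiv (pabv q) := by
  intro he
  have key := (AbsoluteValue.isEquiv_iff_lt_one_iff).mp he
  have hhalf : ∀ (v : HeightOneSpectrum (𝓞 F)), ¬ pabv (.inl v) (1 / 2 : F) < 1 := by
    intro v
    rw [pabv_inl_lt_one, not_lt, map_div₀, map_one]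
    have h2 : v.valuation F (2 : F) ≤ 1 := by exact_mod_cast val_nat_le v 2
    have h0 : v.valuation F (2 : F) ≠ 0 := (Valuation.ne_zero_iff _).mpr two_ne_zero
    rw [one_div, one_le_inv₀ (zero_lt_iff.mpr h0)]
    exact h2
  have hhalf' : ∀ w : InfinitePlace F, pabv (.inr w) (1 / 2 : F) < 1 := by
    intro w
    rw [pabv_inr, map_div₀, map_one]
    have : w (2 : F) = 2 := by
      have := InfinitePlace.norm_embedding_eq w (2 : F)
      rw [← this, map_ofNat]
      norm_num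
    rw [this]
    norm_num
  rcases p with v | φ <;> rcases q with v' | φ'
  · have hne : v ≠ v' := fun h' => h (by rw [h'])
    have ⟨x, hx1, hx2⟩ : ∃ x : 𝓞 F, x ∈ v.asIdeal ∧ x ∉ v'.asIdeal := by
      by_contra! H
      exact hne (HeightOneSpectrum.ext_iff.mpr (v.isMaximal.eq_of_le v'.isPrime.ne_top H))
    have h1 : v.valuation F (x : F) < 1 := by
      rw [HeightOneSpectrum.valuation_of_algebraMap]
      exact (v.intValuation_lt_one_iff_mem x).mpr hx1
    have h2 : ¬ v'.valuation F (x : F) < 1 := by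
      rw [HeightOneSpectrum.valuation_of_algebraMap]
      exact fun h' => hx2 ((v'.intValuation_lt_one_iff_mem x).mp h')
    rw [← pabv_inl_lt_one] at h1 h2
    exact h2 ((key _).mp h1)
  · exact hhalf v ((key _).mpr (hhalf' φ'))
  · exact hhalf v' ((key _).mp (hhalf' φ))
  · apply h
    rw [InfinitePlace.eq_iff_isEquiv.mpr he]

theorem pabv_nontrivial (p : HeightOneSpectrum (𝓞 F) ⊕ InfinitePlace F) :
    (pabv p).IsNontrivial := by
  rcases p with v | w
  · exact Arith.plAbv_nontrivial (.inl v)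
  · refine ⟨2, two_ne_zero, ?_⟩
    have : w (2 : F) = 2 := by
      have := InfinitePlace.norm_embedding_eq w (2 : F)
      rw [← this, map_ofNat]
      norm_num
    rw [pabv_inr, this]
    norm_num

/-- Weak approximation. -/
theorem approxP (T : Set (HeightOneSpectrum (𝓞 F) ⊕ InfinitePlace F)) (hT : T.Finite)
    (z : HeightOneSpectrum (𝓞 F) ⊕ InfinitePlace F → F)
    (δ : HeightOneSpectrum (𝓞 F) ⊕ InfinitePlace F → ℝ)
    (hδ : ∀ p, 0 < δ p) : ∃ f : F, ∀ p ∈ T, pabv p (f - z p) < δ p := by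
  have _hfin : Finite T := hT
  have hd := AbsoluteValue.denseRange_algebraMap_pi (F := F)
    (v := fun p : T => pabv (p : HeightOneSpectrum (𝓞 F) ⊕ InfinitePlace F))
    (fun p => pabv_nontrivial _) (fun p q hpq => pabv_inequiv _ _ (fun h => hpq (Subtype.ext h)))
  have _hft : Fintype T := Fintype.ofFinite T
  by_cases hne : Nonempty T
  · obtain ⟨p0, hp0⟩ := Finite.exists_min
      (fun p : T => δ (p : HeightOneSpectrum (𝓞 F) ⊕ InfinitePlace F))
    obtain ⟨f, hf⟩ := (Metric.denseRange_iff.mp hd)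
      (fun p : T => WithAbs.toAbs _ (z p)) (δ p0) (hδ _)
    refine ⟨f, fun p hp => ?_⟩
    rw [dist_pi_lt_iff (hδ _)] at hf
    have h1 := hf ⟨p, hp⟩
    rw [dist_comm, dist_eq_norm] at h1
    refine lt_of_lt_of_le ?_ (hp0 ⟨p, hp⟩)
    exact h1
  · exact ⟨0, fun p hp => absurd ⟨⟨p, hp⟩⟩ hne⟩

/-- A scalar of prescribed size at one place which is small at the other ones. -/
theorem exists_scalar (p₀ : HeightOneSpectrum (𝓞 F) ⊕ InfinitePlace F) : ∃ A : ℝ, 1 ≤ A ∧
    ∀ (T : Set (HeightOneSpectrum (𝓞 F) ⊕ InfinitePlace F)) (_ : T.Finite) (s : ℝ) (_ : 0 < s)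
    (δ : HeightOneSpectrum (𝓞 F) ⊕ InfinitePlace F → ℝ) (_ : ∀ p, 0 < δ p),
    ∃ τ : F, s ≤ pabv p₀ τ ∧ pabv p₀ τ ≤ A * s ∧ ∀ p ∈ T, p ≠ p₀ → pabv p τ ≤ δ p := by
  classical
  obtain ⟨x, hx⟩ := (pabv_nontrivial p₀).exists_abv_gt_one
  set y := pabv p₀ x with hy
  have hx0 : x ≠ 0 := by
    rintro rfl
    rw [map_zero] at hy
    rw [hy] at hx
    linarith
  refine ⟨3 * y, by linarith, fun T hT s hs δ hδ => ?_⟩
  obtain ⟨n, hn1, hn2⟩ := exists_mem_Ioc_zpow (x := 2 * s) (y := y) (by linarith) hx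
  -- 2 s ≤ y ^ (n + 1) ≤ 2 s y
  have e : pabv p₀ (x ^ (n + 1)) = y ^ (n + 1) := by rw [map_zpow₀]
  have hy0 : 0 < y := by linarith
  have h3 : y ^ (n + 1) ≤ 2 * s * y := by
    rw [zpow_add_one₀ hy0.ne']
    exact mul_le_mul_of_nonneg_right hn1.le hy0.le
  obtain ⟨τ, hτ⟩ := approxP (insert p₀ T) (hT.insert p₀)
    (fun p => if p = p₀ then x ^ (n + 1) else 0) (fun p => if p = p₀ then s else δ p)
    (fun p => by by_cases hp : p = p₀ <;> simp [hp, hs, hδ])
  refine ⟨τ, ?_, ?_, fun p hp hne => ?_⟩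
  · have h1 := hτ p₀ (Set.mem_insert _ _)
    simp only [if_true] at h1
    have h4 : y ^ (n + 1) ≤ pabv p₀ τ + pabv p₀ (τ - x ^ (n + 1)) := by
      rw [← e]
      have : x ^ (n + 1) = τ - (τ - x ^ (n + 1)) := by ring
      calc pabv p₀ (x ^ (n + 1)) = pabv p₀ (τ - (τ - x ^ (n + 1))) := by rw [← this]
        _ ≤ _ := (pabv p₀).sub_le_add _ _
    linarith
  · have h1 := hτ p₀ (Set.mem_insert _ _)
    simp only [if_true] at h1
    have h4 : pabv p₀ τ ≤ pabv p₀ (τ - x ^ (n + 1)) + y ^ (n + 1) := by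
      rw [← e]
      have : τ = (τ - x ^ (n + 1)) + x ^ (n + 1) := by ring
      calc pabv p₀ τ = pabv p₀ ((τ - x ^ (n + 1)) + x ^ (n + 1)) := by rw [← this]
        _ ≤ _ := (pabv p₀).add_le _ _
    nlinarith
  · have h1 := hτ p (Set.mem_insert_of_mem _ hp)
    simp only [if_neg hne, sub_zero] at h1
    exact h1.le

end places

end Vale.Agent.P011.MPQ.FG
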