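import Vale.Agent.P011.MPQ.FGMin

/-!
Shortest vectors are reduced.
-/

open NumberField IsDedekindDomain

namespace Vale.Agent.P011.MPQ.FG

section reduced

variable {F : Type} [Field F] [NumberField F]

/-- The relevant places. -/
def TM (F : Type) [Field F] [NumberField F] (M : ℕ) :
    Set (HeightOneSpectrum (𝓞 F) ⊕ InfinitePlace F) := Sum.inl '' (SM F M) ∪ Set.range Sum.inr

theorem finite_TM (M : ℕ) (hM : M ≠ 0) : (TM F M).Finite :=
  ((finite_SM M hM).image _).union (Set.finite_range _)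

/-- The vector is a shortest one. -/
structure Shortest {a b : Fˣ} (M : ℕ) (c : ℝ) (u x : Qt a b) : Prop where
  ne : nrd x ≠ 0
  int : IntQ (SM F M) x
  le : ∀ v ∈ SM F M, Nv (pabv (.inl v)) c u x ≤ 1
  min : ∀ z : Qt a b, z ≠ 0 → IntQ (SM F M) z →
    (∀ v ∈ SM F M, Nv (pabv (.inl v)) c u z ≤ 1) → gsz c u x ≤ gsz c u z

theorem exists_lower (f : AbsoluteValue F ℝ) (H : ℕ) : ∃ μ : ℝ, 0 < μ ∧
    ∀ m : ℕ, 0 < m → m ≤ H → μ ≤ f (m : F) := by
  induction H with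
  | zero => exact ⟨1, one_pos, fun m hm hm' => absurd hm (by omega)⟩
  | succ H ih =>
    obtain ⟨μ, hμ, h⟩ := ih
    have h1 : 0 < f ((H + 1 : ℕ) : F) := f.pos (by exact_mod_cast Nat.succ_ne_zero H)
    refine ⟨min μ (f ((H + 1 : ℕ) : F)), lt_min hμ h1, fun m hm hm' => ?_⟩
    rcases Nat.lt_or_ge H m with h2 | h2
    · have : m = H + 1 := by omega
      rw [this]
      exact min_le_right _ _
    · exact (min_le_left _ _).trans (h m hm h2)

theorem shortest_bound {a b : Fˣ} {M : ℕ} {ρ : ℝ} {r₀ H₀ : ℕ} (hG : Good4 a b M ρ r₀ H₀)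
    (hA : Adm a b (SM F M)) (p₀ : HeightOneSpectrum (𝓞 F) ⊕ InfinitePlace F) (hp₀ : p₀ ∈ TM F M) :
    ∃ C : ℝ, 1 ≤ C ∧ ∀ (c : ℝ) (_ : 0 < c) (u x : Qt a b), Shortest M c u x →
      Nv (pabv p₀) c u x ^ 2 ≤ C * (pabv p₀ (nrd x) * Wv (pabv p₀) c u) := by
  classical
  obtain ⟨A, hA1, hA2⟩ := exists_scalar p₀
  obtain ⟨μ, hμ, hμ'⟩ := exists_lower (pabv p₀) H₀
  have hH0 : 0 < H₀ := by
    obtain ⟨m, hm, hm', -⟩ := hG.dir 0
    omega
  have hH0' : (0 : ℝ) < H₀ := by exact_mod_cast hH0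
  set thr : ℝ := max ρ 1 with hthr
  have hthr1 : 1 ≤ thr := le_max_right _ _
  have hthrρ : ρ ≤ thr := le_max_left _ _
  have hthr0 : 0 < thr := by linarith
  refine ⟨max 1 (8 * A * thr * H₀ / μ), le_max_left _ _, fun c hc u x hx => ?_⟩
  by_contra hcon
  rw [not_le] at hcon
  have hx0 : x ≠ 0 := by
    rintro rfl
    exact hx.ne (by simp [nrd])
  have hN : ∀ p : HeightOneSpectrum (𝓞 F) ⊕ InfinitePlace F, 0 < Nv (pabv p) c u x := fun p =>
    Nv_pos (pabv p) c u hx0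
  obtain ⟨θ₀, κ, hκ, hθ1, hθ2⟩ := exists_test (pabv p₀) hc u x hx0
  set N₀ := Nv (pabv p₀) c u x with hN₀
  have hN0 : 0 < N₀ := hN p₀
  set s : ℝ := 2 * thr / (N₀ * μ * κ) with hs
  have hs0 : 0 < s := by positivity
  have hT := finite_TM (F := F) M hG.M0
  obtain ⟨τ, hτ1, hτ2, hτ3⟩ := hA2 (TM F M) hT s hs0
    (fun p => Nv (pabv p) c u x / (4 * H₀ * (1 + Nv (pabv p) c u (x * θ₀))))
    (fun p => div_pos (hN p) (mul_pos (by positivity)
      (by have := Nv_nonneg (pabv p) c u (x * θ₀); linarith)))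
  -- the scaled test element
  have hmul : ∀ (p : HeightOneSpectrum (𝓞 F) ⊕ InfinitePlace F) (m : ℕ),
      Nv (pabv p) c u (x * ((m : F) • (τ • θ₀))) =
        pabv p (m : F) * (pabv p τ * Nv (pabv p) c u (x * θ₀)) := by
    intro p m
    rw [mul_smul_comm, mul_smul_comm, Nv_smul, Nv_smul]
  have hothers : ∀ p ∈ TM F M, ∀ m : ℕ, 0 < m → m ≤ H₀ →
      Nv (pabv p) c u (x * ((m : F) • (τ • θ₀))) ≤ 1 / 4 * Nv (pabv p) c u x := by
    intro p hp m hm hm'
    rw [hmul]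
    have hmH : pabv p (m : F) ≤ H₀ := (pabv_nat p m).trans (by exact_mod_cast hm')
    have hn := Nv_nonneg (pabv p) c u (x * θ₀)
    by_cases hpp : p = p₀
    · subst hpp
      -- the main place
      have h1 : pabv p τ * Nv (pabv p) c u (x * θ₀) ≤
          A * s * (κ * (pabv p (nrd x) * Wv (pabv p) c u)) :=
        mul_le_mul hτ2 hθ2 hn (by positivity)
      have h2 : pabv p (m : F) * (pabv p τ * Nv (pabv p) c u (x * θ₀)) ≤
          H₀ * (A * s * (κ * (pabv p (nrd x) * Wv (pabv p) c u))) :=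
        mul_le_mul hmH h1 (mul_nonneg ((pabv p).nonneg _) hn) hH0'.le
      refine h2.trans ?_
      have h3 : (8 * A * thr * H₀ / μ) * (pabv p (nrd x) * Wv (pabv p) c u) ≤ N₀ ^ 2 := by
        refine le_trans (mul_le_mul_of_nonneg_right (le_max_right 1 _) ?_) hcon.le
        exact mul_nonneg ((pabv p).nonneg _) (zero_le_one.trans (one_le_Wv _ _ _))
      have h4 : H₀ * (A * s * (κ * (pabv p (nrd x) * Wv (pabv p) c u))) =
          (8 * A * thr * H₀ / μ) * (pabv p (nrd x) * Wv (pabv p) c u) / (4 * N₀) := by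
        rw [hs]
        field_simp
        ring
      rw [h4, div_le_iff₀ (by positivity)]
      calc (8 * A * thr * H₀ / μ) * (pabv p (nrd x) * Wv (pabv p) c u) ≤ N₀ ^ 2 := h3
        _ = 1 / 4 * N₀ * (4 * N₀) := by ring
    · have h1 := hτ3 p hp hpp
      have hpos : 0 < 4 * (H₀ : ℝ) * (1 + Nv (pabv p) c u (x * θ₀)) := by positivity
      rw [le_div_iff₀ hpos] at h1
      have h2 : pabv p (m : F) * (pabv p τ * Nv (pabv p) c u (x * θ₀)) ≤
          H₀ * (pabv p τ * (1 + Nv (pabv p) c u (x * θ₀))) := by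
        refine mul_le_mul hmH (mul_le_mul_of_nonneg_left (by linarith) ((pabv p).nonneg _))
          (mul_nonneg ((pabv p).nonneg _) hn) hH0'.le
      linarith
  have hlarge : ∀ m : ℕ, 0 < m → m ≤ H₀ → thr < szv (pabv p₀) ((m : F) • (τ • θ₀)) := by
    intro m hm hm'
    rw [szv_smul, szv_smul, hθ1]
    have h1 : μ * (s * (κ * N₀)) ≤ pabv p₀ (m : F) * (pabv p₀ τ * (κ * N₀)) :=
      mul_le_mul (hμ' m hm hm') (mul_le_mul_of_nonneg_right hτ1 (by positivity)) (by positivity)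
        ((pabv p₀).nonneg _)
    have h2 : μ * (s * (κ * N₀)) = 2 * thr := by
      rw [hs]
      field_simp
    linarith
  refine shortest_core hG hA hc u x hx.ne hx.int hx.le hx.min (τ • θ₀) ?_ ?_ ?_
  · intro w m hm hm'
    exact hothers (.inr w) (Or.inr ⟨w, rfl⟩) m hm hm'
  · intro v hv m hm hm'
    have h1 := hothers (.inl v) (Or.inl ⟨v, hv, rfl⟩) m hm hm'
    have h2 := hx.le v hv
    linarith
  · rcases hp₀ with ⟨v, hv, rfl⟩ | ⟨w, rfl⟩
    · exact Or.inr ⟨v, hv, fun m hm hm' => lt_of_le_of_lt hthr1 (hlarge m hm hm')⟩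
    · exact Or.inl ⟨w, fun m hm hm' => lt_of_le_of_lt hthrρ (hlarge m hm hm')⟩

end reduced

end Vale.Agent.P011.MPQ.FG
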