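import Vale.Agent.P011.MPQ.IDefs

/-!
Sizes of quaternions with respect to an absolute value.
-/

open NumberField IsDedekindDomain

namespace Vale.Agent.P011.MPQ.FG

section size

variable {F : Type} [Field F] {a b : Fˣ} (f : AbsoluteValue F ℝ)

/-- The size of a quaternion: the largest of the coordinates. -/
noncomputable def szv (x : Qt a b) : ℝ := max (max (f x.re) (f x.imI)) (max (f x.imJ) (f x.imK))

theorem szv_le_iff {x : Qt a b} {r : ℝ} :
    szv f x ≤ r ↔ f x.re ≤ r ∧ f x.imI ≤ r ∧ f x.imJ ≤ r ∧ f x.imK ≤ r := by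
  simp only [szv, max_le_iff, and_assoc]

theorem szv_re (x : Qt a b) : f x.re ≤ szv f x := ((szv_le_iff f).mp le_rfl).1
theorem szv_imI (x : Qt a b) : f x.imI ≤ szv f x := ((szv_le_iff f).mp le_rfl).2.1
theorem szv_imJ (x : Qt a b) : f x.imJ ≤ szv f x := ((szv_le_iff f).mp le_rfl).2.2.1
theorem szv_imK (x : Qt a b) : f x.imK ≤ szv f x := ((szv_le_iff f).mp le_rfl).2.2.2

theorem szv_nonneg (x : Qt a b) : 0 ≤ szv f x := (f.nonneg _).trans (szv_re f x)

theorem szv_pos {x : Qt a b} (hx : x ≠ 0) : 0 < szv f x := by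
  rcases (szv_nonneg f x).lt_or_eq with h | h
  · exact h
  · exfalso
    apply hx
    obtain ⟨h1, h2, h3, h4⟩ := (szv_le_iff f).mp h.symm.le
    have e : ∀ y : F, f y ≤ 0 → y = 0 := fun y hy => f.eq_zero.mp (le_antisymm hy (f.nonneg y))
    ext
    · simpa using e _ h1
    · simpa using e _ h2
    · simpa using e _ h3
    · simpa using e _ h4

theorem szv_smul (c : F) (x : Qt a b) : szv f (c • x) = f c * szv f x := by
  have h := f.nonneg c
  simp only [szv, QuaternionAlgebra.re_smul, QuaternionAlgebra.imI_smul, QuaternionAlgebra.imJ_smul,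
    QuaternionAlgebra.imK_smul, smul_eq_mul, map_mul]
  rw [mul_max_of_nonneg _ _ h, mul_max_of_nonneg _ _ h, mul_max_of_nonneg _ _ h]

theorem szv_cj (x : Qt a b) : szv f (cj x) = szv f x := by
  simp only [szv, cj_re, cj_imI, cj_imJ, cj_imK, AbsoluteValue.map_neg]

theorem szv_neg (x : Qt a b) : szv f (-x) = szv f x := by
  simp [szv]

theorem szv_one : szv f (1 : Qt a b) = 1 := by
  simp [szv]

theorem szv_zero : szv f (0 : Qt a b) = 0 := by
  simp [szv]

theorem szv_add_le (x y : Qt a b) : szv f (x + y) ≤ szv f x + szv f y := by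
  rw [szv_le_iff]
  refine ⟨?_, ?_, ?_, ?_⟩
  · exact (f.add_le _ _).trans (add_le_add (szv_re f x) (szv_re f y))
  · exact (f.add_le _ _).trans (add_le_add (szv_imI f x) (szv_imI f y))
  · exact (f.add_le _ _).trans (add_le_add (szv_imJ f x) (szv_imJ f y))
  · exact (f.add_le _ _).trans (add_le_add (szv_imK f x) (szv_imK f y))

theorem szv_sub_le (x y : Qt a b) : szv f (x - y) ≤ szv f x + szv f y := by
  rw [sub_eq_add_neg]
  exact (szv_add_le f x (-y)).trans (by rw [szv_neg])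

theorem szv_add_le_max (hf : IsNonarchimedean f) (x y : Qt a b) :
    szv f (x + y) ≤ max (szv f x) (szv f y) := by
  rw [szv_le_iff]
  refine ⟨?_, ?_, ?_, ?_⟩
  · exact (hf _ _).trans (max_le_max (szv_re f x) (szv_re f y))
  · exact (hf _ _).trans (max_le_max (szv_imI f x) (szv_imI f y))
  · exact (hf _ _).trans (max_le_max (szv_imJ f x) (szv_imJ f y))
  · exact (hf _ _).trans (max_le_max (szv_imK f x) (szv_imK f y))

/-- The constant of the algebra. -/
noncomputable def Kc (a b : Fˣ) : ℝ := 4 * ((1 + f (a : F)) * (1 + f (b : F)))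

theorem one_le_Kc : 1 ≤ Kc f a b := by
  have h1 := f.nonneg (a : F)
  have h2 := f.nonneg (b : F)
  have : 0 ≤ f (a : F) * f (b : F) := mul_nonneg h1 h2
  unfold Kc
  nlinarith

theorem four_terms {t₁ t₂ t₃ t₄ : F} {B : ℝ} (h1 : f t₁ ≤ B) (h2 : f t₂ ≤ B) (h3 : f t₃ ≤ B)
    (h4 : f t₄ ≤ B) : f (t₁ + t₂ + t₃ + t₄) ≤ 4 * B := by
  refine (f.add_le _ _).trans ?_
  have h := (f.add_le (t₁ + t₂) t₃)
  have h' := (f.add_le t₁ t₂)
  linarith

theorem coef_one {t : F} {X : ℝ} (hX : 0 ≤ X) (h : f t ≤ X) :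
    f t ≤ (1 + f (a : F)) * (1 + f (b : F)) * X := by
  have h1 := f.nonneg (a : F)
  have h2 := f.nonneg (b : F)
  have h3 : 0 ≤ f (a : F) * f (b : F) := mul_nonneg h1 h2
  refine h.trans (le_mul_of_one_le_left hX ?_)
  nlinarith

theorem coef_a {t : F} {X : ℝ} (hX : 0 ≤ X) (h : f t ≤ X) :
    f (a * t) ≤ (1 + f (a : F)) * (1 + f (b : F)) * X := by
  have h1 := f.nonneg (a : F)
  have h2 := f.nonneg (b : F)
  have h3 : 0 ≤ f (a : F) * f (b : F) := mul_nonneg h1 h2
  rw [map_mul]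
  refine (mul_le_mul_of_nonneg_left h h1).trans (mul_le_mul_of_nonneg_right ?_ hX)
  nlinarith

theorem coef_b {t : F} {X : ℝ} (hX : 0 ≤ X) (h : f t ≤ X) :
    f (b * t) ≤ (1 + f (a : F)) * (1 + f (b : F)) * X := by
  have h1 := f.nonneg (a : F)
  have h2 := f.nonneg (b : F)
  have h3 : 0 ≤ f (a : F) * f (b : F) := mul_nonneg h1 h2
  rw [map_mul]
  refine (mul_le_mul_of_nonneg_left h h2).trans (mul_le_mul_of_nonneg_right ?_ hX)
  nlinarith

theorem coef_ab {t : F} {X : ℝ} (hX : 0 ≤ X) (h : f t ≤ X) :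
    f (a * b * t) ≤ (1 + f (a : F)) * (1 + f (b : F)) * X := by
  have h1 := f.nonneg (a : F)
  have h2 := f.nonneg (b : F)
  have h3 : 0 ≤ f (a : F) * f (b : F) := mul_nonneg h1 h2
  rw [map_mul, map_mul]
  refine (mul_le_mul_of_nonneg_left h h3).trans (mul_le_mul_of_nonneg_right ?_ hX)
  nlinarith

theorem szv_mul_le (x y : Qt a b) : szv f (x * y) ≤ Kc f a b * (szv f x * szv f y) := by
  have hx := szv_nonneg f x
  have hy := szv_nonneg f y
  have hX : 0 ≤ szv f x * szv f y := mul_nonneg hx hy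
  obtain ⟨x0, x1, x2, x3⟩ := (szv_le_iff f).mp (le_refl (szv f x))
  obtain ⟨y0, y1, y2, y3⟩ := (szv_le_iff f).mp (le_refl (szv f y))
  have m : ∀ {s t : F}, f s ≤ szv f x → f t ≤ szv f y → f (s * t) ≤ szv f x * szv f y := by
    intro s t hs ht
    rw [map_mul]
    exact mul_le_mul hs ht (f.nonneg _) hx
  have m' : ∀ {s t : F}, f s ≤ szv f x → f t ≤ szv f y → f (-(s * t)) ≤ szv f x * szv f y := by
    intro s t hs ht
    rw [AbsoluteValue.map_neg]
    exact m hs ht
  have eK : ∀ z : ℝ, Kc f a b * z = 4 * ((1 + f (a : F)) * (1 + f (b : F)) * z) := by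
    intro z; unfold Kc; ring
  rw [szv_le_iff, eK]
  refine ⟨?_, ?_, ?_, ?_⟩
  · have e : (x * y).re = x.re * y.re + a * (x.imI * y.imI) + b * (x.imJ * y.imJ) +
        a * b * (-(x.imK * y.imK)) := by rw [QuaternionAlgebra.re_mul]; ring
    rw [e]
    exact four_terms f (coef_one f hX (m x0 y0)) (coef_a f hX (m x1 y1)) (coef_b f hX (m x2 y2))
      (coef_ab f hX (m' x3 y3))
  · have e : (x * y).imI = x.re * y.imI + x.imI * y.re + b * (-(x.imJ * y.imK)) +
        b * (x.imK * y.imJ) := by rw [QuaternionAlgebra.imI_mul]; ring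
    rw [e]
    exact four_terms f (coef_one f hX (m x0 y1)) (coef_one f hX (m x1 y0)) (coef_b f hX (m' x2 y3))
      (coef_b f hX (m x3 y2))
  · have e : (x * y).imJ = x.re * y.imJ + a * (x.imI * y.imK) + x.imJ * y.re +
        a * (-(x.imK * y.imI)) := by rw [QuaternionAlgebra.imJ_mul]; ring
    rw [e]
    exact four_terms f (coef_one f hX (m x0 y2)) (coef_a f hX (m x1 y3)) (coef_one f hX (m x2 y0))
      (coef_a f hX (m' x3 y1))
  · have e : (x * y).imK = x.re * y.imK + x.imI * y.imJ + (-(x.imJ * y.imI)) +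
        x.imK * y.re := by rw [QuaternionAlgebra.imK_mul]; ring
    rw [e]
    exact four_terms f (coef_one f hX (m x0 y3)) (coef_one f hX (m x1 y2))
      (coef_one f hX (m' x2 y1)) (coef_one f hX (m x3 y0))

theorem nrd_le (x : Qt a b) : f (nrd x) ≤ Kc f a b * (szv f x * szv f x) := by
  have h := szv_mul_le f x (cj x)
  rw [szv_cj, mul_cj] at h
  refine le_trans ?_ h
  have h1 := szv_re f (algebraMap F (Qt a b) (nrd x))
  simpa using h1

/-- Nonarchimedean absolute values: a better constant. -/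
theorem szv_mul_le' (hf : IsNonarchimedean f) {κ : ℝ} (h1 : 1 ≤ κ) (ha : f (a : F) ≤ κ)
    (hb : f (b : F) ≤ κ) (hab : f ((a : F) * b) ≤ κ)
    (x y : Qt a b) : szv f (x * y) ≤ κ * (szv f x * szv f y) := by
  have hx := szv_nonneg f x
  have hy := szv_nonneg f y
  have hX : 0 ≤ szv f x * szv f y := mul_nonneg hx hy
  obtain ⟨x0, x1, x2, x3⟩ := (szv_le_iff f).mp (le_refl (szv f x))
  obtain ⟨y0, y1, y2, y3⟩ := (szv_le_iff f).mp (le_refl (szv f y))
  have m : ∀ {s t : F}, f s ≤ szv f x → f t ≤ szv f y → f (s * t) ≤ szv f x * szv f y := by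
    intro s t hs ht
    rw [map_mul]
    exact mul_le_mul hs ht (f.nonneg _) hx
  have m' : ∀ {s t : F}, f s ≤ szv f x → f t ≤ szv f y → f (-(s * t)) ≤ szv f x * szv f y := by
    intro s t hs ht
    rw [AbsoluteValue.map_neg]
    exact m hs ht
  have c0 : ∀ {t : F}, f t ≤ szv f x * szv f y → f t ≤ κ * (szv f x * szv f y) := fun ht =>
    ht.trans (le_mul_of_one_le_left hX h1)
  have c1 : ∀ {c t : F}, f c ≤ κ → f t ≤ szv f x * szv f y →
      f (c * t) ≤ κ * (szv f x * szv f y) := by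
    intro c t hc ht
    rw [map_mul]
    exact mul_le_mul hc ht (f.nonneg _) (zero_le_one.trans h1)
  have four : ∀ {t₁ t₂ t₃ t₄ : F} {B : ℝ}, f t₁ ≤ B → f t₂ ≤ B → f t₃ ≤ B → f t₄ ≤ B →
      f (t₁ + t₂ + t₃ + t₄) ≤ B := by
    intro t₁ t₂ t₃ t₄ B h1 h2 h3 h4
    exact (hf _ _).trans (max_le ((hf _ _).trans (max_le ((hf _ _).trans (max_le h1 h2)) h3)) h4)
  rw [szv_le_iff]
  refine ⟨?_, ?_, ?_, ?_⟩
  · have e : (x * y).re = x.re * y.re + a * (x.imI * y.imI) + b * (x.imJ * y.imJ) +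
        a * b * (-(x.imK * y.imK)) := by rw [QuaternionAlgebra.re_mul]; ring
    rw [e]
    exact four (c0 (m x0 y0)) (c1 ha (m x1 y1)) (c1 hb (m x2 y2)) (c1 hab (m' x3 y3))
  · have e : (x * y).imI = x.re * y.imI + x.imI * y.re + b * (-(x.imJ * y.imK)) +
        b * (x.imK * y.imJ) := by rw [QuaternionAlgebra.imI_mul]; ring
    rw [e]
    exact four (c0 (m x0 y1)) (c0 (m x1 y0)) (c1 hb (m' x2 y3)) (c1 hb (m x3 y2))
  · have e : (x * y).imJ = x.re * y.imJ + a * (x.imI * y.imK) + x.imJ * y.re +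
        a * (-(x.imK * y.imI)) := by rw [QuaternionAlgebra.imJ_mul]; ring
    rw [e]
    exact four (c0 (m x0 y2)) (c1 ha (m x1 y3)) (c0 (m x2 y0)) (c1 ha (m' x3 y1))
  · have e : (x * y).imK = x.re * y.imK + x.imI * y.imJ + (-(x.imJ * y.imI)) +
        x.imK * y.re := by rw [QuaternionAlgebra.imK_mul]; ring
    rw [e]
    exact four (c0 (m x0 y3)) (c0 (m x1 y2)) (c0 (m' x2 y1)) (c0 (m x3 y0))

/-- The twisted size. -/
noncomputable def Nv (c : ℝ) (u x : Qt a b) : ℝ := max (szv f x) (c * szv f (u * x))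

/-- The weight. -/
noncomputable def Wv (c : ℝ) (u : Qt a b) : ℝ := max 1 (max (c * szv f u) (c ^ 2 * f (nrd u)))

/-- The second constant of the algebra. -/
noncomputable def Ec (a b : Fˣ) : ℝ :=
  2 * Kc f a b ^ 2 * (1 + (f 2)⁻¹ * ((1 + (f (a : F))⁻¹) * (1 + (f (b : F))⁻¹)))

theorem Kc_le_Ec : Kc f a b ≤ Ec f a b := by
  have h := one_le_Kc f (a := a) (b := b)
  have h1 : 0 ≤ (f 2)⁻¹ * ((1 + (f (a : F))⁻¹) * (1 + (f (b : F))⁻¹)) := by
    have := f.nonneg (2 : F)
    have := f.nonneg (a : F)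
    have := f.nonneg (b : F)
    positivity
  unfold Ec
  nlinarith [mul_nonneg (sq_nonneg (Kc f a b)) h1]

theorem one_le_Ec : 1 ≤ Ec f a b := (one_le_Kc f).trans (Kc_le_Ec f)

theorem one_le_Wv (c : ℝ) (u : Qt a b) : 1 ≤ Wv f c u := le_max_left _ _

theorem Nv_nonneg (c : ℝ) (u x : Qt a b) : 0 ≤ Nv f c u x := (szv_nonneg f x).trans (le_max_left _ _)

theorem szv_le_Nv (c : ℝ) (u x : Qt a b) : szv f x ≤ Nv f c u x := le_max_left _ _

theorem cszv_le_Nv (c : ℝ) (u x : Qt a b) : c * szv f (u * x) ≤ Nv f c u x := le_max_right _ _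

theorem Nv_smul (c : ℝ) (u x : Qt a b) (t : F) : Nv f c u (t • x) = f t * Nv f c u x := by
  unfold Nv
  rw [mul_smul_comm, szv_smul, szv_smul, mul_max_of_nonneg _ _ (f.nonneg t)]
  congr 1
  ring

theorem Nv_pos (c : ℝ) (u : Qt a b) {x : Qt a b} (hx : x ≠ 0) : 0 < Nv f c u x :=
  (szv_pos f hx).trans_le (szv_le_Nv f c u x)

theorem Nv_sub_le {c : ℝ} (hc : 0 ≤ c) (u x y : Qt a b) :
    Nv f c u (x - y) ≤ Nv f c u x + Nv f c u y := by
  refine max_le ?_ ?_
  · exact (szv_sub_le f x y).trans (add_le_add (szv_le_Nv f c u x) (szv_le_Nv f c u y))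
  · rw [mul_sub]
    refine (mul_le_mul_of_nonneg_left (szv_sub_le f _ _) hc).trans ?_
    rw [mul_add]
    exact add_le_add (cszv_le_Nv f c u x) (cszv_le_Nv f c u y)

theorem szv_sub_le_max (hf : IsNonarchimedean f) (x y : Qt a b) :
    szv f (x - y) ≤ max (szv f x) (szv f y) := by
  rw [sub_eq_add_neg]
  exact (szv_add_le_max f hf x (-y)).trans (by rw [szv_neg])

theorem Nv_sub_le_max (hf : IsNonarchimedean f) {c : ℝ} (hc : 0 ≤ c) (u x y : Qt a b) :
    Nv f c u (x - y) ≤ max (Nv f c u x) (Nv f c u y) := by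
  refine max_le ?_ ?_
  · exact (szv_sub_le_max f hf x y).trans (max_le_max (szv_le_Nv f c u x) (szv_le_Nv f c u y))
  · rw [mul_sub]
    refine (mul_le_mul_of_nonneg_left (szv_sub_le_max f hf _ _) hc).trans ?_
    rw [mul_max_of_nonneg _ _ hc]
    exact max_le_max (cszv_le_Nv f c u x) (cszv_le_Nv f c u y)

theorem Nv_mul_le_of {κ : ℝ} (h : ∀ x y : Qt a b, szv f (x * y) ≤ κ * (szv f x * szv f y))
    (hκ : 0 ≤ κ) {c : ℝ} (hc : 0 ≤ c) (u x e : Qt a b) :
    Nv f c u (x * e) ≤ κ * (Nv f c u x * szv f e) := by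
  have he := szv_nonneg f e
  refine max_le ?_ ?_
  · exact (h x e).trans (mul_le_mul_of_nonneg_left
      (mul_le_mul_of_nonneg_right (szv_le_Nv f c u x) he) hκ)
  · rw [← mul_assoc]
    have h1 := mul_le_mul_of_nonneg_left (h (u * x) e) hc
    refine h1.trans ?_
    have h2 : c * (κ * (szv f (u * x) * szv f e)) = κ * (c * szv f (u * x) * szv f e) := by ring
    rw [h2]
    exact mul_le_mul_of_nonneg_left (mul_le_mul_of_nonneg_right (cszv_le_Nv f c u x) he) hκ

/-- The test element. -/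
theorem exists_test {c : ℝ} (hc : 0 < c) (u x : Qt a b) (hx : x ≠ 0) : ∃ (θ : Qt a b) (κ : ℝ),
    0 < κ ∧ szv f θ = κ * Nv f c u x ∧ Nv f c u (x * θ) ≤ κ * (f (nrd x) * Wv f c u) := by
  have hn := f.nonneg (nrd x)
  by_cases h : c * szv f (u * x) ≤ szv f x
  · refine ⟨cj x, 1, one_pos, ?_, ?_⟩
    · rw [one_mul, szv_cj, Nv, max_eq_left h]
    · rw [mul_cj, one_mul, Algebra.algebraMap_eq_smul_one, Nv_smul]
      refine mul_le_mul_of_nonneg_left ?_ hn
      unfold Nv Wv
      rw [szv_one, mul_one]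
      exact max_le_max le_rfl (le_max_left _ _)
  · rw [not_le] at h
    refine ⟨cj (u * x), c⁻¹, inv_pos.mpr hc, ?_, ?_⟩
    · rw [szv_cj, Nv, max_eq_right h.le, ← mul_assoc, inv_mul_cancel₀ hc.ne', one_mul]
    · have e : x * cj (u * x) = nrd x • cj u := by
        rw [cj_mul, ← mul_assoc, mul_cj, Algebra.smul_def]
      rw [e, Nv_smul]
      have h1 : Nv f c u (cj u) ≤ c⁻¹ * Wv f c u := by
        have e2 : u * cj u = nrd u • (1 : Qt a b) := by
          rw [mul_cj, Algebra.algebraMap_eq_smul_one]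
        unfold Nv
        rw [e2, szv_smul, szv_one, szv_cj, mul_one]
        have e3 : szv f u = c⁻¹ * (c * szv f u) := by
          rw [← mul_assoc, inv_mul_cancel₀ hc.ne', one_mul]
        have e4 : c * f (nrd u) = c⁻¹ * (c ^ 2 * f (nrd u)) := by
          rw [sq, ← mul_assoc, ← mul_assoc, inv_mul_cancel₀ hc.ne', one_mul]
        rw [e4]
        conv_lhs => rw [e3]
        rw [← mul_max_of_nonneg _ _ (inv_nonneg.mpr hc.le)]
        exact mul_le_mul_of_nonneg_left (le_max_right _ _) (inv_nonneg.mpr hc.le)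
      calc f (nrd x) * Nv f c u (cj u) ≤ f (nrd x) * (c⁻¹ * Wv f c u) :=
            mul_le_mul_of_nonneg_left h1 hn
        _ = _ := by ring

/-- The size of a quaternion in terms of traces. -/
theorem szv_le_traces (h2 : (2 : F) ≠ 0) (u : Qt a b) {T : ℝ} (hT : ∀ w : Qt a b, szv f w ≤ 1 →
    f (trd (cj w * u)) ≤ T) :
    szv f u ≤ (f 2)⁻¹ * ((1 + (f (a : F))⁻¹) * (1 + (f (b : F))⁻¹)) * T := by
  have ha : 0 < f (a : F) := f.pos a.ne_zero
  have hb : 0 < f (b : F) := f.pos b.ne_zero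
  have h2' : 0 < f (2 : F) := f.pos h2
  have hT0 : 0 ≤ T := (f.nonneg _).trans (hT 0 (by rw [szv_zero]; exact zero_le_one))
  have key : ∀ (w : Qt a b) (k y : F), szv f w ≤ 1 → 0 < f k →
      (f k)⁻¹ ≤ (1 + (f (a : F))⁻¹) * (1 + (f (b : F))⁻¹) → trd (cj w * u) = 2 * (k * y) →
      f y ≤ (f 2)⁻¹ * ((1 + (f (a : F))⁻¹) * (1 + (f (b : F))⁻¹)) * T := by
    intro w k y hw hk hk' e
    have h := hT w hw
    rw [e, map_mul, map_mul] at h
    have h3 : f y = (f 2)⁻¹ * (f k)⁻¹ * (f 2 * (f k * f y)) := by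
      field_simp
    rw [h3, mul_assoc, mul_assoc]
    refine mul_le_mul_of_nonneg_left ?_ (inv_nonneg.mpr h2'.le)
    exact mul_le_mul hk' h (mul_nonneg h2'.le (mul_nonneg hk.le (f.nonneg _))) (by positivity)
  have i1 : 0 < (f (a : F))⁻¹ := inv_pos.mpr ha
  have i2 : 0 < (f (b : F))⁻¹ := inv_pos.mpr hb
  rw [szv_le_iff]
  refine ⟨?_, ?_, ?_, ?_⟩
  · refine key 1 1 u.re (by rw [szv_one]) (by rw [map_one]; exact one_pos) ?_ ?_
    · rw [map_one, inv_one]; nlinarith [mul_pos i1 i2]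
    · simp [trd, cj_one]
  · refine key ⟨0, -1, 0, 0⟩ a u.imI (by simp [szv]) ha ?_ ?_
    · nlinarith [mul_pos i1 i2]
    · simp [trd, QuaternionAlgebra.re_mul]
  · refine key ⟨0, 0, -1, 0⟩ b u.imJ (by simp [szv]) hb ?_ ?_
    · nlinarith [mul_pos i1 i2]
    · simp [trd, QuaternionAlgebra.re_mul]
  · refine key ⟨0, 0, 0, 1⟩ (a * b) u.imK (by simp [szv]) (by rw [map_mul]; exact mul_pos ha hb) ?_ ?_
    · rw [map_mul, mul_inv]; nlinarith [mul_pos i1 i2]
    · simp [trd, QuaternionAlgebra.re_mul]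

/-- The basic inequality. -/
theorem eps_ineq (h2 : (2 : F) ≠ 0) {c : ℝ} (hc : 0 ≤ c) (u x y : Qt a b) :
    szv f (cj x * y) * Wv f c u ≤ Ec f a b * (Nv f c u x * Nv f c u y) := by
  have hK := one_le_Kc f (a := a) (b := b)
  have hK0 : 0 ≤ Kc f a b := zero_le_one.trans hK
  have hx := Nv_nonneg f c u x
  have hy := Nv_nonneg f c u y
  have hxy : 0 ≤ Nv f c u x * Nv f c u y := mul_nonneg hx hy
  have hs := szv_nonneg f (cj x * y)
  have hE := Kc_le_Ec f (a := a) (b := b)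
  -- the first bound
  have b1 : szv f (cj x * y) ≤ Kc f a b * (Nv f c u x * Nv f c u y) := by
    refine (szv_mul_le f _ _).trans (mul_le_mul_of_nonneg_left ?_ hK0)
    rw [szv_cj]
    exact mul_le_mul (szv_le_Nv f c u x) (szv_le_Nv f c u y) (szv_nonneg f y) hx
  -- the second bound
  have b2 : szv f (cj x * y) * (c ^ 2 * f (nrd u)) ≤ Kc f a b * (Nv f c u x * Nv f c u y) := by
    have e : cj (u * x) * (u * y) = nrd u • (cj x * y) := by
      rw [cj_mul, mul_assoc, ← mul_assoc (cj u) u y, cj_mul_self, Algebra.smul_def, ← mul_assoc,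
        ← mul_assoc, (Algebra.commutes (nrd u) (cj x)).symm]
    have h := szv_mul_le f (cj (u * x)) (u * y)
    rw [e, szv_smul, szv_cj] at h
    have h' : c ^ 2 * (f (nrd u) * szv f (cj x * y)) ≤
        c ^ 2 * (Kc f a b * (szv f (u * x) * szv f (u * y))) := mul_le_mul_of_nonneg_left h (sq_nonneg c)
    have h3 : (c * szv f (u * x)) * (c * szv f (u * y)) ≤ Nv f c u x * Nv f c u y :=
      mul_le_mul (cszv_le_Nv f c u x) (cszv_le_Nv f c u y) (mul_nonneg hc (szv_nonneg f _)) hx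
    calc szv f (cj x * y) * (c ^ 2 * f (nrd u)) = c ^ 2 * (f (nrd u) * szv f (cj x * y)) := by ring
      _ ≤ c ^ 2 * (Kc f a b * (szv f (u * x) * szv f (u * y))) := h'
      _ = Kc f a b * ((c * szv f (u * x)) * (c * szv f (u * y))) := by ring
      _ ≤ _ := mul_le_mul_of_nonneg_left h3 hK0
  -- the third bound
  have b3 : szv f (cj x * y) * (c * szv f u) ≤ Ec f a b * (Nv f c u x * Nv f c u y) := by
    have hL : 0 ≤ (f 2)⁻¹ * ((1 + (f (a : F))⁻¹) * (1 + (f (b : F))⁻¹)) := by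
      have := f.nonneg (2 : F)
      have := f.nonneg (a : F)
      have := f.nonneg (b : F)
      positivity
    rcases hs.eq_or_lt with h0 | h0
    · rw [← h0, zero_mul]
      exact mul_nonneg ((zero_le_one.trans (one_le_Ec f))) hxy
    rcases hc.eq_or_lt with hc0 | hc0
    · have e0 : c * szv f u = 0 := by rw [← hc0, zero_mul]
      rw [e0, mul_zero]
      exact mul_nonneg ((zero_le_one.trans (one_le_Ec f))) hxy
    have hT : ∀ w : Qt a b, szv f w ≤ 1 → f (trd (cj w * u)) ≤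
        2 * Kc f a b ^ 2 * (Nv f c u x * Nv f c u y) / (c * szv f (cj x * y)) := by
      intro w hw
      rw [le_div_iff₀ (mul_pos hc0 h0)]
      have e : trd (cj w * u) • (cj x * y) = cj (w * x) * (u * y) + cj (u * x) * (w * y) := by
        have e1 : algebraMap F (Qt a b) (trd (cj w * u)) = cj w * u + cj u * w := by
          rw [show cj u * w = cj (cj w * u) by rw [cj_mul, cj_cj], QuaternionAlgebra.algebraMap_eq]
          ext <;> simp [trd, cj] <;> ring
        rw [Algebra.smul_def, ← mul_assoc, Algebra.commutes, mul_assoc, e1, cj_mul, cj_mul]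
        noncomm_ring
      have h1 : f (trd (cj w * u)) * szv f (cj x * y) ≤
          Kc f a b * (szv f (w * x) * szv f (u * y)) + Kc f a b * (szv f (u * x) * szv f (w * y)) := by
        rw [← szv_smul, e]
        refine (szv_add_le f _ _).trans (add_le_add ?_ ?_)
        · refine (szv_mul_le f _ _).trans (le_of_eq ?_)
          rw [szv_cj]
        · refine (szv_mul_le f _ _).trans (le_of_eq ?_)
          rw [szv_cj]
      have hw' : ∀ z : Qt a b, szv f (w * z) ≤ Kc f a b * szv f z := by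
        intro z
        refine (szv_mul_le f _ _).trans (mul_le_mul_of_nonneg_left ?_ hK0)
        exact mul_le_of_le_one_left (szv_nonneg f z) hw
      have h3 : szv f (w * x) * (c * szv f (u * y)) ≤ Kc f a b * (Nv f c u x * Nv f c u y) := by
        have : szv f (w * x) ≤ Kc f a b * Nv f c u x :=
          (hw' x).trans (mul_le_mul_of_nonneg_left (szv_le_Nv f c u x) hK0)
        refine (mul_le_mul this (cszv_le_Nv f c u y) (mul_nonneg hc (szv_nonneg f _))
          (mul_nonneg hK0 hx)).trans (le_of_eq (by ring))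
      have h4 : (c * szv f (u * x)) * szv f (w * y) ≤ Kc f a b * (Nv f c u x * Nv f c u y) := by
        have : szv f (w * y) ≤ Kc f a b * Nv f c u y :=
          (hw' y).trans (mul_le_mul_of_nonneg_left (szv_le_Nv f c u y) hK0)
        refine (mul_le_mul (cszv_le_Nv f c u x) this (szv_nonneg f _) hx).trans (le_of_eq (by ring))
      calc f (trd (cj w * u)) * (c * szv f (cj x * y))
          = c * (f (trd (cj w * u)) * szv f (cj x * y)) := by ring
        _ ≤ c * (Kc f a b * (szv f (w * x) * szv f (u * y)) +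
            Kc f a b * (szv f (u * x) * szv f (w * y))) := mul_le_mul_of_nonneg_left h1 hc
        _ = Kc f a b * (szv f (w * x) * (c * szv f (u * y))) +
            Kc f a b * ((c * szv f (u * x)) * szv f (w * y)) := by ring
        _ ≤ Kc f a b * (Kc f a b * (Nv f c u x * Nv f c u y)) +
            Kc f a b * (Kc f a b * (Nv f c u x * Nv f c u y)) :=
          add_le_add (mul_le_mul_of_nonneg_left h3 hK0) (mul_le_mul_of_nonneg_left h4 hK0)
        _ = _ := by ring
    have h := szv_le_traces f h2 u hT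
    have h5 : szv f (cj x * y) * (c * szv f u) ≤ szv f (cj x * y) * (c *
        ((f 2)⁻¹ * ((1 + (f (a : F))⁻¹) * (1 + (f (b : F))⁻¹)) *
        (2 * Kc f a b ^ 2 * (Nv f c u x * Nv f c u y) / (c * szv f (cj x * y))))) :=
      mul_le_mul_of_nonneg_left (mul_le_mul_of_nonneg_left h hc) hs
    refine h5.trans ?_
    have e6 : szv f (cj x * y) * (c * ((f 2)⁻¹ * ((1 + (f (a : F))⁻¹) * (1 + (f (b : F))⁻¹)) *
        (2 * Kc f a b ^ 2 * (Nv f c u x * Nv f c u y) / (c * szv f (cj x * y))))) =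
        2 * Kc f a b ^ 2 * ((f 2)⁻¹ * ((1 + (f (a : F))⁻¹) * (1 + (f (b : F))⁻¹))) *
          (Nv f c u x * Nv f c u y) := by
      field_simp
    rw [e6]
    refine mul_le_mul_of_nonneg_right ?_ hxy
    unfold Ec
    nlinarith [sq_nonneg (Kc f a b)]
  unfold Wv
  rw [mul_max_of_nonneg _ _ hs, mul_max_of_nonneg _ _ hs, mul_one]
  exact max_le (b1.trans (mul_le_mul_of_nonneg_right hE hxy))
    (max_le b3 (b2.trans (mul_le_mul_of_nonneg_right hE hxy)))

end size

end Vale.Agent.P011.MPQ.FG
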