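import Vale.Agent.P011.MPQ.IDefs
import Vale.Agent.P011.Arith.SUnit

/-!
Elements integral outside the primes dividing a natural number.
-/

open NumberField IsDedekindDomain

namespace Vale.Agent.P011.MPQ

open Arith

theorem decomp (M : ℕ) : ∀ n : ℕ, n ≠ 0 →
    ∃ j n1 n2 : ℕ, n = n1 * n2 ∧ n1 ∣ M ^ j ∧ n2.Coprime M := by
  intro n
  induction n using Nat.strong_induction_on with
  | _ n ih =>
    intro hn
    by_cases h : n.Coprime M
    · exact ⟨0, 1, n, by simp, by simp, h⟩
    · obtain ⟨p, hp, h1, h2⟩ := Nat.Prime.not_coprime_iff_dvd.mp h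
      obtain ⟨m, rfl⟩ := h1
      have hm : m ≠ 0 := by rintro rfl; simp at hn
      obtain ⟨j, n1, n2, rfl, hd, hc⟩ := ih m
        (by nlinarith [hp.two_le, Nat.pos_of_ne_zero hm]) hm
      refine ⟨j + 1, p * n1, n2, by ring, ?_, hc⟩
      rw [pow_succ, mul_comm]
      exact mul_dvd_mul hd h2

variable {F : Type} [Field F] [NumberField F]

theorem notMem_SM {M : ℕ} {v : HeightOneSpectrum (𝓞 F)} :
    v ∉ SM F M ↔ v.valuation F (M : F) = 1 := by
  rw [SM, Set.mem_ofPred_eq, not_not]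

theorem i0_val_nat_le (v : HeightOneSpectrum (𝓞 F)) (n : ℕ) : v.valuation F (n : F) ≤ 1 := by
  have := v.valuation_le_one (K := F) (n : 𝓞 F)
  simpa using this

theorem i0_val_int_le (v : HeightOneSpectrum (𝓞 F)) (n : ℤ) : v.valuation F (n : F) ≤ 1 := by
  have := v.valuation_le_one (K := F) (n : 𝓞 F)
  simpa using this

theorem val_dvd {m n : ℕ} (h : m ∣ n) {v : HeightOneSpectrum (𝓞 F)}
    (hv : v.valuation F (n : F) = 1) : v.valuation F (m : F) = 1 := by
  obtain ⟨k, rfl⟩ := h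
  rw [Nat.cast_mul, map_mul] at hv
  refine le_antisymm (i0_val_nat_le v m) ?_
  by_contra hlt
  rw [not_le] at hlt
  have : v.valuation F (m : F) * v.valuation F (k : F) < 1 := by
    calc _ ≤ v.valuation F (m : F) * 1 := mul_le_mul_right (i0_val_nat_le v k) _
      _ < 1 := by rwa [mul_one]
  exact this.ne hv

theorem SM_mono {m n : ℕ} (h : m ∣ n) : SM F m ⊆ SM F n := fun _v hv hv' => hv (val_dvd h hv')

theorem val_coprime {m n : ℕ} (h : m.Coprime n) {v : HeightOneSpectrum (𝓞 F)}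
    (hv : v.valuation F (n : F) ≠ 1) : v.valuation F (m : F) = 1 := by
  refine le_antisymm (i0_val_nat_le v m) ?_
  by_contra hlt
  rw [not_le] at hlt
  have hn : v.valuation F (n : F) < 1 := lt_of_le_of_ne (i0_val_nat_le v n) hv
  have hb := Nat.gcd_eq_gcd_ab m n
  rw [Nat.Coprime] at h
  rw [h] at hb
  have e : (1 : F) = (m : F) * ((m.gcdA n : ℤ) : F) + (n : F) * ((m.gcdB n : ℤ) : F) := by
    have := congrArg (fun z : ℤ => (z : F)) hb
    push_cast at this
    exact this
  have h1 : v.valuation F (1 : F) < 1 := by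
    rw [e]
    refine Valuation.map_add_lt _ ?_ ?_
    · rw [map_mul]
      calc _ ≤ v.valuation F (m : F) * 1 := mul_le_mul_right (i0_val_int_le v _) _
        _ < 1 := by rwa [mul_one]
    · rw [map_mul]
      calc _ ≤ v.valuation F (n : F) * 1 := mul_le_mul_right (i0_val_int_le v _) _
        _ < 1 := by rwa [mul_one]
  rw [map_one] at h1
  exact lt_irrefl _ h1

theorem i0_exists_den (x : F) : ∃ n : ℕ, n ≠ 0 ∧ ∃ y : 𝓞 F, (n : F) * x = y := by
  have h0 : IsAlgebraic ℤ x := (IsFractionRing.isAlgebraic_iff ℤ ℚ F).mpr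
    (Algebra.IsAlgebraic.isAlgebraic x)
  obtain ⟨y, hy0, hy⟩ := h0.exists_integral_multiple
  refine ⟨y.natAbs, Int.natAbs_ne_zero.mpr hy0, ?_⟩
  rcases Int.natAbs_eq y with h | h
  · refine ⟨⟨y • x, hy⟩, ?_⟩
    change (y.natAbs : F) * x = y • x
    have h' : (y : F) = (y.natAbs : F) := by
      have := congrArg (Int.cast (R := F)) h
      rwa [Int.cast_natCast] at this
    rw [zsmul_eq_mul, h']
  · refine ⟨⟨-(y • x), hy.neg⟩, ?_⟩
    change (y.natAbs : F) * x = -(y • x)
    have h' : (y : F) = -(y.natAbs : F) := by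
      have := congrArg (Int.cast (R := F)) h
      rwa [Int.cast_neg, Int.cast_natCast] at this
    rw [zsmul_eq_mul, h']
    ring

/-- Integrality at all finite primes. -/
theorem int_of_val {x : F} (h : ∀ v : HeightOneSpectrum (𝓞 F), v.valuation F x ≤ 1) :
    ∃ y : 𝓞 F, x = y := by
  obtain ⟨y, hy⟩ := HeightOneSpectrum.mem_integers_of_valuation_le_one F x h
  exact ⟨y, hy.symm⟩

theorem intF_SM {M : ℕ} {x : F} : IntF (SM F M) x ↔ ∃ (k : ℕ) (y : 𝓞 F), (M : F) ^ k * x = y := by
  constructor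
  · intro h
    obtain ⟨n, hn0, y, hy⟩ := i0_exists_den x
    obtain ⟨j, n1, n2, rfl, ⟨m, hm⟩, hc⟩ := decomp M n hn0
    have hn2 : (n2 : F) ≠ 0 := by
      rw [Nat.cast_ne_zero]; rintro rfl; simp at hn0
    obtain ⟨z, hz⟩ := int_of_val (x := (n1 : F) * x) (fun v => by
      by_cases hv : v ∈ SM F M
      · have h2 : v.valuation F (n2 : F) = 1 := val_coprime hc hv
        have h3 : v.valuation F ((n2 : F) * ((n1 : F) * x)) ≤ 1 := by
          have : (n2 : F) * ((n1 : F) * x) = ((y : 𝓞 F) : F) := by rw [← hy]; push_cast; ring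
          rw [this]
          exact v.valuation_le_one y
        rwa [map_mul, h2, one_mul] at h3
      · rw [map_mul]
        exact mul_le_one' (i0_val_nat_le v n1) (h v hv))
    refine ⟨j, (m : 𝓞 F) * z, ?_⟩
    have : ((M : F)) ^ j = (n1 : F) * (m : F) := by exact_mod_cast congrArg (Nat.cast (R := F)) hm
    rw [this]
    have e : (((m : 𝓞 F) * z : 𝓞 F) : F) = (m : F) * (z : F) := by simp
    rw [e, ← hz]
    ring
  · rintro ⟨k, y, hy⟩ v hv
    have h1 : v.valuation F (M : F) = 1 := notMem_SM.mp hv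
    have h2 : v.valuation F ((M : F) ^ k * x) ≤ 1 := by
      rw [hy]; exact v.valuation_le_one y
    rwa [map_mul, map_pow, h1, one_pow, one_mul] at h2

/-- Every finite set of primes divides a natural number. -/
theorem exists_SM (S : Set (HeightOneSpectrum (𝓞 F))) (hS : S.Finite) :
    ∃ M : ℕ, M ≠ 0 ∧ S ⊆ SM F M := by
  induction S, hS using Set.Finite.induction_on with
  | empty => exact ⟨1, one_ne_zero, Set.empty_subset _⟩
  | @insert v S _ _ ih =>
    obtain ⟨M, hM, h⟩ := ih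
    refine ⟨M * Ideal.absNorm v.asIdeal, mul_ne_zero hM ?_, ?_⟩
    · rw [Ne, Ideal.absNorm_eq_zero_iff]; exact v.ne_bot
    · refine Set.insert_subset ?_ (h.trans (SM_mono (dvd_mul_right _ _)))
      intro h1
      have h2 := val_dvd (F := F) (dvd_mul_left (Ideal.absNorm v.asIdeal) M) h1
      have h3 : ((Ideal.absNorm v.asIdeal : ℕ) : 𝓞 F) ∈ v.asIdeal := Ideal.absNorm_mem _
      have h4 : v.valuation F ((Ideal.absNorm v.asIdeal : ℕ) : F) < 1 := by
        have := (v.valuation_lt_one_iff_mem (K := F) ((Ideal.absNorm v.asIdeal : ℕ) : 𝓞 F)).mpr h3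
        simpa using this
      exact h4.ne h2

end Vale.Agent.P011.MPQ
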