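import Vale.Agent.P011.MPQ.I0b

/-!
The right ideals of the quaternions integral outside a large set of primes are principal.
-/

open NumberField IsDedekindDomain

namespace Vale.Agent.P011.MPQ

open Arith

section

variable {F : Type} [Field F] {a b : Fˣ}

theorem i0_nrd_smul (c : F) (x : Qt a b) : nrd (c • x) = c ^ 2 * nrd x := by
  simp only [nrd, QuaternionAlgebra.re_smul, QuaternionAlgebra.imI_smul,
    QuaternionAlgebra.imJ_smul, QuaternionAlgebra.imK_smul, smul_eq_mul]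
  ring

theorem nrd_ne_zero (hab : Aniso a b) {x : Qt a b} (hx : x ≠ 0) : nrd x ≠ 0 := fun h => hx (hab x h)

/-- A nonzero quaternion is invertible. -/
theorem i0_exists_unit (hab : Aniso a b) {x : Qt a b} (hx : x ≠ 0) :
    ∃ u : (Qt a b)ˣ, (u : Qt a b) = x ∧ ((u⁻¹ : (Qt a b)ˣ) : Qt a b) = (nrd x)⁻¹ • cj x := by
  have h0 := nrd_ne_zero hab hx
  have h1 : x * ((nrd x)⁻¹ • cj x) = 1 := by
    rw [mul_smul_comm, mul_cj, Algebra.algebraMap_eq_smul_one, smul_smul, inv_mul_cancel₀ h0,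
      one_smul]
  have h2 : ((nrd x)⁻¹ • cj x) * x = 1 := by
    rw [smul_mul_assoc, cj_mul_self, Algebra.algebraMap_eq_smul_one, smul_smul, inv_mul_cancel₀ h0,
      one_smul]
  exact ⟨⟨x, (nrd x)⁻¹ • cj x, h1, h2⟩, rfl, rfl⟩

end

variable {F : Type} [Field F] [NumberField F]

theorem i0_exists_scale (a b : Fˣ) : ∃ A : ℕ, A ≠ 0 ∧ ∀ x : Qt a b, IntQ ∅ x →
    IntF ∅ ((A : F) * nrd x) := by
  obtain ⟨n1, h1, y1, hy1⟩ := i0_exists_den (a : F)
  obtain ⟨n2, h2, y2, hy2⟩ := i0_exists_den (b : F)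
  refine ⟨n1 * n2, mul_ne_zero h1 h2, fun x hx => ?_⟩
  have ha : IntF ∅ ((n1 : F) * a) := by rw [hy1]; exact IntF.ofInt _
  have hb : IntF ∅ ((n2 : F) * b) := by rw [hy2]; exact IntF.ofInt _
  obtain ⟨x1, x2, x3, x4⟩ := hx
  have n1' := IntF.nat (S := (∅ : Set (HeightOneSpectrum (𝓞 F)))) (F := F) n1
  have n2' := IntF.nat (S := (∅ : Set (HeightOneSpectrum (𝓞 F)))) (F := F) n2
  have e : (((n1 * n2 : ℕ)) : F) * nrd x = (n1 : F) * n2 * x.re ^ 2 -
      (n2 : F) * ((n1 : F) * a) * x.imI ^ 2 - (n1 : F) * ((n2 : F) * b) * x.imJ ^ 2 +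
      ((n1 : F) * a) * ((n2 : F) * b) * x.imK ^ 2 := by
    simp only [nrd]; push_cast; ring
  rw [e]
  exact ((((n1'.mul n2').mul (x1.pow 2)).sub ((n2'.mul ha).mul (x2.pow 2))).sub
    ((n1'.mul hb).mul (x3.pow 2))).add ((ha.mul hb).mul (x4.pow 2))

theorem norm_nat {x : F} (hx : IntF ∅ x) : ∃ n : ℕ, |Algebra.norm ℚ x| = n := by
  obtain ⟨y, rfl⟩ := intF_empty.mp hx
  refine ⟨(Algebra.norm ℤ y).natAbs, ?_⟩
  have h1 : Algebra.norm ℚ (y : F) = ((Algebra.norm ℤ y : ℤ) : ℚ) := (Algebra.coe_norm_int y).symm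
  rw [h1, Nat.cast_natAbs, Int.cast_abs]

theorem norm_nat_mul (n : ℕ) (x : F) : |Algebra.norm ℚ ((n : F) * x)| =
    (n : ℚ) ^ Module.finrank ℚ F * |Algebra.norm ℚ x| := by
  have : (n : F) = algebraMap ℚ F n := by simp
  rw [map_mul, this, Algebra.norm_algebraMap, abs_mul, abs_pow, Nat.abs_cast]

/-- The exponent-free notion of smooth number. -/
def Smo (M u : ℕ) : Prop := u ≠ 0 ∧ ∃ j, u ∣ M ^ j

theorem Smo.mul {M u v : ℕ} (hu : Smo M u) (hv : Smo M v) : Smo M (u * v) := by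
  obtain ⟨hu0, i, hi⟩ := hu
  obtain ⟨hv0, j, hj⟩ := hv
  exact ⟨mul_ne_zero hu0 hv0, i + j, by rw [pow_add]; exact mul_dvd_mul hi hj⟩

theorem Smo.pow {M u : ℕ} (hu : Smo M u) (k : ℕ) : Smo M (u ^ k) := by
  obtain ⟨hu0, i, hi⟩ := hu
  exact ⟨pow_ne_zero _ hu0, i * k, by rw [pow_mul]; exact pow_dvd_pow_of_dvd hi k⟩

theorem Smo.coprime {M u t : ℕ} (hu : Smo M u) (ht : t.Coprime M) : t.Coprime u := by
  obtain ⟨_, j, hj⟩ := hu
  exact Nat.Coprime.coprime_dvd_right hj (ht.pow_right j)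

theorem Smo.val {M u : ℕ} (hu : Smo M u) {v : HeightOneSpectrum (𝓞 F)} (hv : v ∉ SM F M) :
    v.valuation F (u : F) = 1 := by
  obtain ⟨_, j, hj⟩ := hu
  refine val_dvd hj ?_
  rw [Nat.cast_pow, map_pow, notMem_SM.mp hv, one_pow]

theorem Smo.intF {M u : ℕ} (hu : Smo M u) : IntF (SM F M) ((u : F)⁻¹) := fun v hv => by
  rw [map_inv₀, hu.val hv, inv_one]

theorem pid_core (a b : Fˣ) (hab : Aniso a b) {A M : ℕ} (hA0 : A ≠ 0)
    (hA : ∀ x : Qt a b, IntQ ∅ x → IntF ∅ ((A : F) * nrd x)) (hM : M ≠ 0)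
    (hC : ∀ y : Qt a b, ∃ (u m : ℕ) (l : Qt a b), u ≠ 0 ∧
      (∃ j, u ∣ M ^ j) ∧ IntQ ∅ l ∧ m ≠ 0 ∧ m.Coprime M ∧
      IntQ ∅ ((m : F) • ((u : F) • y - l)) ∧
      |Algebra.norm ℚ (nrd ((u : F) • y - l))| * (A ^ Module.finrank ℚ F : ℕ) < 1)
    (hAM : Smo M A) (I : AddSubgroup (Qt a b)) (hI : I ≠ ⊥)
    (hI1 : ∀ x ∈ I, IntQ (SM F M) x) (hI2 : ∀ x ∈ I, ∀ y, IntQ (SM F M) y → x * y ∈ I) :
    ∃ q : (Qt a b)ˣ, ∀ x, x ∈ I ↔ IntQ (SM F M) (((q⁻¹ : (Qt a b)ˣ) : Qt a b) * x) := by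
  classical
  set d := Module.finrank ℚ F with hd
  -- norms of integral elements
  have key : ∀ (m : ℕ) (z : Qt a b), IntQ ∅ ((m : F) • z) → ∃ n : ℕ,
      (A : ℚ) ^ d * ((m : ℚ) ^ 2) ^ d * |Algebra.norm ℚ (nrd z)| = n := by
    intro m z hz
    obtain ⟨n, hn⟩ := norm_nat (hA _ hz)
    refine ⟨n, ?_⟩
    rw [← hn, i0_nrd_smul]
    have e : (A : F) * ((m : F) ^ 2 * nrd z) = (A : F) * (((m ^ 2 : ℕ) : F) * nrd z) := by push_cast; ring
    rw [e, norm_nat_mul, norm_nat_mul]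
    push_cast
    ring
  have key2 : ∀ z : Qt a b, IntQ (SM F M) z → ∃ W n : ℕ, Smo M W ∧
      (W : ℚ) * |Algebra.norm ℚ (nrd z)| = n := by
    intro z hz
    have h1 : ∀ k, ∃ j, IntF ∅ ((M : F) ^ j * co4 z k) := by
      intro k
      obtain ⟨j, y, hy⟩ := intF_SM.mp (intQ_iff_co.mp hz k)
      exact ⟨j, by rw [hy]; exact IntF.ofInt y⟩
    choose j hj using h1
    have h2 : IntQ ∅ (((M ^ (∑ k, j k) : ℕ) : F) • z) := by
      rw [intQ_iff_co]
      intro k
      rw [co4_smul]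
      have h3 : j k ≤ ∑ k, j k := Finset.single_le_sum (fun _ _ => Nat.zero_le _) (Finset.mem_univ k)
      have e : ((M ^ (∑ k, j k) : ℕ) : F) * co4 z k =
          ((M ^ (∑ k, j k - j k) : ℕ) : F) * ((M : F) ^ j k * co4 z k) := by
        have : (M : F) ^ (∑ k, j k) = (M : F) ^ (∑ k, j k - j k) * (M : F) ^ j k := by
          rw [← pow_add, Nat.sub_add_cancel h3]
        push_cast
        rw [this]
        ring
      rw [e]
      exact (IntF.nat _).mul (hj k)
    obtain ⟨n, hn⟩ := key _ z h2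
    refine ⟨A ^ d * ((M ^ (∑ k, j k)) ^ 2) ^ d, n, ?_, by rw [← hn]; push_cast; ring⟩
    exact (hAM.pow d).mul (Smo.pow (Smo.pow ⟨pow_ne_zero _ hM, _, dvd_rfl⟩ 2) d)
  let P : ℕ → Prop := fun n => n ≠ 0 ∧ ∃ q ∈ I, q ≠ 0 ∧ ∃ u u' : ℕ, Smo M u ∧ Smo M u' ∧
    (n : ℚ) * u = |Algebra.norm ℚ (nrd q)| * u'
  have hPex : ∃ n, P n := by
    obtain ⟨⟨q, hq⟩, hq0'⟩ := AddSubgroup.ne_bot_iff_exists_ne_zero.mp hI
    have hq0 : q ≠ 0 := fun h => hq0' (Subtype.ext h)
    obtain ⟨W, n, hW, hn⟩ := key2 q (hI1 q hq)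
    refine ⟨n, ?_, q, hq, hq0, 1, W, ⟨one_ne_zero, 0, by simp⟩, hW, ?_⟩
    · rintro rfl
      rw [Nat.cast_zero, mul_eq_zero] at hn
      rcases hn with h | h
      · exact hW.1 (by exact_mod_cast h)
      · rw [abs_eq_zero, Algebra.norm_eq_zero_iff] at h
        exact nrd_ne_zero hab hq0 h
    · rw [← hn]; push_cast; ring
  obtain ⟨n, ⟨hn0, q, hqI, hq0, u, u', hu, hu', hnu⟩, hmin⟩ :
      ∃ n, P n ∧ ∀ m, P m → n ≤ m := ⟨Nat.find hPex, Nat.find_spec hPex, fun m hm => Nat.find_min' hPex hm⟩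
  obtain ⟨Q, hQ, hQi⟩ := i0_exists_unit hab hq0
  refine ⟨Q, fun x => ⟨fun hx => ?_, fun hx => ?_⟩⟩
  · obtain ⟨u1, m, l, hu1, hu1', hl, hm0, hm, hmz, hsmall⟩ := hC (((Q⁻¹ : (Qt a b)ˣ) : Qt a b) * x)
    have hsu1 : Smo M u1 := ⟨hu1, hu1'⟩
    set y := ((Q⁻¹ : (Qt a b)ˣ) : Qt a b) * x with hy
    set z := (u1 : F) • y - l with hz
    by_cases hz0 : z = 0
    · have h1 : y = ((u1 : F))⁻¹ • l := by
        have h2 : (u1 : F) • y = l := sub_eq_zero.mp hz0
        have h3 : (u1 : F) ≠ 0 := Nat.cast_ne_zero.mpr hu1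
        rw [← h2, smul_smul, inv_mul_cancel₀ h3, one_smul]
      rw [h1]
      exact IntQ.smul hsu1.intF (hl.mono (Set.empty_subset _))
    · exfalso
      have hqz : q * z = x * algebraMap F (Qt a b) (u1 : F) - q * l := by
        rw [hz, mul_sub, hy, mul_smul_comm, ← mul_assoc, ← hQ, Units.mul_inv, one_mul,
          Algebra.smul_def, Algebra.commutes]
      have hqzI : q * z ∈ I := by
        rw [hqz]
        exact I.sub_mem (hI2 x hx _ (IntQ.alg (IntF.nat _)))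
          (hI2 q hqI l (hl.mono (Set.empty_subset _)))
      have hqz0 : q * z ≠ 0 := by
        intro h
        have : nrd (q * z) = 0 := by rw [h]; simp [nrd]
        rw [nrd_mul] at this
        exact (mul_ne_zero (nrd_ne_zero hab hq0) (nrd_ne_zero hab hz0)) this
      obtain ⟨W, m', hW, hm'⟩ := key2 (q * z) (hI1 _ hqzI)
      obtain ⟨N1, hN1⟩ := key m z hmz
      have hNqz : |Algebra.norm ℚ (nrd (q * z))| =
          |Algebra.norm ℚ (nrd q)| * |Algebra.norm ℚ (nrd z)| := by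
        rw [nrd_mul, map_mul, abs_mul]
      set Nq := |Algebra.norm ℚ (nrd q)|
      set Nz := |Algebra.norm ℚ (nrd z)|
      set T : ℕ := (m ^ 2) ^ d with hT
      have hT0 : 0 < T := by positivity
      have hTM : T.Coprime M := (hm.pow_left 2).pow_left d
      have hN1' : (A : ℚ) ^ d * T * Nz = N1 := by rw [← hN1, hT]; push_cast; ring
      have hlt : N1 < T := by
        have h1 : (N1 : ℚ) < T := by
          rw [← hN1']
          have : Nz * ((A ^ d : ℕ) : ℚ) < 1 := hsmall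
          push_cast at this
          have hT' : (0 : ℚ) < T := by exact_mod_cast hT0
          nlinarith
        exact_mod_cast h1
      have hN10 : N1 ≠ 0 := by
        rintro rfl
        rw [Nat.cast_zero, mul_eq_zero, mul_eq_zero] at hN1'
        rcases hN1' with (h | h) | h
        · exact (pow_ne_zero d (Nat.cast_ne_zero.mpr hA0)) h
        · exact hT0.ne' (by exact_mod_cast h)
        · rw [abs_eq_zero, Algebra.norm_eq_zero_iff] at h
          exact nrd_ne_zero hab hz0 h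
      -- the main equation
      have hmain : m' * u' * T * A ^ d = n * u * N1 * W := by
        have : (m' : ℚ) * u' * T * A ^ d = n * u * N1 * W := by
          rw [← hm', hNqz, ← hN1', hnu]; ring
        exact_mod_cast this
      set g := Nat.gcd N1 T with hg
      have hg0 : 0 < g := Nat.gcd_pos_of_pos_right _ hT0
      obtain ⟨s, hs⟩ : g ∣ N1 := Nat.gcd_dvd_left _ _
      obtain ⟨t, ht⟩ : g ∣ T := Nat.gcd_dvd_right _ _
      have hst : Nat.Coprime t s := by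
        have := Nat.coprime_div_gcd_div_gcd (m := N1) (n := T) (by rw [← hg]; exact hg0)
        rw [← hg, hs, ht, Nat.mul_div_cancel_left _ hg0, Nat.mul_div_cancel_left _ hg0] at this
        exact this.symm
      have htM : t.Coprime M := Nat.Coprime.coprime_dvd_left ⟨g, by rw [ht]; ring⟩ hTM
      have hlt' : s < t := by
        rw [hs, ht] at hlt
        exact lt_of_mul_lt_mul_left hlt (Nat.zero_le _)
      have hmain2 : m' * u' * A ^ d * t = n * (u * s * W) := by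
        have : g * (m' * u' * A ^ d * t) = g * (n * (u * s * W)) := by
          rw [hs, ht] at hmain; linarith
        exact Nat.eq_of_mul_eq_mul_left hg0 this
      have htn : t ∣ n := by
        have h1 : t ∣ n * (u * s * W) := ⟨m' * u' * A ^ d, by rw [← hmain2]; ring⟩
        exact Nat.Coprime.dvd_of_dvd_mul_right
          (((hu.coprime htM).mul_right hst).mul_right (hW.coprime htM)) h1
      obtain ⟨n1, hn1⟩ := htn
      have hn10 : n1 ≠ 0 := by rintro rfl; simp at hn1; exact hn0 hn1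
      have ht0 : 0 < t := lt_of_le_of_lt (Nat.zero_le _) hlt'
      have hs0 : s ≠ 0 := by rintro rfl; simp at hs; exact hN10 hs
      have hP : P (n1 * s) := by
        refine ⟨mul_ne_zero hn10 hs0, q * z, hqzI, hqz0, u, u' * A ^ d, hu, hu'.mul (hAM.pow d), ?_⟩
        have h1 : m' * u' * A ^ d = n1 * (u * s * W) := by
          have : t * (m' * u' * A ^ d) = t * (n1 * (u * s * W)) := by
            rw [hn1] at hmain2; linarith
          exact Nat.eq_of_mul_eq_mul_left ht0 this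
        have h2 : (m' : ℚ) * u' * A ^ d = n1 * (u * s * W) := by exact_mod_cast h1
        have hW0 : (W : ℚ) ≠ 0 := Nat.cast_ne_zero.mpr hW.1
        apply mul_left_cancel₀ hW0
        push_cast
        calc (W : ℚ) * (n1 * s * u) = n1 * (u * s * W) := by ring
          _ = m' * u' * A ^ d := h2.symm
          _ = W * (|Algebra.norm ℚ (nrd (q * z))| * (u' * A ^ d)) := by rw [← hm']; ring
      have hle := hmin _ hP
      rw [hn1] at hle
      have : n1 * s < t * n1 := by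
        rw [mul_comm t n1]
        exact Nat.mul_lt_mul_of_pos_left hlt' (Nat.pos_of_ne_zero hn10)
      omega
  · have h1 := hI2 q hqI _ hx
    rw [← hQ, Units.mul_inv_cancel_left] at h1
    exact h1

end Vale.Agent.P011.MPQ
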