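import Vale.Agent.P011.MPQ.I0c

/-!
Principal right ideals outside every large set of primes.
-/

open NumberField IsDedekindDomain

namespace Vale.Agent.P011.MPQ

open Arith

variable {F : Type} [Field F] [NumberField F]

theorem clear_den {a b : Fˣ} {S₀ S : Set (HeightOneSpectrum (𝓞 F))} (hP : Pr S₀) (hS : S₀ ⊆ S)
    (x : Qt a b) (hx : IntQ S x) : ∃ m : F, (∀ v ∉ S, v.valuation F m = 1) ∧ m ≠ 0 ∧
      IntQ S₀ (m • x) := by
  classical
  obtain ⟨D, hD0, hD⟩ := exists_den_co x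
  have hD0' : (D : F) ≠ 0 := Nat.cast_ne_zero.mpr hD0
  have hfin := finite_valuation_ne_one (F := F) (D : F) hD0'
  let T : Finset (HeightOneSpectrum (𝓞 F)) := hfin.toFinset.filter (fun v => v ∈ S ∧ v ∉ S₀)
  have hTm : ∀ v, v ∈ T ↔ v.valuation F (D : F) ≠ 1 ∧ v ∈ S ∧ v ∉ S₀ := by
    intro v; simp [T]
  have hpi : ∀ v : HeightOneSpectrum (𝓞 F), ∃ π : Fˣ, v ∉ S₀ →
      v.valuation F (π : F) = WithZero.exp (-1) ∧
        ∀ v' ∉ S₀, v' ≠ v → v'.valuation F (π : F) = 1 := by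
    intro v
    by_cases h : v ∉ S₀
    · obtain ⟨π, hπ⟩ := hP.2 v h
      exact ⟨π, fun _ => hπ⟩
    · exact ⟨1, fun h' => absurd h' h⟩
  choose π hπ using hpi
  have hk : ∀ v : HeightOneSpectrum (𝓞 F), ∃ k : ℕ,
      (WithZero.exp (-1) : Z0) ^ k ≤ v.valuation F (D : F) := by
    intro v
    have h1 : v.valuation F (D : F) ≠ 0 := (Valuation.ne_zero_iff _).mpr hD0'
    obtain ⟨n, hn⟩ : ∃ n : ℤ, v.valuation F (D : F) = WithZero.exp n := by
      obtain ⟨n, hn⟩ := WithZero.ne_zero_iff_exists.mp h1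
      exact ⟨Multiplicative.toAdd n, by rw [← hn]; rfl⟩
    refine ⟨(-n).toNat, ?_⟩
    rw [hn, ← WithZero.exp_nsmul, WithZero.exp_le_exp]
    simp only [nsmul_eq_mul, mul_neg, mul_one]
    have := Int.self_le_toNat (-n)
    linarith
  choose k hk using hk
  have hval : ∀ v ∉ S₀, v.valuation F (∏ v' ∈ T, (π v' : F) ^ k v') =
      if v ∈ T then (WithZero.exp (-1) : Z0) ^ k v else 1 := by
    intro v hv
    rw [map_prod]
    split_ifs with h
    · rw [← Finset.mul_prod_erase T _ h]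
      have h1 : ∏ v' ∈ T.erase v, v.valuation F ((π v' : F) ^ k v') = 1 := by
        refine Finset.prod_eq_one fun v' hv' => ?_
        obtain ⟨hne, hv'T⟩ := Finset.mem_erase.mp hv'
        rw [map_pow, (hπ v' ((hTm v').mp hv'T).2.2).2 v hv hne.symm, one_pow]
      rw [h1, mul_one, map_pow, (hπ v hv).1]
    · refine Finset.prod_eq_one fun v' hv' => ?_
      rw [map_pow, (hπ v' ((hTm v').mp hv').2.2).2 v hv (fun h' => h (h' ▸ hv')), one_pow]
  refine ⟨∏ v' ∈ T, (π v' : F) ^ k v', ?_, ?_, ?_⟩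
  · intro v hv
    rw [hval v (fun h => hv (hS h)), if_neg (fun h => hv ((hTm v).mp h).2.1)]
  · exact Finset.prod_ne_zero_iff.mpr fun v _ => pow_ne_zero _ (π v).ne_zero
  · rw [intQ_iff_co]
    intro i v hv
    have h1 : v.valuation F ((D : F) * co4 x i) ≤ 1 := hD i v (Set.notMem_empty v)
    rw [co4_smul, map_mul, hval v hv]
    rw [map_mul] at h1
    split_ifs with h
    · exact (mul_le_mul_left (hk v) _).trans h1
    · rw [one_mul]
      by_cases hvS : v ∈ S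
      · have h2 : v.valuation F (D : F) = 1 := by
          by_contra h3
          exact h ((hTm v).mpr ⟨h3, hvS, hv⟩)
        rwa [h2, one_mul] at h1
      · exact intQ_iff_co.mp hx i v hvS

/-- Right ideals are principal outside every large set of primes. -/
theorem exists_pid (a b : Fˣ) (hab : Aniso a b) (M₀ : ℕ) (hM₀ : M₀ ≠ 0) : ∃ M : ℕ, M ≠ 0 ∧ M₀ ∣ M ∧
    Pr (SM F M) ∧ ∀ S : Set (HeightOneSpectrum (𝓞 F)), SM F M ⊆ S → Adm a b S ∧
      ∀ I : AddSubgroup (Qt a b), I ≠ ⊥ → (∀ x ∈ I, IntQ S x) →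
        (∀ x ∈ I, ∀ y, IntQ S y → x * y ∈ I) →
        ∃ q : (Qt a b)ˣ, ∀ x, x ∈ I ↔ IntQ S (((q⁻¹ : (Qt a b)ˣ) : Qt a b) * x) := by
  classical
  obtain ⟨A, hA0, hA⟩ := i0_exists_scale a b
  obtain ⟨C, hC0, hC⟩ := euclid a b (A ^ Module.finrank ℚ F) (pow_ne_zero _ hA0)
  obtain ⟨S1, hS1, hfin1, hPr1⟩ := exists_Pr (F := F)
    ({v | v.valuation F (a : F) ≠ 1} ∪ {v | v.valuation F (b : F) ≠ 1})
    ((finite_valuation_ne_one _ a.ne_zero).union (finite_valuation_ne_one _ b.ne_zero))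
  obtain ⟨M1, hM1, hSM1⟩ := exists_SM S1 hfin1
  let M : ℕ := M₀ * (M1 * (A * C.factorial))
  have hM : M ≠ 0 := mul_ne_zero hM₀ (mul_ne_zero hM1 (mul_ne_zero hA0 C.factorial_ne_zero))
  have hd1 : M1 ∣ M := (dvd_mul_right M1 _).mul_left M₀
  have hdA : A ∣ M := ((dvd_mul_right A _).mul_left M1).mul_left M₀
  have hdC : C.factorial ∣ M := (((dvd_mul_left _ A)).mul_left M1).mul_left M₀
  have hS1M : S1 ⊆ SM F M := hSM1.trans (SM_mono hd1)
  have hPrM : Pr (SM F M) := hPr1.mono hS1M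
  have hAdm : Adm a b (SM F M) := by
    refine ⟨fun v hv => ?_, fun v hv => ?_, fun v hv => ?_⟩
    · by_contra h
      exact hv (hPrM.1 v h)
    · by_contra h
      exact hv (hS1M (hS1 (Or.inl h)))
    · by_contra h
      exact hv (hS1M (hS1 (Or.inr h)))
  refine ⟨M, hM, dvd_mul_right _ _, hPrM, fun S hS => ⟨hAdm.mono hS, ?_⟩⟩
  intro I hI hI1 hI2
  have hC' := hC M hM (fun n hn0 hn => ⟨1, by
    rw [pow_one]; exact (Nat.dvd_factorial hn0 hn).trans hdC⟩)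
  let I₀ : AddSubgroup (Qt a b) :=
    { carrier := {x | x ∈ I ∧ IntQ (SM F M) x}
      add_mem' := fun hx hy => ⟨I.add_mem hx.1 hy.1, hx.2.add hy.2⟩
      zero_mem' := ⟨I.zero_mem, IntQ.zero⟩
      neg_mem' := fun hx => ⟨I.neg_mem hx.1, hx.2.neg⟩ }
  have hmv : ∀ x ∈ I, ∃ m : F, (∀ v ∉ S, v.valuation F m = 1) ∧ m ≠ 0 ∧ m • x ∈ I₀ := by
    intro x hx
    obtain ⟨m, hm1, hm0, hm⟩ := clear_den hPrM hS x (hI1 x hx)
    refine ⟨m, hm1, hm0, ?_, hm⟩
    have : m • x = x * algebraMap F (Qt a b) m := by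
      rw [Algebra.smul_def, Algebra.commutes]
    rw [this]
    exact hI2 x hx _ (IntQ.alg fun v hv => (hm1 v hv).le)
  have hI₀ : I₀ ≠ ⊥ := by
    obtain ⟨⟨x, hx⟩, hx0'⟩ := AddSubgroup.ne_bot_iff_exists_ne_zero.mp hI
    have hx0 : x ≠ 0 := fun h => hx0' (Subtype.ext h)
    obtain ⟨m, _, hm0, hm⟩ := hmv x hx
    rw [AddSubgroup.ne_bot_iff_exists_ne_zero]
    exact ⟨⟨_, hm⟩, fun h => (smul_ne_zero hm0 hx0) (congrArg Subtype.val h)⟩
  obtain ⟨q, hq⟩ := pid_core a b hab hA0 hA hM hC' ⟨hA0, 1, by rw [pow_one]; exact hdA⟩ I₀ hI₀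
    (fun x hx => hx.2) (fun x hx y hy => ⟨hI2 x hx.1 y (hy.mono hS), hx.2.mul hAdm hy⟩)
  refine ⟨q, fun x => ⟨fun hx => ?_, fun hx => ?_⟩⟩
  · obtain ⟨m, hm1, hm0, hm⟩ := hmv x hx
    have h1 : IntQ S (((q⁻¹ : (Qt a b)ˣ) : Qt a b) * (m • x)) := ((hq _).mp hm).mono hS
    rw [mul_smul_comm] at h1
    have h2 : IntF S (m⁻¹) := fun v hv => by rw [map_inv₀, hm1 v hv, inv_one]
    have h3 := IntQ.smul h2 h1
    rwa [smul_smul, inv_mul_cancel₀ hm0, one_smul] at h3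
  · have h1 : (q : Qt a b) ∈ I₀ := (hq _).mpr (by rw [Units.inv_mul]; exact IntQ.one)
    have h2 := hI2 _ h1.1 _ hx
    rwa [Units.mul_inv_cancel_left] at h2

end Vale.Agent.P011.MPQ
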