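import Vale.Agent.P011.MPQ.IDefs
import Vale.Agent.P011.Even.Pattern

/-!
Values of the norm form on the pure quaternions.
-/

open NumberField IsDedekindDomain

namespace Vale.Agent.P011.MPQ

open Arith

variable {F : Type} [Field F] [NumberField F]

omit [NumberField F] in
theorem pure_of_descend (a b e x1 x2 y1 y2 : F) (hn : x2 ^ 2 - a * y2 ^ 2 ≠ 0)
    (h1 : b = (x1 ^ 2 - a * y1 ^ 2) + e * (x2 ^ 2 - a * y2 ^ 2)) (h2 : x1 * x2 = a * y1 * y2) :
    ∃ y z t : F, e = a * y ^ 2 + b * z ^ 2 - a * b * t ^ 2 := by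
  refine ⟨(x1 * y2 - x2 * y1) / (x2 ^ 2 - a * y2 ^ 2), x2 / (x2 ^ 2 - a * y2 ^ 2),
    y2 / (x2 ^ 2 - a * y2 ^ 2), ?_⟩
  have key : e * (x2 ^ 2 - a * y2 ^ 2) ^ 2 =
      a * (x1 * y2 - x2 * y1) ^ 2 + b * (x2 ^ 2 - a * y2 ^ 2) := by
    rw [h1]
    linear_combination (-(x1 * x2 - a * y1 * y2)) * h2
  have hee : e = (a * (x1 * y2 - x2 * y1) ^ 2 + b * (x2 ^ 2 - a * y2 ^ 2)) /
      (x2 ^ 2 - a * y2 ^ 2) ^ 2 := by
    rw [eq_div_iff (pow_ne_zero 2 hn), key]
  rw [hee]
  field_simp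
  ring

/-- An element which is a local value of the pure norm form is a global one. -/
theorem i2_exists_pure (a b : Fˣ) (hab : Aniso a b) (e : Fˣ)
    (hf : ∀ v : HeightOneSpectrum (𝓞 F), Ram a b v → a * e ∈ LS (v.valuation F))
    (hr : ∀ φ : F →+* ℝ, φ a < 0 → φ b < 0 → φ e < 0) :
    ∃ y z t : F, (e : F) = a * y ^ 2 + b * z ^ 2 - a * b * t ^ 2 := by
  have hbNF : b ∉ NF a := by
    rintro ⟨x, y, hxy⟩
    have h1 := hab (⟨x, y, 1, 0⟩ : Qt a b) (by
      change x ^ 2 - a * y ^ 2 - b * 1 ^ 2 + a * b * 0 ^ 2 = 0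
      linear_combination -hxy)
    have h2 := congrArg QuaternionAlgebra.imJ h1
    exact one_ne_zero (α := F) h2
  have haNS : ¬ IsSquare (a : F) := by
    intro h
    apply hbNF
    rw [NF_eq_top (mem_Sq_iff.mpr h)]
    exact Subgroup.mem_top b
  have hNN : ∀ x y : F, x ^ 2 - a * y ^ 2 = 0 → x = 0 ∧ y = 0 := by
    intro x y hxy
    have h1 := hab (⟨x, y, 0, 0⟩ : Qt a b) (by
      change x ^ 2 - a * y ^ 2 - b * 0 ^ 2 + a * b * 0 ^ 2 = 0
      linear_combination hxy)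
    exact ⟨congrArg QuaternionAlgebra.re h1, congrArg QuaternionAlgebra.imI h1⟩
  by_cases hensq : IsSquare (e : F)
  · exfalso
    apply hbNF
    refine hasse_norm a b ?_
    have heS : e ∈ Sq F := mem_Sq_iff.mpr hensq
    rintro (v | φ)
    · by_contra hcon
      have hR : Ram a b v := hcon
      have h1 := hf v hR
      have h2 : a ∈ LS (v.valuation F) := by
        have h3 : e ∈ LS (v.valuation F) := Sq_le_LS _ heS
        exact (Subgroup.mul_mem_cancel_right _ h3).mp h1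
      have h3 := Even.sup_eq_top (p := Sum.inl v) (a := a) h2
      exact hcon (h3 ▸ Subgroup.mem_top b)
    · by_contra hcon
      have h1 : ¬ φ a > 0 := by
        intro h
        have h3 := Even.sup_eq_top (p := Sum.inr φ) (a := a) h
        exact hcon (h3 ▸ Subgroup.mem_top b)
      have h2 : ¬ φ b > 0 := fun h => hcon (Subgroup.mem_sup_right h)
      have h3 := hr φ (lt_of_le_of_ne (not_lt.mp h1) ((map_ne_zero φ).mpr a.ne_zero))
        (lt_of_le_of_ne (not_lt.mp h2) ((map_ne_zero φ).mpr b.ne_zero))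
      obtain ⟨r, hr⟩ := hensq
      rw [hr, map_mul] at h3
      nlinarith [mul_self_nonneg (φ r)]
  obtain ⟨E, _, _, _, hE, θ, hθ⟩ := exists_quad e hensq
  have hθ' : ∀ x : F, algebraMap F E x ≠ θ := by
    rintro r rfl
    apply hensq
    refine ⟨r, (algebraMap F E).injective ?_⟩
    rw [← hθ, map_mul, pow_two]
  set ι : Fˣ →* Eˣ := Units.map (algebraMap F E : F →* E) with hι
  have hιv : ∀ u : Fˣ, ((ι u : Eˣ) : E) = algebraMap F E u := fun _ => rfl
  have key : ι b ∈ NF (ι a) := by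
    refine hasse_norm (ι a) (ι b) ?_
    rintro (w | ψ)
    · obtain ⟨v, hv⟩ := Sch.exists_below (F := F) w
      by_cases hR : Ram a b v
      · have h1 : ι (a * e) ∈ LS (w.valuation E) := LS_map hv (hf v hR)
        have h2 : ι e ∈ LS (w.valuation E) := by
          refine Sq_le_LS _ (mem_Sq_iff.mpr ⟨θ, ?_⟩)
          rw [hιv, ← hθ, pow_two]
        rw [map_mul] at h1
        have h3 : ι a ∈ LS (w.valuation E) := (Subgroup.mul_mem_cancel_right _ h2).mp h1
        have h4 := Even.sup_eq_top (p := Sum.inl w) (a := ι a) h3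
        rw [h4]
        exact Subgroup.mem_top _
      · exact Sch.sup_map hv (not_not.mp hR)
    · change ι b ∈ NF (ι a) ⊔ LSR ψ
      set φ : F →+* ℝ := ψ.comp (algebraMap F E) with hφ
      have hval : ∀ u : Fˣ, ψ (ι u) = φ u := fun _ => rfl
      have heφ : 0 ≤ φ e := by
        have : φ e = ψ θ ^ 2 := by
          rw [← map_pow, hθ]
          rfl
        rw [this]
        positivity
      by_cases hb : 0 < φ b
      · exact Subgroup.mem_sup_right (by rw [mem_LSR, hval]; exact hb)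
      · by_cases ha : 0 < φ a
        · have h4 := Even.sup_eq_top (p := Sum.inr ψ) (a := ι a) (by
            change 0 < ψ (ι a); rw [hval]; exact ha)
          have h5 : NF (ι a) ⊔ LSR ψ = ⊤ := h4
          rw [h5]
          exact Subgroup.mem_top _
        · have h3 := hr φ (lt_of_le_of_ne (not_lt.mp ha) ((map_ne_zero φ).mpr a.ne_zero))
            (lt_of_le_of_ne (not_lt.mp hb) ((map_ne_zero φ).mpr b.ne_zero))
          linarith
  obtain ⟨X, Y, hXY⟩ := key
  obtain ⟨x1, x2, y1, y2, h1, h2⟩ := Sch.descend (a := (a : F)) (b := (b : F)) hθ hE hθ' hXY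
  refine pure_of_descend _ _ _ x1 x2 y1 y2 ?_ h1 h2
  intro h0
  obtain ⟨rfl, rfl⟩ := hNN _ _ h0
  exact hbNF ⟨x1, y1, by rw [h1]; ring⟩

/-- The pure quaternion with a given square. -/
theorem exists_trace (a b : Fˣ) (hab : Aniso a b) (t : F) (ht : t ^ 2 - 4 ≠ 0)
    (hf : ∀ v : HeightOneSpectrum (𝓞 F), Ram a b v →
      a * Units.mk0 (t ^ 2 - 4) ht ∈ LS (v.valuation F))
    (hr : ∀ φ : F →+* ℝ, φ a < 0 → φ b < 0 → |φ t| < 2) :
    ∃ x : Qt a b, nrd x = 1 ∧ trd x = t := by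
  obtain ⟨y, z, s, h⟩ := i2_exists_pure a b hab (Units.mk0 (t ^ 2 - 4) ht) hf (by
    intro φ h1 h2
    have h3 := hr φ h1 h2
    rw [Units.val_mk0, map_sub, map_pow, map_ofNat]
    have h4 := abs_lt.mp h3
    nlinarith)
  rw [Units.val_mk0] at h
  refine ⟨⟨t / 2, y / 2, z / 2, s / 2⟩, ?_, ?_⟩
  · change (t / 2) ^ 2 - a * (y / 2) ^ 2 - b * (z / 2) ^ 2 + a * b * (s / 2) ^ 2 = 1
    linear_combination h / 4
  · change 2 * (t / 2) = t
    ring

end Vale.Agent.P011.MPQ
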