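import Vale.Agent.P011.MPQ.I2b
import Vale.Agent.P011.MPQ.I0d

/-!
Large sets of primes.
-/

open NumberField IsDedekindDomain

namespace Vale.Agent.P011.MPQ

open Arith

variable {F : Type} [Field F] [NumberField F]

omit [NumberField F] in
theorem mul_self_eq {a b : Fˣ} (x : Qt a b) :
    x * x = trd x • x - nrd x • (1 : Qt a b) := by
  ext <;> simp [trd, nrd] <;> ring

/-- An element of norm one and integral trace is conjugate to an integral element. -/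
theorem exists_conj {a b : Fˣ} {S : Set (HeightOneSpectrum (𝓞 F))} (hA : Adm a b S)
    (hpid : ∀ I : AddSubgroup (Qt a b), I ≠ ⊥ → (∀ x ∈ I, IntQ S x) →
      (∀ x ∈ I, ∀ y, IntQ S y → x * y ∈ I) →
      ∃ q : (Qt a b)ˣ, ∀ x, x ∈ I ↔ IntQ S (((q⁻¹ : (Qt a b)ˣ) : Qt a b) * x))
    (x : Qt a b) (hx : nrd x = 1) (ht : IntF S (trd x)) :
    ∃ g ∈ Gam a b S hA, trd (g : Qt a b) = trd x := by
  obtain ⟨n, hn0, hn⟩ := exists_den_co x
  have hnF : (n : F) ≠ 0 := Nat.cast_ne_zero.mpr hn0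
  have hnx : IntQ S ((n : F) • x) := by
    rw [intQ_iff_co]
    intro k
    rw [co4_smul]
    exact (hn k).mono (Set.empty_subset S)
  let I : AddSubgroup (Qt a b) :=
    { carrier := {y | ∃ p q : Qt a b, IntQ S p ∧ IntQ S q ∧ y = (n : F) • (p + x * q)}
      zero_mem' := ⟨0, 0, IntQ.zero, IntQ.zero, by simp⟩
      add_mem' := by
        rintro y y' ⟨p, q, hp, hq, rfl⟩ ⟨p', q', hp', hq', rfl⟩
        exact ⟨p + p', q + q', hp.add hp', hq.add hq', by rw [← smul_add, mul_add]; abel_nf⟩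
      neg_mem' := by
        rintro y ⟨p, q, hp, hq, rfl⟩
        exact ⟨-p, -q, hp.neg, hq.neg, by rw [← smul_neg, mul_neg]; abel_nf⟩ }
  have hI : ∀ y, y ∈ I ↔ ∃ p q : Qt a b, IntQ S p ∧ IntQ S q ∧ y = (n : F) • (p + x * q) :=
    fun y => Iff.rfl
  have hI1 : I ≠ ⊥ := by
    intro h
    have h1 : (n : F) • (1 : Qt a b) ∈ I := ⟨1, 0, IntQ.one, IntQ.zero, by simp⟩
    rw [h, AddSubgroup.mem_bot] at h1
    have h2 := congrArg QuaternionAlgebra.re h1
    simp at h2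
    exact hn0 h2
  obtain ⟨q, hq⟩ := hpid I hI1 (by
    rintro y ⟨p, q, hp, hq, rfl⟩
    rw [smul_add, ← smul_mul_assoc]
    exact (IntQ.smul (IntF.nat n) hp).add (hnx.mul hA hq)) (by
    rintro y ⟨p, q, hp, hq, rfl⟩ r hr
    exact ⟨p * r, q * r, hp.mul hA hr, hq.mul hA hr, by
      rw [smul_mul_assoc, add_mul, mul_assoc]⟩)
  have hqI : (q : Qt a b) ∈ I := by
    rw [hq, Units.inv_mul]
    exact IntQ.one
  have hxq : x * (q : Qt a b) ∈ I := by
    obtain ⟨p, r, hp, hr, h⟩ := (hI _).mp hqI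
    refine (hI _).mpr ⟨-r, p + trd x • r, hr.neg, hp.add (IntQ.smul ht hr), ?_⟩
    rw [h, mul_smul_comm, mul_add, ← mul_assoc, mul_self_eq, hx, sub_mul, smul_mul_assoc,
      one_smul, one_mul, mul_add, mul_smul_comm]
    congr 1
    abel
  rw [hq] at hxq
  let X : (Qt a b)ˣ := ⟨x, cj x, by rw [mul_cj, hx, map_one], by rw [cj_mul_self, hx, map_one]⟩
  refine ⟨q⁻¹ * (X * q), ⟨?_, hxq⟩, ?_⟩
  · rw [Units.val_mul, nrd_mul, Units.val_mul, nrd_mul]
    have h1 : nrd ((q⁻¹ : (Qt a b)ˣ) : Qt a b) * nrd (q : Qt a b) = 1 := by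
      rw [← nrd_mul, Units.inv_mul, nrd_one]
    have h2 : nrd (X : Qt a b) = 1 := hx
    rw [h2, one_mul, h1]
  · rw [Units.val_mul, trd_mul_comm, Units.val_mul, mul_assoc, Units.mul_inv, mul_one]

/-- I0 + I2: every large set of primes is large enough. -/
theorem exists_big (a b : Fˣ) (hab : Aniso a b) (e : ℕ) (he : 0 < e) :
    ∃ M : ℕ, M ≠ 0 ∧ ∀ S : Set (HeightOneSpectrum (𝓞 F)), SM F M ⊆ S → Big a b e S := by
  obtain ⟨M₀, hM₀, h⟩ := exists_near a b hab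
  obtain ⟨M, hM, hd, _, hpid⟩ := exists_pid a b hab (M₀ * e) (mul_ne_zero hM₀ he.ne')
  refine ⟨M, hM, fun S hSM => ?_⟩
  have hA' := (hpid S hSM).1
  refine ⟨hA', (hpid S hSM).2, ?_⟩
  intro v hv H hH hn hpow x x' hx hx' h1 h2 h3 h4
  have hv1 : v.valuation F (M : F) = 1 := notMem_SM.mp fun h => hv (hSM h)
  refine tr_of_elements hA' hv (val_dvd ((dvd_mul_left e M₀).trans hd) hv1) ?_ H hn hpow x x'
    hx hx' h1 h2 h3 h4
  intro z hz hz4
  obtain ⟨t, ht1, ht2, ht3⟩ := h S ((SM_mono ((dvd_mul_right M₀ e).trans hd)).trans hSM) v hv z hz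
  obtain ⟨y, hy1, hy2⟩ := ht3 (by
    intro h0
    have e1 : z ^ 2 - 4 = -((t - z) * (t - z + 2 * z)) + (t ^ 2 - 4) := by ring
    rw [e1, h0, add_zero, Valuation.map_neg, map_mul] at hz4
    have h5 : v.valuation F (t - z + 2 * z) ≤ 1 := by
      refine (v.valuation F).map_add_le (ht1.trans ?_) ?_
      · rw [← WithZero.exp_zero, WithZero.exp_le_exp]; norm_num
      · rw [map_mul]
        exact mul_le_one' (by exact_mod_cast i0_val_nat_le v 2) hz
    refine absurd hz4 (not_lt.mpr ?_)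
    calc _ ≤ v.valuation F (t - z) * 1 := mul_le_mul_right h5 _
      _ ≤ _ := by rwa [mul_one])
  obtain ⟨g, hg, hgt⟩ := exists_conj hA' (hpid S hSM).2 y hy1 (by rw [hy2]; exact ht2)
  exact ⟨g, hg, by rw [hgt, hy2]; exact ht1⟩

end Vale.Agent.P011.MPQ
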