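import Mathlib

/-!
Transitive actions of normal subgroups.
-/

namespace Vale.Agent.P011.MPQ

theorem orbit_count {P : Type} [Finite P] {p : ℕ} [Fact p.Prime] (σ : Equiv.Perm P)
    (hσ : σ ^ p = 1) (z0 : P) (hfix : ∀ z, σ z = z ↔ z = z0) (O : Set P)
    (hO : ∀ z ∈ O, σ z ∈ O) :
    (z0 ∈ O → Nat.card O ≡ 1 [MOD p]) ∧ (z0 ∉ O → Nat.card O ≡ 0 [MOD p]) := by
  classical
  have : Fintype P := Fintype.ofFinite P
  let f : Function.End O := fun z => ⟨σ z, hO z z.2⟩
  have hf1 : ∀ (n : ℕ) (z : O), (((f ^ n : Function.End O) z : O) : P) = (σ ^ n) z := by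
    intro n
    induction n with
    | zero => intro z; rfl
    | succ n ih =>
      intro z
      rw [pow_succ', pow_succ']
      change σ ((f ^ n : Function.End O) z : O) = σ ((σ ^ n) z)
      rw [ih]
  have hf : f ^ p ^ 1 = 1 := by
    rw [pow_one]
    funext z
    refine Subtype.ext ?_
    rw [hf1, hσ]
    rfl
  have h := Equiv.Perm.card_fixedPoints_modEq hf
  rw [Nat.card_eq_fintype_card]
  constructor
  · intro hz
    have h1 : Fintype.card (Function.fixedPoints f) = 1 := by
      rw [Fintype.card_eq_one_iff]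
      refine ⟨⟨⟨z0, hz⟩, Subtype.ext ((hfix z0).mpr rfl)⟩, ?_⟩
      rintro ⟨z, hz'⟩
      refine Subtype.ext (Subtype.ext ?_)
      exact (hfix z).mp (congrArg Subtype.val hz')
    rw [h1] at h
    exact h
  · intro hz
    have h1 : Fintype.card (Function.fixedPoints f) = 0 := by
      rw [Fintype.card_eq_zero_iff]
      refine ⟨?_⟩
      rintro ⟨z, hz'⟩
      have : (z : P) = z0 := (hfix z).mp (congrArg Subtype.val hz')
      exact hz (this ▸ z.2)
    rw [h1] at h
    exact h

theorem transitive {G P : Type} [Group G] [MulAction G P] [Finite P] {p m e : ℕ} [Fact p.Prime]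
    (hcard : Nat.card P = 2 * m) (hpe : e.Coprime p) (u s : G) (z0 : P)
    (hu : ∀ z : P, u • z = z ↔ z = z0) (hup : ∀ z : P, u ^ p • z = z)
    (hs : ∀ k, 0 < k → k < m → ∀ z : P, s ^ k • z ≠ z) (H : Subgroup G)
    (hH : ∀ g : G, ∀ h ∈ H, g * h * g⁻¹ ∈ H) (he : u ^ e ∈ H) :
    ∀ z z' : P, ∃ h ∈ H, h • z = z' := by
  classical
  have : Fintype P := Fintype.ofFinite P
  have hlow : ∀ (O : Set P) (z : P), z ∈ O → (∀ z ∈ O, s • z ∈ O) → m ≤ Nat.card O := by
    intro O z hz hO
    have h1 : ∀ k : ℕ, s ^ k • z ∈ O := by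
      intro k
      induction k with
      | zero => simpa using hz
      | succ k ih => rw [pow_succ', mul_smul]; exact hO _ ih
    let f : Fin m → O := fun k => ⟨s ^ (k : ℕ) • z, h1 k⟩
    have hf : Function.Injective f := by
      have key : ∀ i j : Fin m, (i : ℕ) < j → f i ≠ f j := by
        intro i j hij h
        have h2 : s ^ (i : ℕ) • z = s ^ (j : ℕ) • z := congrArg Subtype.val h
        have h3 : (j : ℕ) = i + (j - i) := by omega
        rw [h3, pow_add, mul_smul, smul_left_cancel_iff] at h2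
        exact hs _ (Nat.sub_pos_of_lt hij) (by have := j.is_lt; omega) z h2.symm
      intro i j h
      rcases lt_trichotomy (i : ℕ) j with h1 | h1 | h1
      · exact absurd h (key i j h1)
      · exact Fin.ext h1
      · exact absurd h.symm (key j i h1)
    have := Nat.card_le_card_of_injective f hf
    rwa [Nat.card_fin] at this
  have hG : ∀ z : P, ∃ g : G, g • z0 = z := by
    by_contra hcon
    push Not at hcon
    obtain ⟨z1, hz1⟩ := hcon
    let O : Set P := {z | ∃ g : G, g • z0 = z}
    have hO0 : z0 ∈ O := ⟨1, one_smul _ _⟩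
    have hO1 : z1 ∉ O := fun ⟨g, hg⟩ => hz1 g hg
    have hOg : ∀ (g : G), ∀ z ∈ O, g • z ∈ O := by
      rintro g z ⟨g', rfl⟩
      exact ⟨g * g', mul_smul _ _ _⟩
    have hOc : ∀ (g : G), ∀ z ∈ Oᶜ, g • z ∈ Oᶜ := by
      intro g z hz hz'
      apply hz
      have := hOg g⁻¹ _ hz'
      rwa [inv_smul_smul] at this
    have h1 := hlow O z0 hO0 (hOg s)
    have h2 := hlow Oᶜ z1 hO1 (hOc s)
    have h3 : Nat.card O + Nat.card (Oᶜ : Set P) = 2 * m := by
      rw [← hcard]
      have := Set.ncard_add_ncard_compl O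
      rwa [← Nat.card_coe_set_eq, ← Nat.card_coe_set_eq] at this
    have h4 : Nat.card O = m := by omega
    have h5 : Nat.card (Oᶜ : Set P) = m := by omega
    let σ : Equiv.Perm P := MulAction.toPerm u
    have hσn : ∀ (n : ℕ) (z : P), (σ ^ n) z = u ^ n • z := by
      intro n
      induction n with
      | zero => intro z; simp
      | succ n ih => intro z; rw [pow_succ', pow_succ', Equiv.Perm.mul_apply, ih, mul_smul]; rfl
    have hσ : σ ^ p = 1 := by
      ext z
      rw [hσn, hup, Equiv.Perm.one_apply]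
    have h6 := (orbit_count σ hσ z0 hu O (hOg u)).1 hO0
    have h7 := (orbit_count σ hσ z0 hu Oᶜ (hOc u)).2 (fun h => h hO0)
    rw [h4] at h6
    rw [h5] at h7
    have h8 : (1 : ℕ) ≡ 0 [MOD p] := h6.symm.trans h7
    have h9 := (Nat.modEq_zero_iff_dvd.mp h8)
    exact (Fact.out (p := p.Prime)).one_lt.ne' (Nat.dvd_one.mp h9)
  intro z z'
  by_contra hcon
  push Not at hcon
  let O : Set P := {y | ∃ h ∈ H, h • z = y}
  have hO0 : z ∈ O := ⟨1, H.one_mem, one_smul _ _⟩
  have hO1 : z' ∉ O := fun ⟨h, hh, hz⟩ => hcon h hh hz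
  have key : ∀ y : P, ∃ σ : Equiv.Perm P, σ ^ p = 1 ∧ (∀ x, σ x = x ↔ x = y) ∧
      ∀ x ∈ O, σ x ∈ O := by
    intro y
    obtain ⟨g, hg⟩ := hG y
    let k : G := g * u ^ e * g⁻¹
    have hk : k ∈ H := hH g _ he
    let σ : Equiv.Perm P := MulAction.toPerm k
    have hσn : ∀ (n : ℕ) (z : P), (σ ^ n) z = k ^ n • z := by
      intro n
      induction n with
      | zero => intro z; simp
      | succ n ih => intro z; rw [pow_succ', pow_succ', Equiv.Perm.mul_apply, ih, mul_smul]; rfl
    refine ⟨σ, ?_, ?_, ?_⟩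
    · ext x
      rw [hσn, Equiv.Perm.one_apply]
      have h1 : k ^ p = g * (u ^ p) ^ e * g⁻¹ := by
        simp only [k]
        rw [conj_pow, ← pow_mul, ← pow_mul, mul_comm e p]
      have h2 : ∀ (n : ℕ) (x : P), (u ^ p) ^ n • x = x := by
        intro n
        induction n with
        | zero => intro x; simp
        | succ n ih => intro x; rw [pow_succ, mul_smul, hup, ih]
      rw [h1, mul_smul, mul_smul, h2, smul_inv_smul]
    · intro x
      change k • x = x ↔ x = y
      constructor
      · intro hx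
        have h1 : u ^ e • (g⁻¹ • x) = g⁻¹ • x := by
          simp only [k, mul_smul] at hx
          rw [eq_inv_smul_iff]
          exact hx
        have h2 : u • (g⁻¹ • x) = g⁻¹ • x := by
          have h3 : u ^ e ∈ MulAction.stabilizer G (g⁻¹ • x) := h1
          have h4 : u ^ p ∈ MulAction.stabilizer G (g⁻¹ • x) := hup _
          have h5 : u ∈ MulAction.stabilizer G (g⁻¹ • x) := by
            have h6 := Nat.gcd_eq_gcd_ab e p
            rw [hpe] at h6
            have h7 : u = (u ^ e) ^ (Nat.gcdA e p) * (u ^ p) ^ (Nat.gcdB e p) := by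
              rw [← zpow_natCast, ← zpow_natCast, ← zpow_mul, ← zpow_mul, ← zpow_add, ← h6]
              simp
            rw [h7]
            exact Subgroup.mul_mem _ (Subgroup.zpow_mem _ h3 _) (Subgroup.zpow_mem _ h4 _)
          exact h5
        have h3 := (hu _).mp h2
        rw [← hg, ← h3, smul_inv_smul]
      · rintro rfl
        have h1 : u • z0 = z0 := (hu z0).mpr rfl
        have h2 : ∀ n : ℕ, u ^ n • z0 = z0 := by
          intro n
          induction n with
          | zero => simp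
          | succ n ih => rw [pow_succ, mul_smul, h1, ih]
        simp only [k]
        rw [← hg, mul_smul, mul_smul, inv_smul_smul, h2]
    · rintro x ⟨h, hh, rfl⟩
      exact ⟨k * h, H.mul_mem hk hh, mul_smul _ _ _⟩
  obtain ⟨σ, h1, h2, h3⟩ := key z
  obtain ⟨τ, h4, h5, h6⟩ := key z'
  have h7 := (orbit_count σ h1 z h2 O h3).1 hO0
  have h8 := (orbit_count τ h4 z' h5 O h6).2 hO1
  have h9 := (Nat.modEq_zero_iff_dvd.mp (h7.symm.trans h8))
  exact (Fact.out (p := p.Prime)).one_lt.ne' (Nat.dvd_one.mp h9)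

end Vale.Agent.P011.MPQ
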