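import Vale.Agent.P011.MPQ.I2g

/-!
Groups of two by two matrices over a finite field which act transitively on the lines.
-/

open scoped LinearAlgebra.Projectivization Matrix

namespace Vale.Agent.P011.MPQ

section mat

variable {κ : Type} [Field κ]

theorem exists_smul {A : Matrix (Fin 2) (Fin 2) κ} (hA : A.det = 0) {w : Fin 2 → κ}
    (hw : A *ᵥ w ≠ 0) (y : Fin 2 → κ) : ∃ c : κ, A *ᵥ y = c • (A *ᵥ w) := by
  rw [Matrix.det_fin_two] at hA
  have e0 : ∀ x : Fin 2 → κ, (A *ᵥ x) 0 = A 0 0 * x 0 + A 0 1 * x 1 := fun x => by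
    simp [Matrix.mulVec, dotProduct, Fin.sum_univ_two]
  have e1 : ∀ x : Fin 2 → κ, (A *ᵥ x) 1 = A 1 0 * x 0 + A 1 1 * x 1 := fun x => by
    simp [Matrix.mulVec, dotProduct, Fin.sum_univ_two]
  have key : (A *ᵥ y) 0 * (A *ᵥ w) 1 = (A *ᵥ y) 1 * (A *ᵥ w) 0 := by
    rw [e0, e0, e1, e1]
    linear_combination (y 0 * w 1 - y 1 * w 0) * hA
  by_cases h0 : (A *ᵥ w) 0 = 0
  · have h1 : (A *ᵥ w) 1 ≠ 0 := by
      intro h1
      apply hw
      ext i
      fin_cases i
      · exact h0
      · exact h1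
    refine ⟨(A *ᵥ y) 1 / (A *ᵥ w) 1, ?_⟩
    ext i
    fin_cases i
    · change (A *ᵥ y) 0 = (A *ᵥ y) 1 / (A *ᵥ w) 1 * (A *ᵥ w) 0
      field_simp
      exact key
    · change (A *ᵥ y) 1 = (A *ᵥ y) 1 / (A *ᵥ w) 1 * (A *ᵥ w) 1
      field_simp
  · refine ⟨(A *ᵥ y) 0 / (A *ᵥ w) 0, ?_⟩
    ext i
    fin_cases i
    · change (A *ᵥ y) 0 = (A *ᵥ y) 0 / (A *ᵥ w) 0 * (A *ᵥ w) 0
      field_simp
    · change (A *ᵥ y) 1 = (A *ᵥ y) 0 / (A *ᵥ w) 0 * (A *ᵥ w) 1
      field_simp
      exact key.symm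

/-- The square of a matrix. -/
theorem sq_eq (A : Matrix (Fin 2) (Fin 2) κ) : A * A = A.trace • A - A.det • 1 := by
  rw [Matrix.det_fin_two, Matrix.trace_fin_two]
  ext i j
  fin_cases i <;> fin_cases j <;>
    simp [Matrix.mul_apply, Fin.sum_univ_two] <;> ring

/-- The powers of a matrix. -/
theorem pow_eq {A : Matrix (Fin 2) (Fin 2) κ} (hd : A.det = 1) {Ω : Type} [Field Ω] [Algebra κ Ω]
    {ζ : Ω} (hζ : ζ ^ 2 - algebraMap κ Ω A.trace * ζ + 1 = 0) (k : ℕ) : ∃ α β : κ,
      A ^ k = α • A + β • 1 ∧ ζ ^ k = algebraMap κ Ω α * ζ + algebraMap κ Ω β := by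
  induction k with
  | zero => exact ⟨0, 1, by simp, by simp⟩
  | succ k ih =>
    obtain ⟨α, β, h1, h2⟩ := ih
    refine ⟨α * A.trace + β, -α, ?_, ?_⟩
    · rw [pow_succ, h1, add_mul, smul_mul_assoc, sq_eq, hd, smul_mul_assoc, one_mul, smul_sub,
        smul_smul, add_smul]
      simp only [one_smul, neg_smul]
      abel
    · rw [pow_succ, h2, map_add, map_mul, map_neg]
      linear_combination algebraMap κ Ω α * hζ

/-- A unipotent matrix fixes a unique line. -/
theorem unip [Finite κ] {p : ℕ} [Fact p.Prime] [CharP κ p] {A : Matrix (Fin 2) (Fin 2) κ}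
    (hd : A.det = 1) (ht : A.trace = 2) (h1 : A ≠ 1) : A ^ p = 1 ∧ ∃ z0 : Fin 2 → κ, z0 ≠ 0 ∧
      ∀ z : Fin 2 → κ, z ≠ 0 → ((∃ c : κ, A *ᵥ z = c • z) ↔ ∃ c : κ, c • z0 = z) := by
  set n : Matrix (Fin 2) (Fin 2) κ := A - 1 with hn
  have hn2 : n * n = 0 := by
    rw [hn, sub_mul, mul_sub, mul_one, one_mul, sq_eq, hd, ht, two_smul, one_smul]
    abel
  have hA : A = 1 + n := by rw [hn]; abel
  have hn0 : n ≠ 0 := fun h => h1 (by rw [hA, h, add_zero])
  have hpow : ∀ k : ℕ, A ^ k = 1 + (k : κ) • n := by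
    intro k
    induction k with
    | zero => simp
    | succ k ih =>
      rw [pow_succ, ih]
      conv_lhs => rw [hA]
      rw [mul_add, mul_one, add_mul, one_mul, smul_mul_assoc, hn2, smul_zero, add_zero,
        Nat.cast_succ, add_smul, one_smul]
      abel
  obtain ⟨w, hw⟩ : ∃ w, n *ᵥ w ≠ 0 := by
    by_contra hcon
    push Not at hcon
    apply hn0
    refine Matrix.ext_of_mulVec_single fun i => ?_
    rw [hcon, Matrix.zero_mulVec]
  have hnd : n.det = 0 := by
    have : n.det * n.det = 0 := by rw [← Matrix.det_mul, hn2, Matrix.det_zero]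
    exact mul_self_eq_zero.mp this
  have hker : n *ᵥ (n *ᵥ w) = 0 := by rw [Matrix.mulVec_mulVec, hn2, Matrix.zero_mulVec]
  refine ⟨by rw [hpow, CharP.cast_eq_zero, zero_smul, add_zero], n *ᵥ w, hw, fun z hz => ?_⟩
  constructor
  · rintro ⟨c, hc⟩
    -- `n z = (c - 1) z`
    have h2 : n *ᵥ z = (c - 1) • z := by
      rw [hn, Matrix.sub_mulVec, Matrix.one_mulVec, hc, sub_smul, one_smul]
    have h3 : (c - 1) • ((c - 1) • z) = 0 := by
      have h4 : n *ᵥ (n *ᵥ z) = 0 := by rw [Matrix.mulVec_mulVec, hn2, Matrix.zero_mulVec]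
      rw [h2, Matrix.mulVec_smul, h2] at h4
      exact h4
    have h4 : c - 1 = 0 := by
      by_contra hne
      apply hz
      have h5 := (smul_eq_zero_iff_right hne).mp h3
      exact (smul_eq_zero_iff_right hne).mp h5
    rw [h4, zero_smul] at h2
    -- `z` is in the kernel, which is spanned by `n w`
    by_contra hcon
    push Not at hcon
    -- the two vectors `z`, `n w` are in the kernel; they are proportional
    have e0 : ∀ x : Fin 2 → κ, (n *ᵥ x) 0 = n 0 0 * x 0 + n 0 1 * x 1 := fun x => by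
      simp [Matrix.mulVec, dotProduct, Fin.sum_univ_two]
    have e1 : ∀ x : Fin 2 → κ, (n *ᵥ x) 1 = n 1 0 * x 0 + n 1 1 * x 1 := fun x => by
      simp [Matrix.mulVec, dotProduct, Fin.sum_univ_two]
    set y := n *ᵥ w with hy
    have a0 : n 0 0 * z 0 + n 0 1 * z 1 = 0 := by rw [← e0, h2]; rfl
    have a1 : n 1 0 * z 0 + n 1 1 * z 1 = 0 := by rw [← e1, h2]; rfl
    have b0 : n 0 0 * y 0 + n 0 1 * y 1 = 0 := by rw [← e0, hker]; rfl
    have b1 : n 1 0 * y 0 + n 1 1 * y 1 = 0 := by rw [← e1, hker]; rfl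
    have hD : z 0 * y 1 - z 1 * y 0 = 0 := by
      by_contra hD
      apply hn0
      have c00 : n 0 0 = 0 := by
        have : n 0 0 * (z 0 * y 1 - z 1 * y 0) = 0 := by linear_combination y 1 * a0 - z 1 * b0
        exact (mul_eq_zero.mp this).resolve_right hD
      have c01 : n 0 1 = 0 := by
        have : n 0 1 * (z 0 * y 1 - z 1 * y 0) = 0 := by linear_combination z 0 * b0 - y 0 * a0
        exact (mul_eq_zero.mp this).resolve_right hD
      have c10 : n 1 0 = 0 := by
        have : n 1 0 * (z 0 * y 1 - z 1 * y 0) = 0 := by linear_combination y 1 * a1 - z 1 * b1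
        exact (mul_eq_zero.mp this).resolve_right hD
      have c11 : n 1 1 = 0 := by
        have : n 1 1 * (z 0 * y 1 - z 1 * y 0) = 0 := by linear_combination z 0 * b1 - y 0 * a1
        exact (mul_eq_zero.mp this).resolve_right hD
      ext i j
      fin_cases i <;> fin_cases j
      · exact c00
      · exact c01
      · exact c10
      · exact c11
    by_cases hy0 : y 0 = 0
    · have hy1 : y 1 ≠ 0 := by
        intro h
        apply hw
        ext i
        fin_cases i
        · exact hy0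
        · exact h
      refine hcon (z 1 / y 1) ?_
      ext i
      fin_cases i
      · change z 1 / y 1 * y 0 = z 0
        field_simp
        linear_combination -hD
      · change z 1 / y 1 * y 1 = z 1
        field_simp
    · refine hcon (z 0 / y 0) ?_
      ext i
      fin_cases i
      · change z 0 / y 0 * y 0 = z 0
        field_simp
      · change z 0 / y 0 * y 1 = z 1
        field_simp
        linear_combination hD
  · rintro ⟨c, rfl⟩
    refine ⟨1, ?_⟩
    rw [one_smul, Matrix.mulVec_smul, hA, Matrix.add_mulVec, Matrix.one_mulVec, hker, add_zero]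

/-- There is a trace for which the matrices of determinant one have only few powers with an
eigenvector. -/
theorem exists_ellip [Finite κ] (h2 : (2 : κ) ≠ 0) : ∃ t : κ, t ^ 2 ≠ 4 ∧
    ∀ A : Matrix (Fin 2) (Fin 2) κ, A.det = 1 → A.trace = t → ∀ k : ℕ, 0 < k →
      2 * k < Nat.card κ + 1 → ∀ z : Fin 2 → κ, z ≠ 0 → ∀ c : κ, A ^ k *ᵥ z ≠ c • z := by
  classical
  have : Fintype κ := Fintype.ofFinite κ
  set q := Nat.card κ with hq
  have hq' : Fintype.card κ = q := Nat.card_eq_fintype_card.symm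
  have hq1 : 1 < q := Finite.one_lt_card
  let Ω := AlgebraicClosure κ
  have hΩq : ∀ x : κ, (x ^ q) = x := fun x => by rw [← hq']; exact FiniteField.pow_card x
  have hqΩ : ((q : ℕ) : Ω) = 0 := by
    have h1 : ((q : ℕ) : κ) = 0 := by rw [← hq']; exact Nat.cast_card_eq_zero κ
    have := congrArg (algebraMap κ Ω) h1
    rwa [map_natCast, map_zero] at this
  have hne : (((q + 1 : ℕ)) : Ω) ≠ 0 := by
    rw [Nat.cast_succ, hqΩ, zero_add]; exact one_ne_zero
  have : NeZero ((q + 1 : ℕ) : Ω) := ⟨hne⟩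
  obtain ⟨ζ, hζ⟩ : ∃ ζ : Ω, IsPrimitiveRoot ζ (q + 1) := by
    obtain ⟨ζ, hζ⟩ := IsAlgClosed.exists_root (Polynomial.cyclotomic (q + 1) Ω) (by
      rw [Polynomial.degree_cyclotomic]
      exact_mod_cast (Nat.totient_pos.mpr (Nat.succ_pos q)).ne')
    exact ⟨ζ, Polynomial.isRoot_cyclotomic_iff.mp hζ⟩
  have hζ1 : ζ ^ q * ζ = 1 := by rw [← pow_succ]; exact hζ.pow_eq_one
  have hζ0 : ζ ≠ 0 := hζ.ne_zero (Nat.succ_ne_zero q)
  -- elements fixed by Frobenius
  have hfrob : ∀ x : Ω, x ^ q = x → ∃ y : κ, algebraMap κ Ω y = x := by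
    intro x hx
    by_contra hcon
    push Not at hcon
    let P : Polynomial Ω := Polynomial.X ^ q - Polynomial.X
    have hP0 : P ≠ 0 := FiniteField.X_pow_card_sub_X_ne_zero Ω hq1
    have hdeg : P.natDegree = q := FiniteField.X_pow_card_sub_X_natDegree_eq Ω hq1
    have hsub : insert x (Finset.univ.image (algebraMap κ Ω)) ⊆ P.roots.toFinset := by
      intro y hy
      rw [Multiset.mem_toFinset, Polynomial.mem_roots hP0, Polynomial.IsRoot.def]
      simp only [P, Polynomial.eval_sub, Polynomial.eval_pow, Polynomial.eval_X]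
      rcases Finset.mem_insert.mp hy with rfl | hy
      · rw [hx, sub_self]
      · obtain ⟨y, _, rfl⟩ := Finset.mem_image.mp hy
        rw [← map_pow, hΩq, sub_self]
    have h1 := Finset.card_le_card hsub
    rw [Finset.card_insert_of_notMem (by
      intro h
      obtain ⟨y, _, hy⟩ := Finset.mem_image.mp h
      exact hcon y hy), Finset.card_image_of_injective _ (algebraMap κ Ω).injective,
      Finset.card_univ, hq'] at h1
    have h2 := (Multiset.toFinset_card_le P.roots).trans (Polynomial.card_roots' P)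
    rw [hdeg] at h2
    omega
  have hadd : ∀ x y : Ω, (x + y) ^ q = x ^ q + y ^ q := by
    intro x y
    obtain ⟨p, hchar⟩ := CharP.exists κ
    have hchar' : CharP Ω p := charP_of_injective_algebraMap (algebraMap κ Ω).injective p
    obtain ⟨n, hp, hcard⟩ := FiniteField.card κ p
    have := Fact.mk hp
    rw [← hq', hcard]
    exact add_pow_char_pow x y p n
  obtain ⟨t, ht⟩ := hfrob (ζ + ζ ^ q) (by
    rw [hadd, ← pow_mul]
    have h1 : ζ ^ (q * q) = ζ := by
      have h2 : q * q = (q + 1) * (q - 1) + 1 := by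
        obtain ⟨r, hr⟩ : ∃ r, q = r + 1 := ⟨q - 1, by omega⟩
        rw [hr, Nat.add_sub_cancel]
        ring
      rw [h2, pow_succ, pow_mul, hζ.pow_eq_one, one_pow, one_mul]
    rw [h1, add_comm])
  have hquad : ζ ^ 2 - algebraMap κ Ω t * ζ + 1 = 0 := by
    rw [ht]
    linear_combination -hζ1
  have hone : ∀ (y : κ) (k : ℕ), algebraMap κ Ω y = ζ ^ k → y ≠ 0 → (q + 1) ∣ 2 * k := by
    intro y k hy hy0
    have h1 : y ^ (q - 1) = 1 := by rw [← hq']; exact FiniteField.pow_card_sub_one_eq_one y hy0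
    have h3 : ζ ^ (k * (q - 1)) = 1 := by
      rw [pow_mul, ← hy, ← map_pow, h1, map_one]
    have h4 := hζ.dvd_of_pow_eq_one _ h3
    have h5 : k * (q - 1) + 2 * k = (q + 1) * k := by
      obtain ⟨r, hr⟩ : ∃ r, q = r + 1 := ⟨q - 1, by omega⟩
      rw [hr, Nat.add_sub_cancel]
      ring
    have h6 : (q + 1) ∣ k * (q - 1) + 2 * k := by rw [h5]; exact dvd_mul_right _ _
    exact (Nat.dvd_add_right h4).mp h6
  have hq2 : 2 < q := by
    by_contra hcon
    have hq2 : q = 2 := by omega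
    apply h2
    have h1 : ((q : ℕ) : κ) = 0 := by rw [← hq']; exact Nat.cast_card_eq_zero κ
    rw [hq2] at h1
    exact_mod_cast h1
  have hζpow : ∀ k : ℕ, 0 < k → 2 * k < q + 1 → ∀ y : κ, algebraMap κ Ω y ≠ ζ ^ k := by
    intro k hk0 hk y hy
    have hy0 : y ≠ 0 := by
      rintro rfl
      rw [map_zero] at hy
      exact pow_ne_zero k hζ0 hy.symm
    have := Nat.le_of_dvd (by omega) (hone y k hy hy0)
    omega
  refine ⟨t, ?_, ?_⟩
  · intro h4
    -- then `(ζ² - 1)² = 0`
    have h5 : (ζ ^ 2 - 1) ^ 2 = 0 := by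
      have h6 : (algebraMap κ Ω t) ^ 2 = 4 := by rw [← map_pow, h4, map_ofNat]
      have h7 : (algebraMap κ Ω t * ζ) ^ 2 = (ζ ^ 2 + 1) ^ 2 := by
        congr 1
        linear_combination -hquad
      linear_combination -h7 + ζ ^ 2 * h6
    have h6 : ζ ^ 2 = 1 := by
      have := pow_eq_zero_iff (two_ne_zero) |>.mp h5
      linear_combination this
    have h7 := Nat.le_of_dvd (by norm_num) (hζ.dvd_of_pow_eq_one _ h6)
    omega
  · intro A hd ht' k hk0 hk z hz c hc
    rw [← ht'] at hquad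
    obtain ⟨α, β, h1, h2⟩ := pow_eq hd hquad k
    by_cases hα : α = 0
    · rw [hα, map_zero, zero_mul, zero_add] at h2
      exact hζpow k hk0 hk β h2.symm
    · rw [h1, Matrix.add_mulVec, Matrix.smul_mulVec, Matrix.smul_mulVec, Matrix.one_mulVec] at hc
      have h3 : A *ᵥ z = ((c - β) / α) • z := by
        have h4 : α • (A *ᵥ z) = (c - β) • z := by rw [sub_smul, ← hc]; abel
        rw [div_eq_inv_mul, mul_smul, ← h4, smul_smul, inv_mul_cancel₀ hα, one_smul]
      set μ := (c - β) / α with hμ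
      have h4 : μ ^ 2 - A.trace * μ + 1 = 0 := by
        have h5 : (A * A) *ᵥ z = (μ * μ) • z := by
          rw [← Matrix.mulVec_mulVec, h3, Matrix.mulVec_smul, h3, smul_smul]
        rw [sq_eq, Matrix.sub_mulVec, Matrix.smul_mulVec, Matrix.smul_mulVec, Matrix.one_mulVec,
          h3, hd, smul_smul, ← sub_smul] at h5
        have h6 : (μ * μ - (A.trace * μ - 1)) • z = 0 := by rw [sub_smul, ← h5, sub_self]
        have h7 := (smul_eq_zero_iff_left hz).mp h6
        linear_combination h7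
      have h5 : (algebraMap κ Ω μ - ζ) * (algebraMap κ Ω μ * ζ - 1) = 0 := by
        have h6 := congrArg (algebraMap κ Ω) h4
        simp only [map_add, map_sub, map_mul, map_pow, map_one, map_zero] at h6
        linear_combination ζ * h6 - algebraMap κ Ω μ * hquad
      rcases mul_eq_zero.mp h5 with h6 | h6
      · refine hζpow 1 one_pos (by omega) μ ?_
        rw [pow_one]
        linear_combination h6
      · have hμ0 : μ ≠ 0 := by
          intro h0
          rw [h0, map_zero, zero_mul, zero_sub] at h6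
          exact one_ne_zero (neg_eq_zero.mp h6)
        refine hζpow 1 one_pos (by omega) μ⁻¹ ?_
        rw [pow_one, map_inv₀]
        exact inv_eq_of_mul_eq_one_right (by linear_combination h6)

/-- A normal subgroup which contains a power of a unipotent element acts transitively on the
lines. -/
theorem mat_transitive [Finite κ] (h2 : (2 : κ) ≠ 0) {G : Type} [Group G]
    (M : G →* Matrix (Fin 2) (Fin 2) κ) {e : ℕ} (he : (e : κ) ≠ 0) (u s : G)
    (hu : (M u).det = 1) (hut : (M u).trace = 2) (hu1 : M u ≠ 1)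
    (hs : ∀ k : ℕ, 0 < k → 2 * k < Nat.card κ + 1 → ∀ z : Fin 2 → κ, z ≠ 0 → ∀ c : κ,
      (M s) ^ k *ᵥ z ≠ c • z) (H : Subgroup G) (hH : ∀ g : G, ∀ h ∈ H, g * h * g⁻¹ ∈ H)
    (heH : u ^ e ∈ H) (z z' : Fin 2 → κ) (hz : z ≠ 0) (hz' : z' ≠ 0) :
    ∃ h ∈ H, ∃ c : κ, M h *ᵥ z = c • z' := by
  classical
  obtain ⟨p, hchar⟩ := CharP.exists κ
  have hp : Fact p.Prime := ⟨CharP.char_is_prime κ p⟩
  let f : G →* (Module.End κ (Fin 2 → κ))ˣ :=
    (((Matrix.toLinAlgEquiv' : Matrix (Fin 2) (Fin 2) κ ≃ₐ[κ] _) : _ →* _).comp M).toHomUnits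
  have hf : ∀ (g : G) (y : Fin 2 → κ), ((f g : (Module.End κ (Fin 2 → κ))ˣ) :
      Module.End κ (Fin 2 → κ)) y = M g *ᵥ y := fun g y => rfl
  let act : MulAction G (ℙ κ (Fin 2 → κ)) := MulAction.compHom _ f
  have hne : ∀ (g : G) (y : Fin 2 → κ), y ≠ 0 → M g *ᵥ y ≠ 0 := by
    intro g y hy h
    apply hy
    have h1 : (M g⁻¹ * M g) *ᵥ y = 0 := by rw [← Matrix.mulVec_mulVec, h, Matrix.mulVec_zero]
    rwa [← map_mul, inv_mul_cancel, map_one, Matrix.one_mulVec] at h1
  have hact : ∀ (g : G) (y : Fin 2 → κ) (hy : y ≠ 0),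
      g • Projectivization.mk κ y hy = Projectivization.mk κ (M g *ᵥ y) (hne g y hy) :=
    fun g y hy => rfl
  have : Finite (ℙ κ (Fin 2 → κ)) := inferInstance
  have hcard : Nat.card (ℙ κ (Fin 2 → κ)) = Nat.card κ + 1 :=
    Projectivization.card_of_finrank_two κ (Fin 2 → κ) (by simp)
  have hodd : Odd (Nat.card κ) := by
    have : Fintype κ := Fintype.ofFinite κ
    rw [Nat.card_eq_fintype_card]
    rw [Nat.odd_iff]
    refine FiniteField.odd_card_of_char_ne_two fun h => ?_
    apply h2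
    have := ringChar.Nat.cast_ringChar (R := κ)
    rw [h] at this
    exact_mod_cast this
  obtain ⟨m, hm⟩ := hodd
  obtain ⟨hup, z0, hz0, hfix⟩ := unip (p := p) hu hut hu1
  have hmk : ∀ (y y' : Fin 2 → κ) (hy : y ≠ 0) (hy' : y' ≠ 0),
      Projectivization.mk κ y hy = Projectivization.mk κ y' hy' ↔ ∃ c : κ, c • y' = y := by
    intro y y' hy hy'
    rw [Projectivization.mk_eq_mk_iff']
  obtain ⟨h, hh, hhz⟩ := transitive (G := G) (P := ℙ κ (Fin 2 → κ)) (p := p) (m := m + 1) (e := e)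
    (by rw [hcard, hm]; ring)
    (by
      rw [Nat.coprime_comm]
      refine (Nat.Prime.coprime_iff_not_dvd hp.out).mpr fun hd => he ?_
      exact (CharP.cast_eq_zero_iff κ p e).mpr hd) u s (Projectivization.mk κ z0 hz0)
    (by
      intro y
      induction y using Projectivization.ind with
      | h y hy =>
        rw [hact, hmk, hmk, ← hfix y hy]
        constructor
        · rintro ⟨c, hc⟩
          exact ⟨c, hc.symm⟩
        · rintro ⟨c, hc⟩
          exact ⟨c, hc.symm⟩)
    (by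
      intro y
      induction y using Projectivization.ind with
      | h y hy =>
        rw [hact, hmk]
        refine ⟨1, ?_⟩
        rw [map_pow, hup, Matrix.one_mulVec, one_smul])
    (by
      intro k hk0 hk y
      induction y using Projectivization.ind with
      | h y hy =>
        rw [hact, Ne, hmk]
        rintro ⟨c, hc⟩
        refine hs k hk0 (by omega) y hy c ?_
        rw [← map_pow, hc]) H hH heH (Projectivization.mk κ z hz) (Projectivization.mk κ z' hz')
  rw [hact, hmk] at hhz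
  obtain ⟨c, hc⟩ := hhz
  exact ⟨h, hh, c, hc.symm⟩

end mat

end Vale.Agent.P011.MPQ
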