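import Vale.Agent.P011.MPQ.I0a
import Vale.Agent.P011.MPQ.I2m
import Vale.Agent.P011.Arith.LocalB

/-!
Reduction of quaternions modulo a prime.
-/

open NumberField IsDedekindDomain
open scoped Matrix

namespace Vale.Agent.P011.MPQ

open Arith

section res

variable {F : Type} [Field F] [NumberField F]

/-- The map `ρ` is the reduction of the integral elements modulo the prime. -/
structure Res (v : HeightOneSpectrum (𝓞 F)) (κ : Type) [Field κ] (ρ : F → κ) : Prop where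
  add : ∀ x y, v.valuation F x ≤ 1 → v.valuation F y ≤ 1 → ρ (x + y) = ρ x + ρ y
  mul : ∀ x y, v.valuation F x ≤ 1 → v.valuation F y ≤ 1 → ρ (x * y) = ρ x * ρ y
  one : ρ 1 = 1
  zero_iff : ∀ x, v.valuation F x ≤ 1 → (ρ x = 0 ↔ v.valuation F x < 1)
  surj : ∀ c, ∃ x, v.valuation F x ≤ 1 ∧ ρ x = c

theorem exists_res (v : HeightOneSpectrum (𝓞 F)) : ∃ (κ : Type) (_ : Field κ) (_ : Finite κ)
    (ρ : F → κ), Res v κ ρ := by
  classical
  have : v.asIdeal.IsPrime := v.isPrime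
  have : v.asIdeal.IsMaximal := v.isMaximal
  have : Finite (𝓞 F ⧸ v.asIdeal) := finite_residue v
  let _ : Field (𝓞 F ⧸ v.asIdeal) := Ideal.Quotient.field v.asIdeal
  choose r hr using fun x : {x : F // v.valuation F x ≤ 1} => exists_residue v x.2
  let ρ : F → 𝓞 F ⧸ v.asIdeal := fun x =>
    if h : v.valuation F x ≤ 1 then Ideal.Quotient.mk v.asIdeal (r ⟨x, h⟩) else 0
  have key : ∀ (x : F) (s : 𝓞 F), v.valuation F x ≤ 1 →
      v.valuation F (algebraMap (𝓞 F) F s - x) < 1 → ρ x = Ideal.Quotient.mk v.asIdeal s := by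
    intro x s hx hs
    simp only [ρ, dif_pos hx]
    rw [← sub_eq_zero, ← map_sub, mk_eq_zero_iff]
    have e : algebraMap (𝓞 F) F (r ⟨x, hx⟩ - s) = (algebraMap (𝓞 F) F (r ⟨x, hx⟩) - x) -
        (algebraMap (𝓞 F) F s - x) := by rw [map_sub]; ring
    rw [e]
    exact (v.valuation F).map_sub_lt (hr ⟨x, hx⟩) hs
  have hval : ∀ (x : F) (hx : v.valuation F x ≤ 1), ρ x = Ideal.Quotient.mk v.asIdeal (r ⟨x, hx⟩) :=
    fun x hx => key x _ hx (hr ⟨x, hx⟩)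
  refine ⟨_, inferInstance, this, ρ, ?_, ?_, ?_, ?_, ?_⟩
  · intro x y hx hy
    rw [hval x hx, hval y hy, ← map_add]
    refine key _ _ ((v.valuation F).map_add_le hx hy) ?_
    have e : algebraMap (𝓞 F) F (r ⟨x, hx⟩ + r ⟨y, hy⟩) - (x + y) =
        (algebraMap (𝓞 F) F (r ⟨x, hx⟩) - x) + (algebraMap (𝓞 F) F (r ⟨y, hy⟩) - y) := by
      rw [map_add]; ring
    rw [e]
    exact (v.valuation F).map_add_lt (hr ⟨x, hx⟩) (hr ⟨y, hy⟩)
  · intro x y hx hy
    rw [hval x hx, hval y hy, ← map_mul]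
    refine key _ _ (by rw [map_mul]; exact mul_le_one' hx hy) ?_
    have e : algebraMap (𝓞 F) F (r ⟨x, hx⟩ * r ⟨y, hy⟩) - (x * y) =
        (algebraMap (𝓞 F) F (r ⟨x, hx⟩) - x) * algebraMap (𝓞 F) F (r ⟨y, hy⟩) +
          x * (algebraMap (𝓞 F) F (r ⟨y, hy⟩) - y) := by
      rw [map_mul]; ring
    rw [e]
    refine (v.valuation F).map_add_lt ?_ ?_
    · rw [map_mul]
      calc _ ≤ v.valuation F (algebraMap (𝓞 F) F (r ⟨x, hx⟩) - x) * 1 :=
            mul_le_mul_right (v.valuation_le_one _) _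
        _ < 1 := by rw [mul_one]; exact hr ⟨x, hx⟩
    · rw [map_mul]
      calc _ ≤ 1 * v.valuation F (algebraMap (𝓞 F) F (r ⟨y, hy⟩) - y) :=
            mul_le_mul_left hx _
        _ < 1 := by rw [one_mul]; exact hr ⟨y, hy⟩
  · rw [key 1 1 (by simp) (by simp)]
    exact map_one _
  · intro x hx
    rw [hval x hx, mk_eq_zero_iff]
    have h1 := hr ⟨x, hx⟩
    constructor
    · intro h2
      have e : x = algebraMap (𝓞 F) F (r ⟨x, hx⟩) - (algebraMap (𝓞 F) F (r ⟨x, hx⟩) - x) := by ring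
      rw [e]
      exact (v.valuation F).map_sub_lt h2 h1
    · intro h2
      have e : algebraMap (𝓞 F) F (r ⟨x, hx⟩) = (algebraMap (𝓞 F) F (r ⟨x, hx⟩) - x) + x := by ring
      rw [e]
      exact (v.valuation F).map_add_lt h1 h2
  · intro c
    obtain ⟨s, rfl⟩ := Ideal.Quotient.mk_surjective c
    exact ⟨algebraMap (𝓞 F) F s, v.valuation_le_one s, key _ _ (v.valuation_le_one s) (by simp)⟩

variable {v : HeightOneSpectrum (𝓞 F)} {κ : Type} [Field κ] {ρ : F → κ}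

namespace Res

theorem zero (h : Res v κ ρ) : ρ 0 = 0 := (h.zero_iff 0 (by simp)).mpr (by simp)

theorem neg (h : Res v κ ρ) {x : F} (hx : v.valuation F x ≤ 1) : ρ (-x) = -ρ x := by
  have h1 := h.add x (-x) hx (by rw [Valuation.map_neg]; exact hx)
  rw [add_neg_cancel, h.zero] at h1
  exact eq_neg_of_add_eq_zero_right h1.symm

theorem sub (h : Res v κ ρ) {x y : F} (hx : v.valuation F x ≤ 1) (hy : v.valuation F y ≤ 1) :
    ρ (x - y) = ρ x - ρ y := by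
  rw [sub_eq_add_neg, h.add x (-y) hx (by rw [Valuation.map_neg]; exact hy), h.neg hy,
    sub_eq_add_neg]

theorem natCast (h : Res v κ ρ) (n : ℕ) : ρ n = n := by
  induction n with
  | zero => rw [Nat.cast_zero, Nat.cast_zero, h.zero]
  | succ n ih =>
    rw [Nat.cast_succ, Nat.cast_succ, h.add _ _ (i0_val_nat_le v n) (by simp), ih, h.one]

theorem eq_iff (h : Res v κ ρ) {x y : F} (hx : v.valuation F x ≤ 1) (hy : v.valuation F y ≤ 1) :
    ρ x = ρ y ↔ v.valuation F (x - y) < 1 := by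
  rw [← sub_eq_zero, ← h.sub hx hy, h.zero_iff _ ((v.valuation F).map_sub_le hx hy)]

end Res

/-- The matrix of a quaternion. -/
def mat (ρ : F → κ) (a : F) (x0 y0 : κ) {a' b' : Fˣ} (x : Qt a' b') : Matrix (Fin 2) (Fin 2) κ :=
  !![ρ x.re + ρ x.imJ * x0 + ρ x.imK * ρ a * y0,
    ρ x.imI * ρ a - ρ x.imJ * ρ a * y0 - ρ x.imK * ρ a * x0;
    ρ x.imI + ρ x.imJ * y0 + ρ x.imK * x0,
    ρ x.re - ρ x.imJ * x0 - ρ x.imK * ρ a * y0]

/-- The quaternion is integral at `v`. -/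
def IntA (v : HeightOneSpectrum (𝓞 F)) {a b : Fˣ} (x : Qt a b) : Prop :=
  v.valuation F x.re ≤ 1 ∧ v.valuation F x.imI ≤ 1 ∧ v.valuation F x.imJ ≤ 1 ∧
    v.valuation F x.imK ≤ 1

theorem IntQ.at {S : Set (HeightOneSpectrum (𝓞 F))} {a b : Fˣ} {x : Qt a b} (hx : IntQ S x)
    (hv : v ∉ S) : IntA v x := ⟨hx.1 v hv, hx.2.1 v hv, hx.2.2.1 v hv, hx.2.2.2 v hv⟩

variable {a b : Fˣ}

theorem res_nrd (h : Res v κ ρ) (ha : v.valuation F (a : F) ≤ 1) (hb : v.valuation F (b : F) ≤ 1)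
    {x : Qt a b} (hx : IntA v x) : ρ (nrd x) = ρ x.re ^ 2 - ρ a * ρ x.imI ^ 2 - ρ b * ρ x.imJ ^ 2 +
      ρ a * ρ b * ρ x.imK ^ 2 := by
  obtain ⟨h1, h2, h3, h4⟩ := hx
  have hm : ∀ {p q : F}, v.valuation F p ≤ 1 → v.valuation F q ≤ 1 → v.valuation F (p * q) ≤ 1 :=
    fun hp hq => by rw [map_mul]; exact mul_le_one' hp hq
  have hs : ∀ {p : F}, v.valuation F p ≤ 1 → v.valuation F (p ^ 2) ≤ 1 :=
    fun hp => by rw [map_pow]; exact pow_le_one' hp 2
  have hsq : ∀ {p : F}, v.valuation F p ≤ 1 → ρ (p ^ 2) = ρ p ^ 2 := by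
    intro p hp
    rw [sq, sq, h.mul _ _ hp hp]
  rw [nrd, h.add _ _ ((v.valuation F).map_sub_le ((v.valuation F).map_sub_le (hs h1)
    (hm ha (hs h2))) (hm hb (hs h3))) (hm (hm ha hb) (hs h4)),
    h.sub ((v.valuation F).map_sub_le (hs h1) (hm ha (hs h2))) (hm hb (hs h3)),
    h.sub (hs h1) (hm ha (hs h2)), h.mul _ _ ha (hs h2), h.mul _ _ hb (hs h3),
    h.mul _ _ (hm ha hb) (hs h4), h.mul _ _ ha hb, hsq h1, hsq h2, hsq h3, hsq h4]

theorem det_mat (h : Res v κ ρ) (ha : v.valuation F (a : F) ≤ 1)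
    (hb : v.valuation F (b : F) ≤ 1) {x0 y0 : κ} (h0 : x0 ^ 2 - ρ a * y0 ^ 2 = ρ b) {x : Qt a b}
    (hx : IntA v x) : (mat ρ a x0 y0 x).det = ρ (nrd x) := by
  rw [res_nrd h ha hb hx, ← h0, mat, Matrix.det_fin_two]
  simp only [Matrix.of_apply, Matrix.cons_val', Matrix.cons_val_zero, Matrix.cons_val_one,
    Matrix.cons_val_fin_one]
  ring

omit [NumberField F] in
theorem trace_mat {x0 y0 : κ} {x : Qt a b} :
    (mat ρ a x0 y0 x).trace = 2 * ρ x.re := by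
  rw [mat, Matrix.trace_fin_two]
  simp only [Matrix.of_apply, Matrix.cons_val', Matrix.cons_val_zero, Matrix.cons_val_one,
    Matrix.cons_val_fin_one]
  ring

theorem mat_one (h : Res v κ ρ) {x0 y0 : κ} : mat ρ a x0 y0 (1 : Qt a b) = 1 := by
  rw [mat]
  ext i j
  fin_cases i <;> fin_cases j <;> simp [h.one, h.zero]

theorem mat_mul (h : Res v κ ρ) (ha : v.valuation F (a : F) ≤ 1)
    (hb : v.valuation F (b : F) ≤ 1) {x0 y0 : κ} (h0 : x0 ^ 2 - ρ a * y0 ^ 2 = ρ b) {x y : Qt a b}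
    (hx : IntA v x) (hy : IntA v y) :
    mat ρ a x0 y0 (x * y) = mat ρ a x0 y0 x * mat ρ a x0 y0 y := by
  obtain ⟨p1, p2, p3, p4⟩ := hx
  obtain ⟨q1, q2, q3, q4⟩ := hy
  have hm : ∀ {p q : F}, v.valuation F p ≤ 1 → v.valuation F q ≤ 1 → v.valuation F (p * q) ≤ 1 :=
    fun hp hq => by rw [map_mul]; exact mul_le_one' hp hq
  have hab := hm ha hb
  have hA : ∀ {p q : F}, v.valuation F p ≤ 1 → v.valuation F q ≤ 1 → v.valuation F (p + q) ≤ 1 :=
    fun hp hq => (v.valuation F).map_add_le hp hq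
  have hS : ∀ {p q : F}, v.valuation F p ≤ 1 → v.valuation F q ≤ 1 → v.valuation F (p - q) ≤ 1 :=
    fun hp hq => (v.valuation F).map_sub_le hp hq
  have e1 : ρ (x * y).re = ρ x.re * ρ y.re + ρ a * (ρ x.imI * ρ y.imI) + ρ b * (ρ x.imJ * ρ y.imJ) -
      ρ a * ρ b * (ρ x.imK * ρ y.imK) := by
    have : (x * y).re = x.re * y.re + a * (x.imI * y.imI) + b * (x.imJ * y.imJ) -
        a * b * (x.imK * y.imK) := by
      rw [QuaternionAlgebra.re_mul]; ring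
    rw [this, h.sub (hA (hA (hm p1 q1) (hm ha (hm p2 q2))) (hm hb (hm p3 q3)))
      (hm hab (hm p4 q4)), h.add _ _ (hA (hm p1 q1) (hm ha (hm p2 q2))) (hm hb (hm p3 q3)),
      h.add _ _ (hm p1 q1) (hm ha (hm p2 q2)), h.mul _ _ p1 q1, h.mul _ _ ha (hm p2 q2),
      h.mul _ _ p2 q2, h.mul _ _ hb (hm p3 q3), h.mul _ _ p3 q3, h.mul _ _ hab (hm p4 q4),
      h.mul _ _ ha hb, h.mul _ _ p4 q4]
  have e2 : ρ (x * y).imI = ρ x.re * ρ y.imI + ρ x.imI * ρ y.re - ρ b * (ρ x.imJ * ρ y.imK) +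
      ρ b * (ρ x.imK * ρ y.imJ) := by
    have : (x * y).imI = x.re * y.imI + x.imI * y.re - b * (x.imJ * y.imK) +
        b * (x.imK * y.imJ) := by
      rw [QuaternionAlgebra.imI_mul]; ring
    rw [this, h.add _ _ (hS (hA (hm p1 q2) (hm p2 q1)) (hm hb (hm p3 q4))) (hm hb (hm p4 q3)),
      h.sub (hA (hm p1 q2) (hm p2 q1)) (hm hb (hm p3 q4)), h.add _ _ (hm p1 q2) (hm p2 q1),
      h.mul _ _ p1 q2, h.mul _ _ p2 q1, h.mul _ _ hb (hm p3 q4), h.mul _ _ p3 q4,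
      h.mul _ _ hb (hm p4 q3), h.mul _ _ p4 q3]
  have e3 : ρ (x * y).imJ = ρ x.re * ρ y.imJ + ρ a * (ρ x.imI * ρ y.imK) + ρ x.imJ * ρ y.re -
      ρ a * (ρ x.imK * ρ y.imI) := by
    have : (x * y).imJ = x.re * y.imJ + a * (x.imI * y.imK) + x.imJ * y.re -
        a * (x.imK * y.imI) := by
      rw [QuaternionAlgebra.imJ_mul]; ring
    rw [this, h.sub (hA (hA (hm p1 q3) (hm ha (hm p2 q4))) (hm p3 q1)) (hm ha (hm p4 q2)),
      h.add _ _ (hA (hm p1 q3) (hm ha (hm p2 q4))) (hm p3 q1),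
      h.add _ _ (hm p1 q3) (hm ha (hm p2 q4)),
      h.mul _ _ p1 q3, h.mul _ _ ha (hm p2 q4), h.mul _ _ p2 q4, h.mul _ _ p3 q1,
      h.mul _ _ ha (hm p4 q2), h.mul _ _ p4 q2]
  have e4 : ρ (x * y).imK = ρ x.re * ρ y.imK + ρ x.imI * ρ y.imJ - ρ x.imJ * ρ y.imI +
      ρ x.imK * ρ y.re := by
    have : (x * y).imK = x.re * y.imK + x.imI * y.imJ - x.imJ * y.imI + x.imK * y.re := by
      rw [QuaternionAlgebra.imK_mul]; ring
    rw [this, h.add _ _ (hS (hA (hm p1 q4) (hm p2 q3)) (hm p3 q2)) (hm p4 q1),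
      h.sub (hA (hm p1 q4) (hm p2 q3)) (hm p3 q2), h.add _ _ (hm p1 q4) (hm p2 q3),
      h.mul _ _ p1 q4, h.mul _ _ p2 q3, h.mul _ _ p3 q2, h.mul _ _ p4 q1]
  rw [mat, e1, e2, e3, e4, ← h0, mat, mat]
  ext i j
  fin_cases i <;> fin_cases j <;>
    simp only [Matrix.mul_apply, Fin.sum_univ_two, Matrix.of_apply, Matrix.cons_val',
      Matrix.cons_val_zero, Matrix.cons_val_one, Matrix.cons_val_fin_one, Fin.zero_eta,
      Fin.mk_one, Fin.isValue] <;> ring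

theorem mat_eq_zero (h : Res v κ ρ) (h2 : (2 : κ) ≠ 0) (ha : ρ a ≠ 0) (hb : ρ b ≠ 0)
    {x0 y0 : κ} (h0 : x0 ^ 2 - ρ a * y0 ^ 2 = ρ b) {x : Qt a b}
    (hx : IntA v x) : mat ρ a x0 y0 x = 0 ↔ Dv v x := by
  obtain ⟨p1, p2, p3, p4⟩ := hx
  rw [Dv, ← h.zero_iff _ p1, ← h.zero_iff _ p2, ← h.zero_iff _ p3, ← h.zero_iff _ p4]
  constructor
  · intro h1
    have m00 := congrFun (congrFun h1 0) 0
    have m01 := congrFun (congrFun h1 0) 1
    have m10 := congrFun (congrFun h1 1) 0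
    have m11 := congrFun (congrFun h1 1) 1
    simp only [mat, Matrix.of_apply, Matrix.cons_val', Matrix.cons_val_zero, Matrix.cons_val_one,
      Matrix.cons_val_fin_one, Matrix.zero_apply] at m00 m01 m10 m11
    have r1 : ρ x.re = 0 := by
      have : 2 * ρ x.re = 0 := by linear_combination m00 + m11
      exact (mul_eq_zero.mp this).resolve_left h2
    have r2 : ρ x.imI = 0 := by
      have : 2 * (ρ a * ρ x.imI) = 0 := by linear_combination m01 + ρ a * m10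
      exact (mul_eq_zero.mp ((mul_eq_zero.mp this).resolve_left h2)).resolve_left ha
    have r3 : ρ x.imJ = 0 := by
      have : ρ b * ρ x.imJ = 0 := by
        rw [← h0]
        linear_combination x0 * m00 - x0 * r1 - ρ a * y0 * m10 + ρ a * y0 * r2
      exact (mul_eq_zero.mp this).resolve_left hb
    have r4 : ρ x.imK = 0 := by
      have : ρ b * ρ x.imK = 0 := by
        rw [← h0]
        linear_combination x0 * m10 - x0 * r2 - y0 * m00 + y0 * r1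
      exact (mul_eq_zero.mp this).resolve_left hb
    exact ⟨r1, r2, r3, r4⟩
  · rintro ⟨r1, r2, r3, r4⟩
    rw [mat, r1, r2, r3, r4]
    ext i j
    fin_cases i <;> fin_cases j <;> simp

theorem mat_cj (h : Res v κ ρ) {x0 y0 : κ} {x : Qt a b}
    (hx : IntA v x) : mat ρ a x0 y0 (cj x) = (mat ρ a x0 y0 x).adjugate := by
  obtain ⟨p1, p2, p3, p4⟩ := hx
  rw [Matrix.adjugate_fin_two, mat, mat]
  simp only [cj_re, cj_imI, cj_imJ, cj_imK, h.neg p2, h.neg p3, h.neg p4]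
  ext i j
  fin_cases i <;> fin_cases j <;> simp <;> ring

theorem mat_sub (h : Res v κ ρ) {x0 y0 : κ} {x y : Qt a b} (hx : IntA v x) (hy : IntA v y) :
    mat ρ a x0 y0 (x - y) = mat ρ a x0 y0 x - mat ρ a x0 y0 y := by
  obtain ⟨p1, p2, p3, p4⟩ := hx
  obtain ⟨q1, q2, q3, q4⟩ := hy
  rw [mat, mat, mat]
  simp only [QuaternionAlgebra.re_sub, QuaternionAlgebra.imI_sub, QuaternionAlgebra.imJ_sub,
    QuaternionAlgebra.imK_sub, h.sub p1 q1, h.sub p2 q2, h.sub p3 q3, h.sub p4 q4]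
  ext i j
  fin_cases i <;> fin_cases j <;> simp <;> ring

end res

end Vale.Agent.P011.MPQ
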