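import Vale.Agent.P011.MPQ.I2c

/-!
Two homomorphisms of the norm-one group which agree on the elements which are integral outside `S`
agree on the elements which are integral outside `S` and one more prime.
-/

open NumberField IsDedekindDomain

namespace Vale.Agent.P011.MPQ

open Arith

namespace I34

variable {F : Type} [Field F] [NumberField F] {a b : Fˣ}
  {S : Set (HeightOneSpectrum (𝓞 F))} {v : HeightOneSpectrum (𝓞 F)}

theorem intA_iff {x : Qt a b} : IntA v x ↔ IntQ {v}ᶜ x := by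
  have e : ∀ z : F, IntF ({v}ᶜ : Set (HeightOneSpectrum (𝓞 F))) z ↔ v.valuation F z ≤ 1 := by
    intro z
    constructor
    · intro h
      exact h v (by simp)
    · intro h w hw
      have : w = v := by simpa using hw
      rw [this]
      exact h
  exact ⟨fun h => ⟨(e _).mpr h.1, (e _).mpr h.2.1, (e _).mpr h.2.2.1, (e _).mpr h.2.2.2⟩,
    fun h => ⟨(e _).mp h.1, (e _).mp h.2.1, (e _).mp h.2.2.1, (e _).mp h.2.2.2⟩⟩

theorem adm_at (hA : Adm a b S) (hv : v ∉ S) : Adm a b ({v}ᶜ : Set (HeightOneSpectrum (𝓞 F))) :=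
  ⟨fun w hw => by rw [show w = v by simpa using hw]; exact hA.two v hv,
    fun w hw => by rw [show w = v by simpa using hw]; exact hA.a v hv,
    fun w hw => by rw [show w = v by simpa using hw]; exact hA.b v hv⟩

theorem IntA.mul' (hA : Adm a b S) (hv : v ∉ S) {x y : Qt a b} (hx : IntA v x) (hy : IntA v y) :
    IntA v (x * y) :=
  intA_iff.mpr ((intA_iff.mp hx).mul (adm_at hA hv) (intA_iff.mp hy))

theorem IntA.smul' {c : F} (hc : v.valuation F c ≤ 1) {x : Qt a b} (hx : IntA v x) :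
    IntA v (c • x) := by
  refine intA_iff.mpr (IntQ.smul (fun w hw => ?_) (intA_iff.mp hx))
  rw [show w = v by simpa using hw]
  exact hc

theorem IntA.nrd_le (hA : Adm a b S) (hv : v ∉ S) {x : Qt a b} (hx : IntA v x) :
    v.valuation F (nrd x) ≤ 1 := ((intA_iff.mp hx).nrd (adm_at hA hv)) v (by simp)

theorem IntA.cj' {x : Qt a b} (hx : IntA v x) : IntA v (cj x) :=
  intA_iff.mpr (IntQ.cj (intA_iff.mp hx))

/-- Divisibility in terms of a uniformizer. -/
theorem dv_iff {t : F} (ht : v.valuation F t = WithZero.exp (-1 : ℤ)) {x : Qt a b} :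
    Dv v x ↔ IntA v (t⁻¹ • x) := by
  have e : ∀ z : F, v.valuation F z < 1 ↔ v.valuation F (t⁻¹ * z) ≤ 1 := by
    intro z
    rw [lt_one_iff_le_exp, map_mul, map_inv₀, ht, inv_mul_le_iff₀ (WithZero.exp_pos), mul_one]
  simp only [Dv, IntA, QuaternionAlgebra.re_smul, QuaternionAlgebra.imI_smul,
    QuaternionAlgebra.imJ_smul, QuaternionAlgebra.imK_smul, smul_eq_mul, ← e]

theorem dv_of_mul_left (hA : Adm a b S) (hv : v ∉ S) {x y : Qt a b} (hx : Dv v x) (hy : IntA v y) :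
    Dv v (x * y) := by
  obtain ⟨t, ht⟩ := v.valuation_exists_uniformizer F
  rw [dv_iff ht] at hx ⊢
  rw [← smul_mul_assoc]
  exact IntA.mul' hA hv hx hy

theorem dv_of_mul_right (hA : Adm a b S) (hv : v ∉ S) {x y : Qt a b} (hx : IntA v x) (hy : Dv v y) :
    Dv v (x * y) := by
  obtain ⟨t, ht⟩ := v.valuation_exists_uniformizer F
  rw [dv_iff ht] at hy ⊢
  rw [← mul_smul_comm]
  exact IntA.mul' hA hv hx hy

theorem Dv.add' {x y : Qt a b} (hx : Dv v x) (hy : Dv v y) : Dv v (x + y) :=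
  ⟨(v.valuation F).map_add_lt hx.1 hy.1, (v.valuation F).map_add_lt hx.2.1 hy.2.1,
    (v.valuation F).map_add_lt hx.2.2.1 hy.2.2.1, (v.valuation F).map_add_lt hx.2.2.2 hy.2.2.2⟩

theorem Dv.neg' {x : Qt a b} (hx : Dv v x) : Dv v (-x) := by
  obtain ⟨h1, h2, h3, h4⟩ := hx
  refine ⟨?_, ?_, ?_, ?_⟩
  · rw [QuaternionAlgebra.re_neg, Valuation.map_neg]; exact h1
  · rw [QuaternionAlgebra.imI_neg, Valuation.map_neg]; exact h2
  · rw [QuaternionAlgebra.imJ_neg, Valuation.map_neg]; exact h3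
  · rw [QuaternionAlgebra.imK_neg, Valuation.map_neg]; exact h4

theorem Dv.zero' : Dv v (0 : Qt a b) := by
  simp [Dv]

omit [NumberField F] in
theorem nrd_add (x y : Qt a b) : nrd (x + y) = nrd x + trd (x * cj y) + nrd y := by
  simp only [nrd, trd, cj, QuaternionAlgebra.re_mul, QuaternionAlgebra.re_add,
    QuaternionAlgebra.imI_add, QuaternionAlgebra.imJ_add, QuaternionAlgebra.imK_add]
  ring

omit [NumberField F] in
theorem nrd_smul' (c : F) (x : Qt a b) : nrd (c • x) = c ^ 2 * nrd x := by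
  simp only [nrd, QuaternionAlgebra.re_smul, QuaternionAlgebra.imI_smul, QuaternionAlgebra.imJ_smul,
    QuaternionAlgebra.imK_smul, smul_eq_mul]
  ring

omit [NumberField F] in
theorem nrd_ne (x : (Qt a b)ˣ) : nrd (x : Qt a b) ≠ 0 := by
  intro h
  have h1 : nrd ((x * x⁻¹ : (Qt a b)ˣ) : Qt a b) = 1 := by rw [mul_inv_cancel]; exact nrd_one
  rw [Units.val_mul, nrd_mul, h, zero_mul] at h1
  exact zero_ne_one h1

omit [NumberField F] in
theorem inv_val (x : (Qt a b)ˣ) :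
    ((x⁻¹ : (Qt a b)ˣ) : Qt a b) = (nrd (x : Qt a b))⁻¹ • cj (x : Qt a b) := by
  refine Units.inv_eq_of_mul_eq_one_right ?_
  rw [mul_smul_comm, mul_cj, Algebra.algebraMap_eq_smul_one, smul_smul,
    inv_mul_cancel₀ (nrd_ne x), one_smul]

omit [NumberField F] in
theorem nrd_inv (x : (Qt a b)ˣ) :
    nrd ((x⁻¹ : (Qt a b)ˣ) : Qt a b) = (nrd (x : Qt a b))⁻¹ := by
  have h1 : nrd ((x * x⁻¹ : (Qt a b)ˣ) : Qt a b) = 1 := by rw [mul_inv_cancel]; exact nrd_one
  rw [Units.val_mul, nrd_mul] at h1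
  exact eq_inv_of_mul_eq_one_right h1

theorem IntQ.intA (hv : v ∉ S) {x : Qt a b} (hx : IntQ S x) : IntA v x := IntQ.at hx hv

theorem exists_int_unif (v : HeightOneSpectrum (𝓞 F)) : ∃ t : 𝓞 F,
    v.valuation F (t : F) = WithZero.exp (-1 : ℤ) := by
  obtain ⟨t, ht⟩ := v.intValuation_exists_uniformizer
  exact ⟨t, by rw [HeightOneSpectrum.valuation_of_algebraMap]; exact ht⟩

theorem exists_sep {v w : HeightOneSpectrum (𝓞 F)} (h : v ≠ w) : ∃ s : 𝓞 F,
    v.valuation F (s : F) < 1 ∧ w.valuation F (s : F) = 1 := by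
  have ⟨x, hx1, hx2⟩ : ∃ x : 𝓞 F, x ∈ v.asIdeal ∧ x ∉ w.asIdeal := by
    by_contra! H
    exact h (HeightOneSpectrum.ext_iff.mpr (v.isMaximal.eq_of_le w.isPrime.ne_top H))
  refine ⟨x, ?_, ?_⟩
  · rw [HeightOneSpectrum.valuation_of_algebraMap]
    exact (v.intValuation_lt_one_iff_mem x).mpr hx1
  · refine le_antisymm (w.valuation_le_one x) (not_lt.mp fun h' => ?_)
    rw [HeightOneSpectrum.valuation_of_algebraMap] at h'
    exact hx2 ((w.intValuation_lt_one_iff_mem x).mp h')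

/-- A left factor of a quaternion which is primitive at `v`. -/
theorem exists_pi (hA : Adm a b S)
    (hpid : ∀ I : AddSubgroup (Qt a b), I ≠ ⊥ → (∀ x ∈ I, IntQ S x) →
      (∀ x ∈ I, ∀ y, IntQ S y → x * y ∈ I) →
      ∃ q : (Qt a b)ˣ, ∀ x, x ∈ I ↔ IntQ S (((q⁻¹ : (Qt a b)ˣ) : Qt a b) * x))
    (hv : v ∉ S) (Y : Qt a b) (hY : IntQ S Y) (h1 : v.valuation F (nrd Y) < 1) (h2 : ¬ Dv v Y) :
    ∃ π : (Qt a b)ˣ, IntQ S (π : Qt a b) ∧
      v.valuation F (nrd (π : Qt a b)) = WithZero.exp (-1 : ℤ) ∧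
      (∀ w ∉ S, w ≠ v → w.valuation F (nrd (π : Qt a b)) = 1) ∧
      IntQ S (((π⁻¹ : (Qt a b)ˣ) : Qt a b) * Y) := by
  let I : AddSubgroup (Qt a b) :=
    { carrier := {z | IntQ S z ∧ ∃ s : Qt a b, IntQ S s ∧ Dv v (z - Y * s)}
      add_mem' := by
        rintro z z' ⟨hz, s, hs, hd⟩ ⟨hz', s', hs', hd'⟩
        refine ⟨hz.add hz', s + s', hs.add hs', ?_⟩
        have e : z + z' - Y * (s + s') = (z - Y * s) + (z' - Y * s') := by
          rw [mul_add]; abel
        rw [e]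
        exact Dv.add' hd hd'
      zero_mem' := ⟨IntQ.zero, 0, IntQ.zero, by rw [mul_zero, sub_zero]; exact Dv.zero'⟩
      neg_mem' := by
        rintro z ⟨hz, s, hs, hd⟩
        refine ⟨hz.neg, -s, hs.neg, ?_⟩
        have e : -z - Y * -s = -(z - Y * s) := by rw [mul_neg]; abel
        rw [e]
        exact Dv.neg' hd }
  have hYI : Y ∈ I := ⟨hY, 1, IntQ.one, by rw [mul_one, sub_self]; exact Dv.zero'⟩
  have hbot : I ≠ ⊥ := by
    intro h
    rw [h, AddSubgroup.mem_bot] at hYI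
    exact h2 (by rw [hYI]; exact Dv.zero')
  obtain ⟨q, hq⟩ := hpid I hbot (fun x hx => hx.1) (by
    rintro z ⟨hz, s, hs, hd⟩ y hy
    refine ⟨hz.mul hA hy, s * y, hs.mul hA hy, ?_⟩
    rw [← mul_assoc, ← sub_mul]
    exact dv_of_mul_left hA hv hd (IntQ.at hy hv))
  have hqI : (q : Qt a b) ∈ I := (hq _).mpr (by rw [Units.inv_mul]; exact IntQ.one)
  have hqint : IntQ S (q : Qt a b) := hqI.1
  have hmemI : ∀ s : 𝓞 F, v.valuation F (s : F) < 1 → ((s : F) • (1 : Qt a b)) ∈ I := by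
    intro s hs
    refine ⟨IntQ.smul (IntF.ofInt s) IntQ.one, 0, IntQ.zero, ?_⟩
    rw [mul_zero, sub_zero]
    refine ⟨?_, ?_, ?_, ?_⟩
    · rw [QuaternionAlgebra.re_smul, QuaternionAlgebra.re_one, smul_eq_mul, mul_one]
      exact hs
    · rw [QuaternionAlgebra.imI_smul, QuaternionAlgebra.imI_one, smul_zero, map_zero]
      exact zero_lt_one
    · rw [QuaternionAlgebra.imJ_smul, QuaternionAlgebra.imJ_one, smul_zero, map_zero]
      exact zero_lt_one
    · rw [QuaternionAlgebra.imK_smul, QuaternionAlgebra.imK_one, smul_zero, map_zero]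
      exact zero_lt_one
  have hsq : ∀ s : 𝓞 F, v.valuation F (s : F) < 1 →
      IntQ S ((s : F) • ((q⁻¹ : (Qt a b)ˣ) : Qt a b)) := by
    intro s hs
    have := (hq _).mp (hmemI s hs)
    rwa [mul_smul_comm, mul_one] at this
  refine ⟨q, hqint, ?_, ?_, (hq _).mp hYI⟩
  · -- the valuation at `v`
    obtain ⟨t, ht⟩ := exists_int_unif v
    have ht1 : v.valuation F (t : F) < 1 := by
      rw [ht, ← WithZero.exp_zero, WithZero.exp_lt_exp]; norm_num
    have ht0 : (t : F) ≠ 0 := by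
      intro h
      rw [h, map_zero] at ht
      exact WithZero.exp_ne_zero ht.symm
    have hz := IntQ.at (hsq t ht1) hv
    have hq0 : nrd (q : Qt a b) ≠ 0 := nrd_ne q
    have hlow : WithZero.exp (-2 : ℤ) ≤ v.valuation F (nrd (q : Qt a b)) := by
      have h3 := IntA.nrd_le hA hv hz
      rw [nrd_smul', nrd_inv, map_mul, map_inv₀, map_pow, ht] at h3
      rw [mul_inv_le_iff₀ (zero_lt_iff.mpr ((Valuation.ne_zero_iff _).mpr hq0)), one_mul] at h3
      refine le_trans (le_of_eq ?_) h3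
      rw [← WithZero.exp_nsmul]; rfl
    have hhigh : v.valuation F (nrd (q : Qt a b)) < 1 := by
      obtain ⟨_, s, hs, hd⟩ := hqI
      set p : Qt a b := (q : Qt a b) - Y * s with hp
      have e : (q : Qt a b) = Y * s + p := by rw [hp]; abel
      rw [e, nrd_add]
      have hYs : IntA v (Y * s) := IntQ.at (hY.mul hA hs) hv
      refine (v.valuation F).map_add_lt ((v.valuation F).map_add_lt ?_ ?_) ?_
      · rw [nrd_mul, map_mul]
        exact mul_lt_one_of_lt_of_le h1 (IntA.nrd_le hA hv (IntQ.at hs hv))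
      · have hdc : Dv v (cj p) := by
          obtain ⟨d1, d2, d3, d4⟩ := hd
          refine ⟨d1, ?_, ?_, ?_⟩
          · rw [cj_imI, Valuation.map_neg]; exact d2
          · rw [cj_imJ, Valuation.map_neg]; exact d3
          · rw [cj_imK, Valuation.map_neg]; exact d4
        have h5 := (dv_of_mul_right hA hv hYs hdc).1
        rw [trd, map_mul, mul_comm]
        exact mul_lt_one_of_lt_of_le h5 (by exact_mod_cast i0_val_nat_le v 2)
      · refine lt_of_le_of_lt (val_nrd_of_Dv (hA.a v hv).le (hA.b v hv).le hd) ?_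
        rw [← WithZero.exp_zero, WithZero.exp_lt_exp]; norm_num
    have hle : v.valuation F (nrd (q : Qt a b)) ≤ WithZero.exp (-1 : ℤ) := lt_one_iff_le_exp.mp hhigh
    obtain ⟨n, hn⟩ : ∃ n : ℤ, v.valuation F (nrd (q : Qt a b)) = WithZero.exp n :=
      ⟨WithZero.log _, (WithZero.exp_log ((Valuation.ne_zero_iff _).mpr hq0)).symm⟩
    rw [hn, WithZero.exp_le_exp] at hle hlow
    rw [hn]
    rcases (show n = -1 ∨ n = -2 by omega) with h3 | h3
    · rw [h3]
    · exfalso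
      rw [h3] at hn
      set z : Qt a b := (t : F) • ((q⁻¹ : (Qt a b)ˣ) : Qt a b) with hzdef
      have hnz : v.valuation F (nrd z) = 1 := by
        rw [hzdef, nrd_smul', nrd_inv, map_mul, map_inv₀, map_pow, ht, hn, ← WithZero.exp_nsmul,
          ← WithZero.exp_neg, ← WithZero.exp_add]
        rfl
      have hz1 : z * (q : Qt a b) = (t : F) • (1 : Qt a b) := by
        rw [hzdef, smul_mul_assoc, Units.inv_mul]
      have hnz0 : nrd z ≠ 0 := by
        intro h
        rw [h, map_zero] at hnz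
        exact zero_ne_one hnz
      have hdq : Dv v (q : Qt a b) := by
        rw [dv_iff ht]
        have e : ((t : F)⁻¹ • (q : Qt a b)) = (nrd z)⁻¹ • cj z := by
          have h4 : cj z * z * (q : Qt a b) = (t : F) • cj z := by
            rw [mul_assoc, hz1, mul_smul_comm, mul_one]
          rw [cj_mul_self, Algebra.algebraMap_eq_smul_one, smul_mul_assoc, one_mul] at h4
          have h5 : (q : Qt a b) = (nrd z)⁻¹ • ((t : F) • cj z) := by
            rw [← h4, smul_smul, inv_mul_cancel₀ hnz0, one_smul]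
          rw [h5, smul_smul, smul_smul]
          congr 1
          field_simp
        rw [e]
        refine IntA.smul' ?_ (IntA.cj' hz)
        rw [map_inv₀, hnz, inv_one]
      have hYq : Dv v Y := by
        have h4 := (hq _).mp hYI
        have e : Y = (q : Qt a b) * (((q⁻¹ : (Qt a b)ˣ) : Qt a b) * Y) := by
          rw [← mul_assoc, Units.mul_inv, one_mul]
        rw [e]
        exact dv_of_mul_left hA hv hdq (IntQ.at h4 hv)
      exact h2 hYq
  · intro w hw hwv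
    obtain ⟨s, hs1, hs2⟩ := exists_sep (Ne.symm hwv)
    have h3 := IntA.nrd_le hA hw (IntQ.at (hsq s hs1) hw)
    rw [nrd_smul', nrd_inv, map_mul, map_inv₀, map_pow, hs2, one_pow, one_mul] at h3
    have h4 : w.valuation F (nrd (q : Qt a b)) ≤ 1 := IntA.nrd_le hA hw (IntQ.at hqint hw)
    have h5 : 0 < w.valuation F (nrd (q : Qt a b)) :=
      zero_lt_iff.mpr ((Valuation.ne_zero_iff _).mpr (nrd_ne q))
    exact le_antisymm h4 ((inv_le_one₀ h5).mp h3)

omit [NumberField F] in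
theorem nrd_conj (g x : (Qt a b)ˣ) : nrd ((g * x * g⁻¹ : (Qt a b)ˣ) : Qt a b) = nrd (x : Qt a b) := by
  rw [Units.val_mul, Units.val_mul, nrd_mul, nrd_mul, nrd_inv]
  have := nrd_ne g
  field_simp

/-- The elements of the norm-one group with trivial images. -/
def Kn {R : Type} [Group R] (c c' : SL1 a b →* R) : Subgroup (Qt a b)ˣ :=
  (c.ker ⊓ c'.ker).map (SL1 a b).subtype

/-- The elements of the norm-one group with equal images. -/
def En {R : Type} [Group R] (c c' : SL1 a b →* R) : Subgroup (Qt a b)ˣ :=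
  (c.eqLocus c').map (SL1 a b).subtype

omit [NumberField F] in
theorem mem_Kn {R : Type} [Group R] {c c' : SL1 a b →* R} {x : (Qt a b)ˣ} :
    x ∈ Kn c c' ↔ ∃ h : x ∈ SL1 a b, c ⟨x, h⟩ = 1 ∧ c' ⟨x, h⟩ = 1 := by
  constructor
  · rintro ⟨y, ⟨h1, h2⟩, rfl⟩
    exact ⟨y.2, h1, h2⟩
  · rintro ⟨h, h1, h2⟩
    exact ⟨⟨x, h⟩, ⟨h1, h2⟩, rfl⟩

omit [NumberField F] in
theorem mem_En {R : Type} [Group R] {c c' : SL1 a b →* R} {x : (Qt a b)ˣ} :
    x ∈ En c c' ↔ ∃ h : x ∈ SL1 a b, c ⟨x, h⟩ = c' ⟨x, h⟩ := by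
  constructor
  · rintro ⟨y, h1, rfl⟩
    exact ⟨y.2, h1⟩
  · rintro ⟨h, h1⟩
    exact ⟨⟨x, h⟩, h1, rfl⟩

omit [NumberField F] in
theorem Kn_le {R : Type} [Group R] (c c' : SL1 a b →* R) : Kn c c' ≤ En c c' := by
  intro x hx
  obtain ⟨h, h1, h2⟩ := mem_Kn.mp hx
  exact mem_En.mpr ⟨h, h1.trans h2.symm⟩

omit [NumberField F] in
theorem Kn_conj {R : Type} [Group R] (c c' : SL1 a b →* R) {g x : (Qt a b)ˣ} (hg : g ∈ SL1 a b)
    (hx : x ∈ Kn c c') : g * x * g⁻¹ ∈ Kn c c' := by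
  obtain ⟨h, h1, h2⟩ := mem_Kn.mp hx
  refine mem_Kn.mpr ⟨mul_mem (mul_mem hg h) (inv_mem hg), ?_, ?_⟩
  · have e : (⟨g * x * g⁻¹, mul_mem (mul_mem hg h) (inv_mem hg)⟩ : SL1 a b) =
        ⟨g, hg⟩ * ⟨x, h⟩ * ⟨g, hg⟩⁻¹ := rfl
    rw [e, map_mul, map_mul, h1, map_inv, mul_one, mul_inv_cancel]
  · have e : (⟨g * x * g⁻¹, mul_mem (mul_mem hg h) (inv_mem hg)⟩ : SL1 a b) =
        ⟨g, hg⟩ * ⟨x, h⟩ * ⟨g, hg⟩⁻¹ := rfl
    rw [e, map_mul, map_mul, h2, map_inv, mul_one, mul_inv_cancel]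

/-- Conjugates by a prime element. -/
theorem conj_mem {R : Type} [Group R] {e : ℕ} (hR : ∀ r : R, r ^ e = 1) (c c' : SL1 a b →* R)
    (hS : Big a b e S) (hE : Gam a b S hS.adm ≤ En c c') (hv : v ∉ S) (π : (Qt a b)ˣ)
    (hπ : IntQ S (π : Qt a b)) (hπ1 : v.valuation F (nrd (π : Qt a b)) = WithZero.exp (-1 : ℤ))
    (hπ2 : ∀ w ∉ S, w ≠ v → w.valuation F (nrd (π : Qt a b)) = 1) (γ : (Qt a b)ˣ)
    (hγ : γ ∈ Gam a b S hS.adm) : π * γ * π⁻¹ ∈ En c c' := by
  have hA := hS.adm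
  -- the auxiliary normal subgroup
  let H : Subgroup (Qt a b)ˣ := Gam a b S hA ⊓ (Kn c c').comap (MulAut.conj π).toMonoidHom
  have hH : ∀ x, x ∈ H ↔ x ∈ Gam a b S hA ∧ π * x * π⁻¹ ∈ Kn c c' := by
    intro x
    rw [Subgroup.mem_inf, Subgroup.mem_comap]
    exact Iff.rfl
  have hSL : ∀ x ∈ Gam a b S hA, x ∈ SL1 a b := fun x hx => (mem_Gam.mp hx).1
  have hcSL : ∀ x ∈ Gam a b S hA, π * x * π⁻¹ ∈ SL1 a b := by
    intro x hx
    change nrd ((π * x * π⁻¹ : (Qt a b)ˣ) : Qt a b) = 1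
    rw [nrd_conj]
    exact (mem_Gam.mp hx).1
  have hn : ∀ g ∈ Gam a b S hA, ∀ h ∈ H, g * h * g⁻¹ ∈ H := by
    intro g hg h hh
    rw [hH] at hh ⊢
    refine ⟨mul_mem (mul_mem hg hh.1) (inv_mem hg), ?_⟩
    have e1 : π * (g * h * g⁻¹) * π⁻¹ = (π * g * π⁻¹) * (π * h * π⁻¹) * (π * g * π⁻¹)⁻¹ := by group
    rw [e1]
    exact Kn_conj c c' (hcSL g hg) hh.2
  have hpow : ∀ g ∈ Gam a b S hA, g ^ e ∈ H := by
    intro g hg
    rw [hH]
    refine ⟨pow_mem hg e, ?_⟩
    have e1 : π * g ^ e * π⁻¹ = (π * g * π⁻¹) ^ e := by rw [conj_pow]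
    rw [e1]
    refine mem_Kn.mpr ⟨pow_mem (hcSL g hg) e, ?_, ?_⟩
    · have e2 : (⟨(π * g * π⁻¹) ^ e, pow_mem (hcSL g hg) e⟩ : SL1 a b) =
          ⟨π * g * π⁻¹, hcSL g hg⟩ ^ e := rfl
      rw [e2, map_pow, hR]
    · have e2 : (⟨(π * g * π⁻¹) ^ e, pow_mem (hcSL g hg) e⟩ : SL1 a b) =
          ⟨π * g * π⁻¹, hcSL g hg⟩ ^ e := rfl
      rw [e2, map_pow, hR]
  have hndv : ¬ Dv v (cj (π : Qt a b)) := by
    intro h
    have h1 := val_nrd_of_Dv (hA.a v hv).le (hA.b v hv).le h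
    rw [nrd_cj, hπ1, WithZero.exp_le_exp] at h1
    omega
  have hlt : v.valuation F (nrd (cj (π : Qt a b))) < 1 := by
    rw [nrd_cj, hπ1, ← WithZero.exp_zero, WithZero.exp_lt_exp]; norm_num
  have hγi := (mem_Gam.mp hγ).2
  have hγ1 := (mem_Gam.mp hγ).1
  have hndv' : ¬ Dv v ((γ : Qt a b) * cj (π : Qt a b)) := by
    intro h
    apply hndv
    have e1 : cj (π : Qt a b) = ((γ⁻¹ : (Qt a b)ˣ) : Qt a b) * ((γ : Qt a b) * cj (π : Qt a b)) := by
      rw [← mul_assoc, Units.inv_mul, one_mul]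
    rw [e1]
    exact dv_of_mul_right hA hv (IntQ.at (mem_Gam.mp (inv_mem hγ)).2 hv) h
  have hlt' : v.valuation F (nrd ((γ : Qt a b) * cj (π : Qt a b))) < 1 := by
    rw [nrd_mul, hγ1, one_mul]
    exact hlt
  obtain ⟨h, hh, hd⟩ := hS.tr v hv H inf_le_left hn hpow (cj (π : Qt a b))
    ((γ : Qt a b) * cj (π : Qt a b)) hπ.cj (hγi.mul hA hπ.cj) hlt hlt' hndv hndv'
  rw [cj_mul, cj_cj, ← inv_eq_cj hγ1] at hd
  rw [hH] at hh
  have hg1 : π * γ⁻¹ * h * π⁻¹ ∈ Gam a b S hA := by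
    rw [mem_Gam]
    constructor
    · rw [show π * γ⁻¹ * h * π⁻¹ = π * (γ⁻¹ * h) * π⁻¹ by group, nrd_conj]
      exact (mem_Gam.mp (mul_mem (inv_mem hγ) hh.1)).1
    · have e1 : ((π * γ⁻¹ * h * π⁻¹ : (Qt a b)ˣ) : Qt a b) = (nrd (π : Qt a b))⁻¹ •
          ((π : Qt a b) * ((γ⁻¹ : (Qt a b)ˣ) : Qt a b) * (h : Qt a b) * cj (π : Qt a b)) := by
        rw [Units.val_mul, Units.val_mul, Units.val_mul, inv_val π, mul_smul_comm]
      have hprod : IntQ S ((π : Qt a b) * ((γ⁻¹ : (Qt a b)ˣ) : Qt a b) * (h : Qt a b) *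
          cj (π : Qt a b)) :=
        (((hπ.mul hA (mem_Gam.mp (inv_mem hγ)).2).mul hA (mem_Gam.mp hh.1).2).mul hA hπ.cj)
      have key : ∀ w ∉ S, IntA w ((π * γ⁻¹ * h * π⁻¹ : (Qt a b)ˣ) : Qt a b) := by
        intro w hw
        rw [e1]
        by_cases hwv : w = v
        · subst hwv
          exact (dv_iff hπ1).mp hd
        · refine IntA.smul' ?_ (IntQ.at hprod hw)
          rw [map_inv₀, hπ2 w hw hwv, inv_one]
      exact ⟨fun w hw => (key w hw).1, fun w hw => (key w hw).2.1, fun w hw => (key w hw).2.2.1,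
        fun w hw => (key w hw).2.2.2⟩
  have h3 : (π * γ⁻¹ * h * π⁻¹) * (π * h * π⁻¹)⁻¹ ∈ En c c' :=
    mul_mem (hE hg1) (inv_mem (Kn_le c c' hh.2))
  have e3 : (π * γ⁻¹ * h * π⁻¹) * (π * h * π⁻¹)⁻¹ = (π * γ * π⁻¹)⁻¹ := by group
  rw [e3] at h3
  exact inv_mem_iff.mp h3

/-- The main induction. -/
theorem extend_aux {R : Type} [Group R] {e : ℕ} (hR : ∀ r : R, r ^ e = 1) (c c' : SL1 a b →* R)
    (hS : Big a b e S) (hE : Gam a b S hS.adm ≤ En c c') (hv : v ∉ S) :
    ∀ (n : ℕ) (y : (Qt a b)ˣ), y ∈ SL1 a b → IntQ (insert v S) (y : Qt a b) →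
      (∀ t : F, v.valuation F t = WithZero.exp (-1 : ℤ) → IntA v (t ^ n • (y : Qt a b))) →
      y ∈ En c c' := by
  have hA := hS.adm
  intro n
  induction n with
  | zero =>
    intro y hy hy1 hy2
    obtain ⟨t, ht⟩ := v.valuation_exists_uniformizer F
    have h1 := hy2 t ht
    rw [pow_zero, one_smul] at h1
    refine hE (mem_Gam.mpr ⟨hy, ?_⟩)
    have key : ∀ w ∉ S, IntA w (y : Qt a b) := by
      intro w hw
      by_cases hwv : w = v
      · rw [hwv]; exact h1
      · exact IntQ.at hy1 (fun h => (Set.mem_insert_iff.mp h).elim hwv hw)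
    exact ⟨fun w hw => (key w hw).1, fun w hw => (key w hw).2.1, fun w hw => (key w hw).2.2.1,
      fun w hw => (key w hw).2.2.2⟩
  | succ n ih =>
    intro y hy hy1 hy2
    obtain ⟨t, ht⟩ := exists_int_unif v
    have ht0 : (t : F) ≠ 0 := by
      intro h
      rw [h, map_zero] at ht
      exact WithZero.exp_ne_zero ht.symm
    set Y : Qt a b := (t : F) ^ (n + 1) • (y : Qt a b) with hY
    have hYv : IntA v Y := hy2 t ht
    -- change of the uniformizer
    have hchange : ∀ (m : ℕ) (z : Qt a b), IntA v ((t : F) ^ m • z) →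
        ∀ s : F, v.valuation F s = WithZero.exp (-1 : ℤ) → IntA v (s ^ m • z) := by
      intro m z hz s hs
      have e1 : s ^ m • z = (s ^ m * ((t : F) ^ m)⁻¹) • ((t : F) ^ m • z) := by
        rw [smul_smul, mul_assoc, inv_mul_cancel₀ (pow_ne_zero m ht0), mul_one]
      rw [e1]
      refine IntA.smul' ?_ hz
      rw [map_mul, map_inv₀, map_pow, map_pow, hs, ht, mul_inv_cancel₀]
      exact pow_ne_zero m WithZero.exp_ne_zero
    by_cases hd : Dv v Y
    · refine ih y hy hy1 (hchange n _ ?_)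
      rw [dv_iff ht, hY, smul_smul] at hd
      have e1 : (t : F)⁻¹ * (t : F) ^ (n + 1) = (t : F) ^ n := by
        rw [pow_succ]
        field_simp
      rwa [e1] at hd
    · have hYint : IntQ S Y := by
        have key : ∀ w ∉ S, IntA w Y := by
          intro w hw
          by_cases hwv : w = v
          · rw [hwv]; exact hYv
          · refine IntA.smul' ?_ (IntQ.at hy1 (fun h => (Set.mem_insert_iff.mp h).elim hwv hw))
            rw [map_pow]
            exact pow_le_one' (w.valuation_le_one t) _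
        exact ⟨fun w hw => (key w hw).1, fun w hw => (key w hw).2.1, fun w hw => (key w hw).2.2.1,
          fun w hw => (key w hw).2.2.2⟩
      have hnY : v.valuation F (nrd Y) = WithZero.exp (-(2 * (n + 1 : ℕ) : ℤ)) := by
        have hy' : nrd (y : Qt a b) = 1 := hy
        rw [hY, nrd_smul', hy', mul_one, map_pow, map_pow, ht, ← pow_mul, ← WithZero.exp_nsmul]
        congr 1
        simp
        ring
      obtain ⟨π, hπ, hπ1, hπ2, hπ3⟩ := exists_pi hA hS.pid hv Y hYint (by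
        rw [hnY, ← WithZero.exp_zero, WithZero.exp_lt_exp]; omega) hd
      set Z : Qt a b := ((π⁻¹ : (Qt a b)ˣ) : Qt a b) * Y with hZ
      have hYZ : Y = (π : Qt a b) * Z := by rw [hZ, ← mul_assoc, Units.mul_inv, one_mul]
      have hdZ : ¬ Dv v Z := by
        intro h
        apply hd
        rw [hYZ]
        exact dv_of_mul_right hA hv (IntQ.at hπ hv) h
      have hnZ : v.valuation F (nrd Z) < 1 := by
        rw [hZ, nrd_mul, nrd_inv, map_mul, map_inv₀, hπ1, hnY, ← WithZero.exp_neg,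
          ← WithZero.exp_add, ← WithZero.exp_zero, WithZero.exp_lt_exp]
        push_cast
        omega
      have hndv : ¬ Dv v (cj (π : Qt a b)) := by
        intro h
        have h1 := val_nrd_of_Dv (hA.a v hv).le (hA.b v hv).le h
        rw [nrd_cj, hπ1, WithZero.exp_le_exp] at h1
        omega
      have hlt : v.valuation F (nrd (cj (π : Qt a b))) < 1 := by
        rw [nrd_cj, hπ1, ← WithZero.exp_zero, WithZero.exp_lt_exp]; norm_num
      obtain ⟨γ, hγ, hdγ⟩ := hS.tr v hv (Gam a b S hA) le_rfl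
        (fun g hg h hh => mul_mem (mul_mem hg hh) (inv_mem hg)) (fun g hg => pow_mem hg e)
        Z (cj (π : Qt a b)) hπ3 hπ.cj hnZ hlt hdZ hndv
      rw [cj_cj] at hdγ
      have hg := conj_mem hR c c' hS hE hv π hπ hπ1 hπ2 γ hγ
      set g : (Qt a b)ˣ := π * γ * π⁻¹ with hgdef
      have hgSL : g ∈ SL1 a b := (mem_En.mp hg).1
      have hgy : g * y ∈ En c c' := by
        refine ih (g * y) (mul_mem hgSL hy) ?_ (hchange n _ ?_)
        · have key : ∀ w ∉ (insert v S : Set (HeightOneSpectrum (𝓞 F))),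
              IntA w ((g * y : (Qt a b)ˣ) : Qt a b) := by
            intro w hw
            have hwv : w ≠ v := fun h => hw (Set.mem_insert_iff.mpr (Or.inl h))
            have hwS : w ∉ S := fun h => hw (Set.mem_insert_of_mem _ h)
            have hπi : IntA w ((π⁻¹ : (Qt a b)ˣ) : Qt a b) := by
              rw [inv_val]
              refine IntA.smul' ?_ (IntA.cj' (IntQ.at hπ hwS))
              rw [map_inv₀, hπ2 w hwS hwv, inv_one]
            rw [hgdef, Units.val_mul, Units.val_mul, Units.val_mul]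
            exact IntA.mul' hA hwS (IntA.mul' hA hwS (IntA.mul' hA hwS (IntQ.at hπ hwS)
              (IntQ.at (mem_Gam.mp hγ).2 hwS)) hπi) (IntQ.at hy1 hw)
          exact ⟨fun w hw => (key w hw).1, fun w hw => (key w hw).2.1, fun w hw => (key w hw).2.2.1,
            fun w hw => (key w hw).2.2.2⟩
        · have e1 : (t : F) ^ n • ((g * y : (Qt a b)ˣ) : Qt a b) =
              (t : F)⁻¹ • ((π : Qt a b) * (γ : Qt a b) * Z) := by
            rw [hZ, hY, hgdef, Units.val_mul, Units.val_mul, Units.val_mul, mul_smul_comm,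
              mul_smul_comm, smul_smul]
            have e2 : (t : F)⁻¹ * (t : F) ^ (n + 1) = (t : F) ^ n := by
              rw [pow_succ]
              field_simp
            rw [e2]
            simp only [mul_assoc]
          rw [e1]
          exact (dv_iff ht).mp hdγ
      have e4 : y = g⁻¹ * (g * y) := by group
      rw [e4]
      exact mul_mem (inv_mem hg) hgy

theorem exists_bound (v : HeightOneSpectrum (𝓞 F)) (z : F) :
    ∃ n : ℕ, v.valuation F z ≤ WithZero.exp (n : ℤ) := by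
  by_cases hz : z = 0
  · exact ⟨0, by rw [hz, map_zero]; exact zero_le⟩
  · have h0 : v.valuation F z ≠ 0 := (Valuation.ne_zero_iff _).mpr hz
    refine ⟨(WithZero.log (v.valuation F z)).toNat, ?_⟩
    calc v.valuation F z = WithZero.exp (WithZero.log (v.valuation F z)) := (WithZero.exp_log h0).symm
      _ ≤ _ := WithZero.exp_le_exp.mpr (Int.self_le_toNat _)

theorem exists_den_at (v : HeightOneSpectrum (𝓞 F)) (y : Qt a b) :
    ∃ n : ℕ, ∀ t : F, v.valuation F t = WithZero.exp (-1 : ℤ) → IntA v (t ^ n • y) := by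
  obtain ⟨n1, h1⟩ := exists_bound v y.re
  obtain ⟨n2, h2⟩ := exists_bound v y.imI
  obtain ⟨n3, h3⟩ := exists_bound v y.imJ
  obtain ⟨n4, h4⟩ := exists_bound v y.imK
  have key : ∀ (t : F), v.valuation F t = WithZero.exp (-1 : ℤ) → ∀ (z : F) (m : ℕ),
      v.valuation F z ≤ WithZero.exp (m : ℤ) → m ≤ n1 + n2 + n3 + n4 →
      v.valuation F (t ^ (n1 + n2 + n3 + n4) * z) ≤ 1 := by
    intro t ht z m hz hm
    rw [map_mul, map_pow, ht, ← WithZero.exp_nsmul]
    calc _ ≤ WithZero.exp ((n1 + n2 + n3 + n4) • (-1 : ℤ)) * WithZero.exp (m : ℤ) :=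
          mul_le_mul_right hz _
      _ = WithZero.exp ((n1 + n2 + n3 + n4) • (-1 : ℤ) + m) := (WithZero.exp_add _ _).symm
      _ ≤ WithZero.exp 0 := WithZero.exp_le_exp.mpr (by
          rw [smul_neg, nsmul_eq_mul, mul_one]; push_cast; omega)
      _ = 1 := WithZero.exp_zero
  refine ⟨n1 + n2 + n3 + n4, fun t ht => ⟨?_, ?_, ?_, ?_⟩⟩
  · rw [QuaternionAlgebra.re_smul, smul_eq_mul]
    exact key t ht _ _ h1 (by omega)
  · rw [QuaternionAlgebra.imI_smul, smul_eq_mul]
    exact key t ht _ _ h2 (by omega)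
  · rw [QuaternionAlgebra.imJ_smul, smul_eq_mul]
    exact key t ht _ _ h3 (by omega)
  · rw [QuaternionAlgebra.imK_smul, smul_eq_mul]
    exact key t ht _ _ h4 (by omega)

/-- A quaternion is integral outside a finite set. -/
theorem exists_finite (y : Qt a b) :
    ∃ T : Set (HeightOneSpectrum (𝓞 F)), T.Finite ∧ IntQ T y := by
  have key : ∀ z : F, ∃ T : Set (HeightOneSpectrum (𝓞 F)), T.Finite ∧ IntF T z := by
    intro z
    by_cases hz : z = 0
    · exact ⟨∅, Set.finite_empty, by rw [hz]; exact IntF.zero⟩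
    · refine ⟨_, finite_valuation_ne_one z hz, fun v hv => ?_⟩
      have : v.valuation F z = 1 := by
        by_contra h
        exact hv h
      exact this.le
  obtain ⟨T1, f1, h1⟩ := key y.re
  obtain ⟨T2, f2, h2⟩ := key y.imI
  obtain ⟨T3, f3, h3⟩ := key y.imJ
  obtain ⟨T4, f4, h4⟩ := key y.imK
  refine ⟨T1 ∪ T2 ∪ T3 ∪ T4, ((f1.union f2).union f3).union f4, h1.mono ?_, h2.mono ?_, h3.mono ?_,
    h4.mono ?_⟩
  · exact fun x hx => Or.inl (Or.inl (Or.inl hx))
  · exact fun x hx => Or.inl (Or.inl (Or.inr hx))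
  · exact fun x hx => Or.inl (Or.inr hx)
  · exact fun x hx => Or.inr hx

end I34

variable {F : Type} [Field F] [NumberField F]

/-- I3 + I4: one more prime. -/
theorem extend (a b : Fˣ) {R : Type} [Group R] (e : ℕ)
    (hR : ∀ r : R, r ^ e = 1) (c c' : SL1 a b →* R) (S : Set (HeightOneSpectrum (𝓞 F)))
    (hS : Big a b e S) (h : ∀ x : SL1 a b, IntQ S ((x : (Qt a b)ˣ) : Qt a b) → c x = c' x)
    (v : HeightOneSpectrum (𝓞 F)) (hv : v ∉ S) (x : SL1 a b)
    (hx : IntQ (insert v S) ((x : (Qt a b)ˣ) : Qt a b)) : c x = c' x := by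
  have hE : Gam a b S hS.adm ≤ I34.En c c' := by
    intro g hg
    exact I34.mem_En.mpr ⟨(mem_Gam.mp hg).1, h ⟨g, (mem_Gam.mp hg).1⟩ (mem_Gam.mp hg).2⟩
  obtain ⟨n, hn⟩ := I34.exists_den_at v ((x : (Qt a b)ˣ) : Qt a b)
  obtain ⟨h1, h2⟩ := I34.mem_En.mp (I34.extend_aux hR c c' hS hE hv n (x : (Qt a b)ˣ) x.2 hx hn)
  exact h2

/-- Homomorphisms which agree on the integral elements agree. -/
theorem hom_ext (a b : Fˣ) (hab : Aniso a b) (e : ℕ) (he : 0 < e) :
    ∃ M : ℕ, M ≠ 0 ∧ ∀ M' : ℕ, M' ≠ 0 → M ∣ M' → Adm a b (SM F M') ∧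
      ∀ {R : Type} [Group R], (∀ r : R, r ^ e = 1) → ∀ c c' : SL1 a b →* R,
        (∀ x : SL1 a b, IntQ (SM F M') ((x : (Qt a b)ˣ) : Qt a b) → c x = c' x) → c = c' := by
  obtain ⟨M, hM, hbig⟩ := exists_big a b hab e he
  refine ⟨M, hM, fun M' _ hd => ⟨(hbig _ (SM_mono hd)).adm, ?_⟩⟩
  intro R _ hR c c' h
  have key : ∀ T : Set (HeightOneSpectrum (𝓞 F)), T.Finite → ∀ x : SL1 a b,
      IntQ (SM F M' ∪ T) ((x : (Qt a b)ˣ) : Qt a b) → c x = c' x := by
    intro T hT
    induction T, hT using Set.Finite.induction_on with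
    | empty =>
      intro x hx
      exact h x (by rwa [Set.union_empty] at hx)
    | @insert v T hvT hT ih =>
      intro x hx
      by_cases hv : v ∈ SM F M' ∪ T
      · refine ih x ?_
        rwa [Set.union_insert, Set.insert_eq_of_mem hv] at hx
      · refine extend a b e hR c c' (SM F M' ∪ T)
          (hbig _ ((SM_mono hd).trans Set.subset_union_left)) ih v hv x ?_
        rwa [Set.union_insert] at hx
  ext x
  obtain ⟨T, hT, hx⟩ := I34.exists_finite ((x : (Qt a b)ˣ) : Qt a b)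
  exact key T hT x (hx.mono Set.subset_union_right)

end Vale.Agent.P011.MPQ
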