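import Mathlib

/-!
A finite quotient of a subgroup of a group with a notion of closeness kills the elements of norm
one close to one: abstract descent along the upper central series.
-/

open scoped commutatorElement

namespace Vale.Agent.P011.MPQ

variable {Q A : Type} [Group Q] [Group A]

/-- A group with a map `ν` and a filter of neighbourhoods of one such that elements of the kernel
close to one are commutators of elements close to one, and such that pairs of elements close to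
one can be changed to commuting ones without changing `ν`. -/
structure NearGrp (ν : Q →* A) (𝓕 : Filter Q) : Prop where
  one : ∀ S ∈ 𝓕, (1 : Q) ∈ S
  mul : ∀ S ∈ 𝓕, ∃ T ∈ 𝓕, ∀ x ∈ T, ∀ y ∈ T, x * y ∈ S
  inv : ∀ S ∈ 𝓕, ∃ T ∈ 𝓕, ∀ x ∈ T, x⁻¹ ∈ S
  comm : ∀ S ∈ 𝓕, ∃ T ∈ 𝓕, ∀ x ∈ T, ν x = 1 → ∃ y ∈ S, ∃ z ∈ S, x = y * z * y⁻¹ * z⁻¹
  slot : ∀ S ∈ 𝓕, ∃ T ∈ 𝓕, ∀ x ∈ T, ∀ y ∈ T, ∃ a ∈ S, ∃ b ∈ S,
    a * b = b * a ∧ ν a = ν x ∧ ν b = ν y
  hyp : ∀ (U : Subgroup Q), (U : Set Q) ∈ 𝓕 → ∀ {R : Type} [Group R] [Finite R] (c : U →* R),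
    ∃ n : ℕ, ∃ T ∈ 𝓕, ∀ x : U, (x : Q) ∈ T → c.rangeRestrict x ∈ Subgroup.upperCentralSeries c.range n

theorem comm_mem_of_central {G : Type*} [Group G] (Z : Subgroup G) [Z.Normal] {y z g h : G}
    (hg : ∀ t, ⁅g, t⁆ ∈ Z) (hh : ∀ t, ⁅h, t⁆ ∈ Z)
    (hc : (y * g) * (z * h) = (z * h) * (y * g)) : y * z * y⁻¹ * z⁻¹ ∈ Z := by
  have key : ∀ u : G, (∀ t, ⁅u, t⁆ ∈ Z) → ∀ t : G, (u : G ⧸ Z) * t = t * u := fun u hu t => by
    have h1 := (QuotientGroup.eq_one_iff (N := Z) _).2 (hu t)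
    rw [commutatorElement_def] at h1
    simp only [QuotientGroup.mk_mul, QuotientGroup.mk_inv] at h1
    rwa [mul_inv_eq_one, mul_inv_eq_iff_eq_mul] at h1
  have hg' := key g hg
  have hh' := key h hh
  have h2 : ((y : G ⧸ Z) * g) * (z * h) = (z * h) * (y * g) := by
    have := congrArg (fun t : G => (t : G ⧸ Z)) hc
    simpa only [QuotientGroup.mk_mul] using this
  have h3 : (y : G ⧸ Z) * z = z * y := by
    have e1 : ((y : G ⧸ Z) * g) * (z * h) = (y * z) * (g * h) := by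
      rw [mul_assoc, ← mul_assoc (g : G ⧸ Z), hg' z, mul_assoc, ← mul_assoc (y : G ⧸ Z)]
    have e2 : ((z : G ⧸ Z) * h) * (y * g) = (z * y) * (g * h) := by
      rw [mul_assoc, ← mul_assoc (h : G ⧸ Z), hh' y, mul_assoc, ← mul_assoc (z : G ⧸ Z), hh' g]
    rw [e1, e2] at h2
    exact mul_right_cancel h2
  rw [← QuotientGroup.eq_one_iff (N := Z)]
  simp only [QuotientGroup.mk_mul, QuotientGroup.mk_inv]
  rw [mul_inv_eq_one, mul_inv_eq_iff_eq_mul, h3]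

namespace NearGrp

variable {ν : Q →* A} {𝓕 : Filter Q} (h : NearGrp ν 𝓕)

include h

theorem div {S : Set Q} (hS : S ∈ 𝓕) : ∃ T ∈ 𝓕, ∀ x ∈ T, ∀ y ∈ T, x⁻¹ * y ∈ S := by
  obtain ⟨T1, h1, k1⟩ := h.mul S hS
  obtain ⟨T2, h2, k2⟩ := h.inv T1 h1
  exact ⟨T1 ∩ T2, Filter.inter_mem h1 h2, fun x hx y hy => k1 _ (k2 x hx.2) _ hy.1⟩

/-- K' -/
theorem kprime (U : Subgroup Q) (hU : (U : Set Q) ∈ 𝓕) {R : Type} [Group R] [Finite R]
    (c : U →* R) : ∃ T ∈ 𝓕, ∀ x : U, (x : Q) ∈ T → ν x = 1 → c x = 1 := by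
  have main : ∀ i : ℕ, (∃ T ∈ 𝓕, ∀ x : U, (x : Q) ∈ T → ν x = 1 →
      c.rangeRestrict x ∈ Subgroup.upperCentralSeries c.range i) →
      ∃ T ∈ 𝓕, ∀ x : U, (x : Q) ∈ T → ν x = 1 →
      c.rangeRestrict x ∈ Subgroup.upperCentralSeries c.range 0 := by
    intro i
    induction i with
    | zero => exact id
    | succ i ih =>
      rintro ⟨T, hT, kT⟩
      apply ih
      obtain ⟨T1, h1, k1⟩ := h.div hT
      obtain ⟨T3, h3, k3⟩ := h.slot (T1 ∩ U) (Filter.inter_mem h1 hU)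
      obtain ⟨T4, h4, k4⟩ := h.comm (T3 ∩ (T1 ∩ U)) (Filter.inter_mem h3 (Filter.inter_mem h1 hU))
      refine ⟨T4, h4, fun x hx hνx => ?_⟩
      obtain ⟨y, ⟨hy3, hy1, hyU⟩, z, ⟨hz3, hz1, hzU⟩, hxyz⟩ := k4 x hx hνx
      obtain ⟨a, ⟨ha1, haU⟩, b, ⟨hb1, hbU⟩, hab, hνa, hνb⟩ := k3 y hy3 z hz3
      have hg : c.rangeRestrict (⟨y, hyU⟩⁻¹ * ⟨a, haU⟩) ∈ Subgroup.upperCentralSeries c.range (i + 1) := by
        refine kT _ (k1 y hy1 a ha1) ?_
        change ν (y⁻¹ * a) = 1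
        rw [map_mul, map_inv, hνa, inv_mul_cancel]
      have hh : c.rangeRestrict (⟨z, hzU⟩⁻¹ * ⟨b, hbU⟩) ∈ Subgroup.upperCentralSeries c.range (i + 1) := by
        refine kT _ (k1 z hz1 b hb1) ?_
        change ν (z⁻¹ * b) = 1
        rw [map_mul, map_inv, hνb, inv_mul_cancel]
      have hxe : x = ⟨y, hyU⟩ * ⟨z, hzU⟩ * ⟨y, hyU⟩⁻¹ * ⟨z, hzU⟩⁻¹ := Subtype.ext hxyz
      rw [hxe, map_mul, map_mul, map_mul, map_inv, map_inv]
      refine comm_mem_of_central _ (Subgroup.mem_upperCentralSeries_succ_iff.1 hg)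
        (Subgroup.mem_upperCentralSeries_succ_iff.1 hh) ?_
      rw [← map_mul, ← map_mul, mul_inv_cancel_left, mul_inv_cancel_left, ← map_mul, ← map_mul]
      congr 1
      exact Subtype.ext hab
  obtain ⟨n, T, hT, kT⟩ := h.hyp U hU c
  obtain ⟨T', hT', kT'⟩ := main n ⟨T, hT, fun x hx _ => kT x hx⟩
  refine ⟨T', hT', fun x hx hν => ?_⟩
  have := kT' x hx hν
  rw [Subgroup.upperCentralSeries_zero, Subgroup.mem_bot] at this
  have := congrArg Subtype.val this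
  simpa using this

end NearGrp

end Vale.Agent.P011.MPQ
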