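import Vale.Agent.P011.MPQ.IIIa

/-!
Subgroups of finite index of the kernel are open: the abstract form.
-/

open scoped commutatorElement

namespace Vale.Agent.P011.MPQ

theorem exists_finite_index_of_not_pow {H : Type*} [Group H] (hc : ∀ x y : H, x * y = y * x)
    {m : ℕ} (hm : m ≠ 0) {p : H} (hp : ∀ h : H, h ^ m ≠ p) :
    ∃ K : Subgroup H, K.index ≠ 0 ∧ p ∉ K := by
  let _ : CommGroup H := { ‹Group H› with mul_comm := hc }
  let B : Subgroup H := (powMonoidHom m).range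
  have hpB : (Additive.ofMul (QuotientGroup.mk p : H ⧸ B)) ≠ 0 := by
    intro h
    have h1 : (QuotientGroup.mk p : H ⧸ B) = 1 := h
    obtain ⟨h2, hh⟩ := (QuotientGroup.eq_one_iff _).1 h1
    exact hp h2 hh
  obtain ⟨ψ, hψ⟩ := CharacterModule.exists_character_apply_ne_zero_of_ne_zero hpB
  let f : H →* Multiplicative (AddCircle (1 : ℚ)) :=
    { toFun := fun h => Multiplicative.ofAdd (ψ (Additive.ofMul (QuotientGroup.mk h : H ⧸ B)))
      map_one' := by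
        rw [QuotientGroup.mk_one, ofMul_one, map_zero, ofAdd_zero]
      map_mul' := fun x y => by
        rw [QuotientGroup.mk_mul, ofMul_mul, map_add, ofAdd_add] }
  refine ⟨f.ker, ?_, ?_⟩
  · rw [Subgroup.index_ker]
    have hfin : (Multiplicative.toAdd ⁻¹' {u : AddCircle (1 : ℚ) | m • u = 0}).Finite :=
      (AddCircle.finite_torsion (1 : ℚ) (Nat.pos_of_ne_zero hm)).preimage
        (Multiplicative.toAdd.injective.injOn)
    have hsub : (f.range : Set (Multiplicative (AddCircle (1 : ℚ)))) ⊆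
        Multiplicative.toAdd ⁻¹' {u : AddCircle (1 : ℚ) | m • u = 0} := by
      rintro _ ⟨h, rfl⟩
      change m • (ψ (Additive.ofMul (QuotientGroup.mk h : H ⧸ B))) = 0
      rw [← map_nsmul, ← ofMul_pow, ← QuotientGroup.mk_pow]
      have h1 : (QuotientGroup.mk (h ^ m) : H ⧸ B) = 1 := (QuotientGroup.eq_one_iff _).2 ⟨h, rfl⟩
      rw [h1, ofMul_one, map_zero]
    have : Finite f.range := (hfin.subset hsub).to_subtype
    exact Nat.card_pos.ne'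
  · intro h
    exact hψ (Multiplicative.ofAdd.injective (MonoidHom.mem_ker.1 h))

section filt

variable {Q Θ : Type} [Finite Θ] {𝓕 : Filter Q}

theorem exists_fiber (f : Q → Θ) {Pr : Q → Prop} (h : ∀ T ∈ 𝓕, ∃ x ∈ T, Pr x) :
    ∃ θ, ∀ T ∈ 𝓕, ∃ x ∈ T, Pr x ∧ f x = θ := by
  by_contra hcon
  push Not at hcon
  choose T hT kT using hcon
  obtain ⟨x, hx, hp⟩ := h (⋂ θ, T θ) (Filter.iInter_mem.2 hT)
  exact kT (f x) x (Set.mem_iInter.1 hx _) hp rfl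

theorem exists_stable (f : Q → Θ) : ∃ S ∈ 𝓕, ∀ x ∈ S, ∀ T ∈ 𝓕, ∃ y ∈ T, f y = f x := by
  classical
  have h : ∀ θ : Θ, ∃ S ∈ 𝓕, ∀ x ∈ S, f x = θ → ∀ T ∈ 𝓕, ∃ y ∈ T, f y = θ := by
    intro θ
    by_cases hs : ∀ T ∈ 𝓕, ∃ y ∈ T, f y = θ
    · exact ⟨Set.univ, Filter.univ_mem, fun _ _ _ => hs⟩
    · push Not at hs
      obtain ⟨T, hT, kT⟩ := hs
      exact ⟨T, hT, fun x hx hfx => absurd hfx (kT x hx)⟩
  choose S hS kS using h
  exact ⟨⋂ θ, S θ, Filter.iInter_mem.2 hS, fun x hx => kS (f x) x (Set.mem_iInter.1 hx _) rfl⟩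

theorem relIndex_ne_zero_of_cover {Q Θ : Type*} [Group Q] [Finite Θ] (C V : Subgroup Q)
    (s : Θ → Q) (h : ∀ x ∈ V, ∃ θ, ∃ c ∈ C, x = c * s θ) : C.relIndex V ≠ 0 := by
  have h' : ∀ x : V, ∃ θ, ∃ c ∈ C, (x : Q)⁻¹ = c * s θ := fun x => h _ (V.inv_mem x.2)
  choose t ht using h'
  have hinj : Function.Injective fun q : V ⧸ C.subgroupOf V => t q.out := by
    intro q1 q2 h12
    obtain ⟨c1, hc1, e1⟩ := ht q1.out
    obtain ⟨c2, hc2, e2⟩ := ht q2.out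
    have h12' : t q1.out = t q2.out := h12
    rw [← q1.out_eq', ← q2.out_eq', QuotientGroup.eq, Subgroup.mem_subgroupOf]
    push_cast
    have e3 : (q2.out : Q) = (s (t q2.out))⁻¹ * c2⁻¹ := by
      rw [← mul_inv_rev, ← e2, inv_inv]
    rw [e1, e3, h12', mul_assoc, mul_inv_cancel_left]
    exact C.mul_mem hc1 (C.inv_mem hc2)
  have := Finite.of_injective _ hinj
  change Nat.card (V ⧸ C.subgroupOf V) ≠ 0
  exact Nat.card_pos.ne'

end filt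

namespace NearGrp

variable {Q A : Type} [Group Q] [Group A] {ν : Q →* A} {𝓕 : Filter Q}

theorem exists_sub (h : NearGrp ν 𝓕) {M : Type} [Group M] [Finite M] (α : Q →* M) {T : Set Q}
    (hT : T ∈ 𝓕) : ∃ V : Subgroup Q, (V : Set Q) ∈ 𝓕 ∧
      (Subgroup.closure {x | α x = 1 ∧ x ∈ T}).relIndex V ≠ 0 := by
  classical
  obtain ⟨S0, hS0, kS0⟩ := exists_stable (𝓕 := 𝓕) α
  obtain ⟨T1, h1, k1⟩ := h.mul T hT
  obtain ⟨T2, h2, k2⟩ := h.mul (T1 ∩ S0) (Filter.inter_mem h1 hS0)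
  obtain ⟨T3, h3, k3⟩ := h.inv (T1 ∩ T2) (Filter.inter_mem h1 h2)
  obtain ⟨S1, hS1⟩ : ∃ S1 : Set Q, S1 = {x | x ∈ T1 ∩ T2 ∧ x⁻¹ ∈ T1 ∩ T2} := ⟨_, rfl⟩
  have hS1F : S1 ∈ 𝓕 := by
    rw [hS1]
    exact Filter.mem_of_superset (Filter.inter_mem (Filter.inter_mem h1 h2) h3)
      fun x hx => ⟨hx.1, k3 x hx.2⟩
  have hinv : ∀ x ∈ S1, x⁻¹ ∈ S1 := by
    intro x hx
    rw [hS1] at hx ⊢
    exact ⟨hx.2, by rw [inv_inv]; exact hx.1⟩
  have hS1T1 : ∀ x ∈ S1, x ∈ T1 := fun x hx => by rw [hS1] at hx; exact hx.1.1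
  have hmul : ∀ x ∈ S1, ∀ y ∈ S1, x * y ∈ T1 ∩ S0 := fun x hx y hy => by
    rw [hS1] at hx hy
    exact k2 x hx.1.2 y hy.1.2
  have hS1T : ∀ x ∈ S1, x ∈ T := fun x hx => by
    have := k1 1 (h.one _ h1) x (hS1T1 x hx)
    rwa [one_mul] at this
  let s : M → Q := fun θ => if hθ : ∃ y ∈ S1, α y = θ then hθ.choose else 1
  have hs : ∀ x ∈ S0, s (α x) ∈ S1 ∧ α (s (α x)) = α x := by
    intro x hx
    have hθ : ∃ y ∈ S1, α y = α x := kS0 x hx S1 hS1F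
    have : s (α x) = hθ.choose := dif_pos hθ
    rw [this]
    exact hθ.choose_spec
  have step : ∀ (x : Q) (θ : M), s θ ∈ S1 → ∀ y ∈ S1,
      ∀ c ∈ Subgroup.closure {x | α x = 1 ∧ x ∈ T}, x = c * s θ →
      ∃ θ', s θ' ∈ S1 ∧ ∃ c' ∈ Subgroup.closure {x | α x = 1 ∧ x ∈ T}, x * y = c' * s θ' := by
    intro x θ hθ y hy c hc hx
    obtain ⟨m1, m0⟩ := hmul (s θ) hθ y hy
    obtain ⟨hs1, hs2⟩ := hs _ m0
    refine ⟨α (s θ * y), hs1, c * ((s θ * y) * (s (α (s θ * y)))⁻¹), mul_mem hc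
      (Subgroup.subset_closure ⟨?_, ?_⟩), ?_⟩
    · rw [map_mul α (s θ * y), map_inv, hs2, mul_inv_cancel]
    · exact k1 _ m1 _ (hS1T1 _ (hinv _ hs1))
    · rw [hx, mul_assoc, mul_assoc, mul_assoc, inv_mul_cancel, mul_one]
  refine ⟨Subgroup.closure S1, Filter.mem_of_superset hS1F Subgroup.subset_closure,
    relIndex_ne_zero_of_cover _ _ s fun x hx => ?_⟩
  have key : ∃ θ', s θ' ∈ S1 ∧ ∃ c' ∈ Subgroup.closure {x | α x = 1 ∧ x ∈ T}, x = c' * s θ' := by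
    refine Subgroup.closure_induction_right (p := fun x _ => ∃ θ', s θ' ∈ S1 ∧
      ∃ c' ∈ Subgroup.closure {x | α x = 1 ∧ x ∈ T}, x = c' * s θ') ?_ ?_ ?_ hx
    · obtain ⟨hs1, hs2⟩ := hs 1 (h.one _ hS0)
      rw [map_one] at hs1 hs2
      refine ⟨1, hs1, (s 1)⁻¹, Subgroup.subset_closure ⟨?_, hS1T _ (hinv _ hs1)⟩,
        (inv_mul_cancel _).symm⟩
      rw [map_inv, hs2, inv_one]
    · rintro x - y hy ⟨θ, hθ, c, hc, hx⟩
      exact step x θ hθ y hy c hc hx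
    · rintro x - y hy ⟨θ, hθ, c, hc, hx⟩
      exact step x θ hθ y⁻¹ (hinv y hy) c hc hx
  obtain ⟨θ, -, c, hc, hx⟩ := key
  exact ⟨θ, c, hc, hx⟩

end NearGrp

end Vale.Agent.P011.MPQ
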