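import Vale.Agent.P011.MPQ.IIIb

/-!
Normal subgroups of finite index of the kernel are open: the abstract theorem.
-/

namespace Vale.Agent.P011.MPQ.NearGrp

variable {Q A : Type} [Group Q] [Group A] {ν : Q →* A} {𝓕 : Filter Q}

/-- III, abstract form. -/
theorem open_abs (h : NearGrp ν 𝓕) {w : ℕ} (hw : w ≠ 0)
    (htor : ∀ (x : Q) (j : ℕ), j ≠ 0 → ν x ^ j = 1 → ν x ^ w = 1)
    (N₀ : Subgroup Q) (hN : N₀ ≤ ν.ker) [N₀.Normal] (hfin : N₀.relIndex ν.ker ≠ 0) :
    ∃ T ∈ 𝓕, ∀ x ∈ T, ν x = 1 → x ∈ N₀ := by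
  classical
  obtain ⟨π, hπ⟩ : ∃ π : Q →* Q ⧸ N₀, π = QuotientGroup.mk' N₀ := ⟨_, rfl⟩
  have hπs : Function.Surjective π := by rw [hπ]; exact QuotientGroup.mk'_surjective N₀
  have hπ1 : ∀ x, π x = 1 ↔ x ∈ N₀ := fun x => by
    rw [hπ]; exact QuotientGroup.eq_one_iff x
  obtain ⟨P, hP⟩ : ∃ P : Subgroup (Q ⧸ N₀), P = ν.ker.map π := ⟨_, rfl⟩
  have hPn : P.Normal := by
    rw [hP]; exact (inferInstance : ν.ker.Normal).map π hπs
  have hmemP : ∀ x, ν x = 1 → π x ∈ P := fun x hx => by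
    rw [hP]; exact ⟨x, hx, rfl⟩
  have hPmem : ∀ x, π x ∈ P → ν x = 1 := fun x hx => by
    rw [hP] at hx
    obtain ⟨y, hy, hxy⟩ := hx
    have h1 : π (y⁻¹ * x) = 1 := by rw [map_mul, map_inv, hxy, inv_mul_cancel]
    have h2 : ν (y⁻¹ * x) = 1 := hN ((hπ1 _).1 h1)
    rw [map_mul, map_inv, MonoidHom.mem_ker.1 hy, inv_one, one_mul] at h2
    exact h2
  have hPfin : Finite P := by
    have h1 : Nat.card P ≠ 0 := by
      have h2 : ((π.comp ν.ker.subtype).ker).index = Nat.card (π.comp ν.ker.subtype).range :=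
        Subgroup.index_ker _
      have h3 : (π.comp ν.ker.subtype).range = P := by
        rw [MonoidHom.range_comp, Subgroup.range_subtype, hP]
      have h4 : (π.comp ν.ker.subtype).ker = N₀.subgroupOf ν.ker := by
        ext x
        rw [MonoidHom.mem_ker, Subgroup.mem_subgroupOf]
        exact hπ1 _
      rw [h3, h4] at h2
      rw [← h2]
      exact hfin
    exact Nat.finite_of_card_ne_zero h1
  let α : Q →* MulAut P := MulAut.conjNormal.comp π
  have hα : ∀ x, α x = 1 → ∀ p ∈ P, Commute (π x) p := by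
    intro x hx p hp
    have h1 : (MulAut.conjNormal (π x)) (⟨p, hp⟩ : P) = ⟨p, hp⟩ := by
      have h2 : (MulAut.conjNormal (π x) : MulAut P) = 1 := hx
      rw [h2]; rfl
    have h3 := congrArg Subtype.val h1
    rw [MulAut.conjNormal_apply] at h3
    exact mul_inv_eq_iff_eq_mul.1 h3
  obtain ⟨Ta, hTa, kTa'⟩ := h.kprime ⊤ Filter.univ_mem (α.comp (⊤ : Subgroup Q).subtype)
  have kTa : ∀ x ∈ Ta, ν x = 1 → α x = 1 := fun x hx hν => kTa' ⟨x, trivial⟩ hx hν
  -- commuting up to norm one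
  have hTc : ∃ T ∈ 𝓕, ∀ x ∈ T, ∀ y ∈ T, α x = 1 → α y = 1 → π x * π y = π y * π x := by
    obtain ⟨T1, h1, k1⟩ := h.div hTa
    obtain ⟨T2, h2, k2⟩ := h.slot T1 h1
    refine ⟨T1 ∩ T2, Filter.inter_mem h1 h2, fun x hx y hy hax hay => ?_⟩
    obtain ⟨a, ha, b, hb, hab, hνa, hνb⟩ := k2 x hx.2 y hy.2
    have hνg : ν (x⁻¹ * a) = 1 := by rw [map_mul, map_inv, hνa, inv_mul_cancel]
    have hνh : ν (y⁻¹ * b) = 1 := by rw [map_mul, map_inv, hνb, inv_mul_cancel]
    have hag := kTa _ (k1 x hx.1 a ha) hνg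
    have hah := kTa _ (k1 y hy.1 b hb) hνh
    have hgP := hmemP _ hνg
    have hhP := hmemP _ hνh
    have cXG := hα x hax _ hgP
    have cXH := hα x hax _ hhP
    have cYG := hα y hay _ hgP
    have cYH := hα y hay _ hhP
    have cGH := hα _ hag _ hhP
    have ea : π a = π x * π (x⁻¹ * a) := by rw [← map_mul, mul_inv_cancel_left]
    have eb : π b = π y * π (y⁻¹ * b) := by rw [← map_mul, mul_inv_cancel_left]
    have cab : Commute (π a) (π b) := by
      have := congrArg π hab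
      rwa [map_mul, map_mul] at this
    have cGb : Commute (π (x⁻¹ * a)) (π b) := by
      rw [eb]; exact cYG.symm.mul_right cGH
    have cXb : Commute (π x) (π b) := by
      have : π x = π a * (π (x⁻¹ * a))⁻¹ := by rw [ea, mul_inv_cancel_right]
      rw [this]
      exact cab.mul_left cGb.inv_left
    have : π y = π b * (π (y⁻¹ * b))⁻¹ := by rw [eb, mul_inv_cancel_right]
    rw [this]
    exact (cXb.mul_right cXH.inv_right).eq
  obtain ⟨Tc, hTcF, kTc⟩ := hTc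
  by_contra hcon
  push Not at hcon
  obtain ⟨p, hp⟩ := exists_fiber (Θ := P) (fun x => if hx : π x ∈ P then ⟨π x, hx⟩ else 1)
    (Pr := fun x => ν x = 1 ∧ x ∉ N₀) hcon
  have hp' : ∀ T ∈ 𝓕, ∃ x ∈ T, ν x = 1 ∧ x ∉ N₀ ∧ π x = p := by
    intro T hT
    obtain ⟨x, hx, ⟨hν, hxN⟩, hxp⟩ := hp T hT
    refine ⟨x, hx, hν, hxN, ?_⟩
    have h1 : (⟨π x, hmemP x hν⟩ : P) = p := by
      rw [← hxp]
      exact (dif_pos (hmemP x hν)).symm
    rw [← h1]
  have hp1 : (p : Q ⧸ N₀) ≠ 1 := by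
    obtain ⟨x, -, -, hxN, hxp⟩ := hp' _ Filter.univ_mem
    rw [← hxp]
    exact fun hh => hxN ((hπ1 x).1 hh)
  obtain ⟨V, hV, hCV⟩ := h.exists_sub α hTcF
  obtain ⟨C1, hC1⟩ : ∃ C1, C1 = Subgroup.closure {x | α x = 1 ∧ x ∈ Tc} := ⟨_, rfl⟩
  rw [← hC1] at hCV
  have hcomm : ∀ x ∈ C1, ∀ y ∈ C1, π x * π y = π y * π x := by
    have key : ∀ x ∈ C1, ∀ y, α y = 1 → y ∈ Tc → π x * π y = π y * π x := by
      intro x hx y hy hyT
      have : C1 ≤ (Subgroup.centralizer {π y}).comap π := by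
        rw [hC1, Subgroup.closure_le]
        intro z hz
        change π z ∈ Subgroup.centralizer {π y}
        rw [Subgroup.mem_centralizer_singleton_iff]
        exact kTc z hz.2 y hyT hz.1 hy
      have h1 : π x ∈ Subgroup.centralizer {π y} := this hx
      rwa [Subgroup.mem_centralizer_singleton_iff] at h1
    intro x hx y hy
    have : C1 ≤ (Subgroup.centralizer {π x}).comap π := by
      rw [hC1, Subgroup.closure_le]
      intro z hz
      change π z ∈ Subgroup.centralizer {π x}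
      rw [Subgroup.mem_centralizer_singleton_iff]
      exact (key x hx z hz.1 hz.2).symm
    have h1 : π y ∈ Subgroup.centralizer {π x} := this hy
    rw [Subgroup.mem_centralizer_singleton_iff] at h1
    exact h1.symm
  obtain ⟨ρ, hρ⟩ : ∃ ρ : C1 →* Q ⧸ N₀, ρ = π.comp C1.subtype := ⟨_, rfl⟩
  have hρa : ∀ x : C1, ρ x = π x := fun x => by rw [hρ]; rfl
  have hHc : ∀ x y : ρ.range, x * y = y * x := by
    rintro ⟨_, x, rfl⟩ ⟨_, y, rfl⟩
    apply Subtype.ext
    change ρ x * ρ y = ρ y * ρ x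
    rw [hρa, hρa]
    exact hcomm x x.2 y y.2
  have hpH : ∃ x0 : C1, ρ x0 = p := by
    obtain ⟨x, hx, hν, -, hxp⟩ := hp' _ (Filter.inter_mem hTa hTcF)
    have hxC : x ∈ C1 := by
      rw [hC1]
      exact Subgroup.subset_closure ⟨kTa x hx.1 hν, hx.2⟩
    exact ⟨⟨x, hxC⟩, by rw [hρa]; exact hxp⟩
  obtain ⟨x0, hx0⟩ := hpH
  have hcard : Nat.card P ≠ 0 := Nat.card_pos.ne'
  obtain ⟨K, hK, hpK⟩ := exists_finite_index_of_not_pow hHc (m := w * Nat.card P)
    (mul_ne_zero hw hcard) (p := ρ.rangeRestrict x0) (by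
      rintro ⟨_, c, rfl⟩ he
      have h1 : (ρ c) ^ (w * Nat.card P) = ρ x0 := congrArg Subtype.val he
      rw [hx0, hρa, ← map_pow] at h1
      have h2 : ν ((c : Q) ^ (w * Nat.card P)) = 1 := hPmem _ (by rw [h1]; exact p.2)
      rw [map_pow] at h2
      have h3 : ν ((c : Q)) ^ w = 1 := htor _ _ (mul_ne_zero hw hcard) h2
      rw [← map_pow] at h3
      have h4 : (⟨π ((c : Q) ^ w), hmemP _ h3⟩ : P) ^ Nat.card P = 1 := pow_card_eq_one'
      have h5 := congrArg Subtype.val h4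
      rw [SubgroupClass.coe_pow, ← map_pow, ← pow_mul, h1] at h5
      exact hp1 h5)
  have hL : (((K.comap ρ.rangeRestrict).map C1.subtype)).relIndex V ≠ 0 := by
    refine Subgroup.relIndex_ne_zero_trans (K := C1) ?_ hCV
    have h1 : ((K.comap ρ.rangeRestrict).map C1.subtype).subgroupOf C1 =
        K.comap ρ.rangeRestrict :=
      Subgroup.comap_map_eq_self_of_injective C1.subtype_injective _
    unfold Subgroup.relIndex
    rw [h1, Subgroup.index_comap_of_surjective K ρ.rangeRestrict_surjective]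
    exact hK
  obtain ⟨L, hLe⟩ : ∃ L, L = (K.comap ρ.rangeRestrict).map C1.subtype := ⟨_, rfl⟩
  rw [← hLe] at hL
  have : (L.subgroupOf V).FiniteIndex := ⟨hL⟩
  have hfi : (L.subgroupOf V).normalCore.FiniteIndex := inferInstance
  have : Finite (V ⧸ (L.subgroupOf V).normalCore) := Subgroup.finite_quotient_of_finiteIndex
  obtain ⟨T, hT, kT⟩ := h.kprime V hV (QuotientGroup.mk' (L.subgroupOf V).normalCore)
  obtain ⟨x, ⟨hxT, hxV⟩, hν, -, hxp⟩ := hp' _ (Filter.inter_mem hT hV)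
  have h1 := kT ⟨x, hxV⟩ hxT hν
  have h2 : (⟨x, hxV⟩ : V) ∈ (L.subgroupOf V).normalCore := (QuotientGroup.eq_one_iff _).1 h1
  have h3 : x ∈ L := Subgroup.mem_subgroupOf.1 (Subgroup.normalCore_le (L.subgroupOf V) h2)
  rw [hLe] at h3
  obtain ⟨c, hc, hcx⟩ := h3
  have h4 : ρ.rangeRestrict c ∈ K := hc
  apply hpK
  have h5 : ρ.rangeRestrict c = ρ.rangeRestrict x0 := by
    apply Subtype.ext
    change ρ c = ρ x0
    rw [hx0, ← hxp, hρa, ← hcx]
    rfl
  rwa [← h5]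

end Vale.Agent.P011.MPQ.NearGrp
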