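import Vale.Agent.P011.MPQ.Defs

/-!
Comparison of congruence conditions and of sizes with respect to different bases over `ℚ`, and
the relation with the valuations of a number field.
-/

open NumberField IsDedekindDomain

namespace Vale.Agent.P011.MPQ

open Module

section generic

variable {V V' : Type*} [AddCommGroup V] [Module ℚ V] [AddCommGroup V'] [Module ℚ V']
  {ι ι' : Type*}

/-- All coordinates are divisible by `r`, up to a factor prime to `r`. -/
def CB (β : Basis ι ℚ V) (r : ℕ) (x : V) : Prop :=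
  ∃ m : ℕ, m ≠ 0 ∧ m.Coprime r ∧ ∀ i, ∃ n : ℤ, (m : ℚ) * β.repr x i = r * n

/-- All coordinates are small. -/
def SB (β : Basis ι ℚ V) (ρ : ℝ) (x : V) : Prop := ∀ i, |((β.repr x i : ℚ) : ℝ)| < ρ

theorem CB.add {β : Basis ι ℚ V} {r : ℕ} {x y : V} (hx : CB β r x) (hy : CB β r y) :
    CB β r (x + y) := by
  obtain ⟨m, hm, hmr, h⟩ := hx
  obtain ⟨k, hk, hkr, h'⟩ := hy
  refine ⟨m * k, mul_ne_zero hm hk, Nat.Coprime.mul_left hmr hkr, fun i => ?_⟩
  obtain ⟨n, hn⟩ := h i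
  obtain ⟨n', hn'⟩ := h' i
  refine ⟨k * n + m * n', ?_⟩
  simp only [map_add, Finsupp.add_apply]
  push_cast
  linear_combination (k : ℚ) * hn + (m : ℚ) * hn'

theorem SB.add {β : Basis ι ℚ V} {ρ σ : ℝ} {x y : V} (hx : SB β ρ x) (hy : SB β σ y) :
    SB β (ρ + σ) (x + y) := by
  intro i
  simp only [map_add, Finsupp.add_apply]
  push_cast
  exact (abs_add_le _ _).trans_lt (add_lt_add (hx i) (hy i))

theorem CB.of_mul {β : Basis ι ℚ V} {r s : ℕ} {x : V} (hx : CB β (r * s) x) : CB β r x := by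
  obtain ⟨m, hm, hmr, h⟩ := hx
  refine ⟨m, hm, Nat.Coprime.coprime_mul_right_right hmr, fun i => ?_⟩
  obtain ⟨n, hn⟩ := h i
  exact ⟨s * n, by rw [hn]; push_cast; ring⟩

theorem CB.of_dvd {β : Basis ι ℚ V} {r s : ℕ} {x : V} (hx : CB β s x) (h : r ∣ s) : CB β r x := by
  obtain ⟨t, rfl⟩ := h
  exact hx.of_mul

/-- A finite family of rational numbers has a common denominator. -/
theorem exists_cden {κ : Type*} [Finite κ] (q : κ → ℚ) :
    ∃ E : ℕ, E ≠ 0 ∧ ∀ k, ∃ n : ℤ, (E : ℚ) * q k = n := by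
  have := Fintype.ofFinite κ
  refine ⟨∏ k, (q k).den, Finset.prod_ne_zero_iff.mpr fun k _ => (q k).den_nz, fun k => ?_⟩
  obtain ⟨t, ht⟩ := Finset.dvd_prod_of_mem (fun k => (q k).den) (Finset.mem_univ k)
  refine ⟨t * (q k).num, ?_⟩
  rw [ht]
  push_cast
  have h : ((q k).den : ℚ) * q k = (q k).num := by
    rw [mul_comm]; exact Rat.mul_den_eq_num _
  linear_combination (t : ℚ) * h

/-- The coordinates of the image under a linear map. -/
theorem repr_map [Finite ι] (β : Basis ι ℚ V) (β' : Basis ι' ℚ V') (T : V →ₗ[ℚ] V') (x : V)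
    (i : ι') : letI := Fintype.ofFinite ι
    β'.repr (T x) i = ∑ j, β.repr x j * β'.repr (T (β j)) i := by
  let _ := Fintype.ofFinite ι
  conv_lhs => rw [← β.sum_repr x]
  simp only [map_sum, map_smul, Finsupp.coe_finsetSum, Finset.sum_apply, Finsupp.smul_apply,
    smul_eq_mul]

/-- Linear maps are continuous for the congruence conditions. -/
theorem exists_CB_map [Finite ι] [Finite ι'] (β : Basis ι ℚ V) (β' : Basis ι' ℚ V')
    (T : V →ₗ[ℚ] V') : ∃ E : ℕ, E ≠ 0 ∧ ∀ (r : ℕ) (x : V), CB β (r * E) x → CB β' r (T x) := by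
  let _ := Fintype.ofFinite ι
  obtain ⟨E, hE, h⟩ := exists_cden fun k : ι × ι' => β'.repr (T (β k.1)) k.2
  refine ⟨E, hE, fun r x hx => ?_⟩
  obtain ⟨m, hm, hmr, hx⟩ := hx
  refine ⟨m, hm, Nat.Coprime.coprime_mul_right_right hmr, fun i => ?_⟩
  choose n hn using hx
  choose t ht using h
  refine ⟨∑ j, n j * t (j, i), ?_⟩
  rw [repr_map β β' T x i, Finset.mul_sum]
  push_cast
  rw [Finset.mul_sum]
  refine Finset.sum_congr rfl fun j _ => ?_
  have h1 := hn j
  have h2 := ht (j, i)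
  simp only at h2
  push_cast at h1
  rw [← h2]
  linear_combination (β'.repr (T (β j)) i) * h1

/-- Linear maps are continuous for the sizes. -/
theorem exists_SB_map [Finite ι] [Finite ι'] (β : Basis ι ℚ V) (β' : Basis ι' ℚ V')
    (T : V →ₗ[ℚ] V') : ∃ C : ℝ, 0 < C ∧ ∀ (ρ : ℝ) (x : V), 0 < ρ → SB β ρ x →
      SB β' (C * ρ) (T x) := by
  let _ := Fintype.ofFinite ι
  let _ := Fintype.ofFinite ι'
  have h0 : ∀ j i, (0 : ℝ) ≤ |((β'.repr (T (β j)) i : ℚ) : ℝ)| := fun _ _ => abs_nonneg _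
  refine ⟨(∑ i, ∑ j, |((β'.repr (T (β j)) i : ℚ) : ℝ)|) + 1, ?_, fun ρ x hρ hx i => ?_⟩
  · have := Finset.sum_nonneg fun i (_ : i ∈ Finset.univ) =>
      Finset.sum_nonneg fun j (_ : j ∈ Finset.univ) => h0 j i
    linarith
  · rw [repr_map β β' T x i]
    push_cast
    have h1 : |∑ j, ((β.repr x j : ℚ) : ℝ) * ((β'.repr (T (β j)) i : ℚ) : ℝ)| ≤
        ∑ j, ρ * |((β'.repr (T (β j)) i : ℚ) : ℝ)| := by
      refine (Finset.abs_sum_le_sum_abs _ _).trans (Finset.sum_le_sum fun j _ => ?_)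
      rw [abs_mul]
      exact mul_le_mul_of_nonneg_right (hx j).le (h0 j i)
    have h2 : ∑ j, |((β'.repr (T (β j)) i : ℚ) : ℝ)| ≤
        ∑ i, ∑ j, |((β'.repr (T (β j)) i : ℚ) : ℝ)| :=
      Finset.single_le_sum (f := fun i => ∑ j, |((β'.repr (T (β j)) i : ℚ) : ℝ)|)
        (fun i _ => Finset.sum_nonneg fun j _ => h0 j i) (Finset.mem_univ i)
    rw [← Finset.mul_sum] at h1
    nlinarith

theorem SB.mono {β : Basis ι ℚ V} {ρ σ : ℝ} {x : V} (hx : SB β ρ x) (h : ρ ≤ σ) : SB β σ x :=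
  fun i => (hx i).trans_le h

/-- Uniform version for finitely many additive maps. -/
theorem exists_unif [Finite ι] [Finite ι'] (β : Basis ι ℚ V) (β' : Basis ι' ℚ V') {κ : Type*}
    [Finite κ] [Nonempty κ] (T : κ → V →+ V') : ∃ E : ℕ, E ≠ 0 ∧ ∃ C : ℝ, 0 < C ∧
      ∀ (t : κ) (x : V), (∀ r : ℕ, CB β (r * E) x → CB β' r (T t x)) ∧
        ∀ ρ : ℝ, 0 < ρ → SB β ρ x → SB β' (C * ρ) (T t x) := by
  classical
  have := Fintype.ofFinite κ
  have h1 := fun t => exists_CB_map β β' (T t).toRatLinearMap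
  have h2 := fun t => exists_SB_map β β' (T t).toRatLinearMap
  choose E hE h1 using h1
  choose C hC h2 using h2
  refine ⟨∏ t, E t, Finset.prod_ne_zero_iff.mpr fun t _ => hE t, ∑ t, C t,
    Finset.sum_pos (fun t _ => hC t) Finset.univ_nonempty, fun t x => ⟨fun r hx => ?_,
      fun ρ hρ hx => ?_⟩⟩
  · exact h1 t r x (hx.of_dvd (mul_dvd_mul_left r (Finset.dvd_prod_of_mem E (Finset.mem_univ t))))
  · refine (h2 t ρ x hρ hx).mono (mul_le_mul_of_nonneg_right ?_ hρ.le)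
    exact Finset.single_le_sum (fun t _ => (hC t).le) (Finset.mem_univ t)

end generic

section numberField

variable {F : Type} [Field F] [NumberField F]

/-- Integrality in terms of the coordinates. -/
theorem integral_iff (x : F) :
    (∀ i, ∃ n : ℤ, (integralBasis F).repr x i = n) ↔ ∃ z : 𝓞 F, x = z := by
  have h := (integralBasis F).mem_span_iff_repr_mem ℤ x
  rw [mem_span_integralBasis] at h
  constructor
  · intro hx
    obtain ⟨z, hz⟩ := h.mpr fun i => by
      obtain ⟨n, hn⟩ := hx i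
      exact ⟨n, by rw [hn]; rfl⟩
    exact ⟨z, hz.symm⟩
  · rintro ⟨z, hz⟩ i
    obtain ⟨n, hn⟩ := h.mp ⟨z, hz.symm⟩ i
    exact ⟨n, by rw [← hn]; rfl⟩

theorem repr_natCast_mul (x : F) (m : ℕ) (i) :
    (integralBasis F).repr ((m : F) * x) i = m * (integralBasis F).repr x i := by
  have h : (m : F) * x = (m : ℚ) • x := by
    rw [Algebra.smul_def, map_natCast]
  rw [h, map_smul, Finsupp.smul_apply, smul_eq_mul]

/-- A natural number prime to `r` is a unit at the primes dividing `r`. -/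
theorem val_eq_one_of_coprime (v : HeightOneSpectrum (𝓞 F)) {r m : ℕ} (hmr : m.Coprime r)
    (hr : v.valuation F (r : F) < 1) : v.valuation F (m : F) = 1 := by
  have hle : ∀ n : ℤ, v.valuation F (n : F) ≤ 1 := fun n => by
    have := v.valuation_le_one (K := F) (n : 𝓞 F)
    simpa using this
  refine le_antisymm (by exact_mod_cast hle m) (not_lt.mp fun hm => ?_)
  have h1 : (m : ℤ) * Nat.gcdA m r + r * Nat.gcdB m r = 1 := by
    have := Nat.gcd_eq_gcd_ab m r
    rw [hmr.gcd_eq_one] at this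
    exact_mod_cast this.symm
  have h2 : (m : F) * ((Nat.gcdA m r : ℤ) : F) + r * ((Nat.gcdB m r : ℤ) : F) = 1 := by
    exact_mod_cast congrArg (fun z : ℤ => (z : F)) h1
  have h3 : v.valuation F (1 : F) < 1 := by
    rw [← h2]
    refine Valuation.map_add_lt _ ?_ ?_
    · rw [map_mul]
      exact mul_lt_one_of_lt_of_le hm (hle _)
    · rw [map_mul]
      exact mul_lt_one_of_lt_of_le hr (hle _)
  rw [map_one] at h3
  exact lt_irrefl _ h3

/-- An element which is integral at the primes dividing `r` has a denominator prime to `r`. -/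
theorem exists_coprime_den (r : ℕ) (y : F)
    (h : ∀ v : HeightOneSpectrum (𝓞 F), v.valuation F (r : F) < 1 → v.valuation F y ≤ 1) :
    ∃ m : ℕ, m ≠ 0 ∧ m.Coprime r ∧ ∃ z : 𝓞 F, (m : F) * y = z := by
  classical
  -- the ideal of denominators
  let I : Ideal (𝓞 F) :=
    { carrier := {z | ∃ t : 𝓞 F, (z : F) * y = t}
      add_mem' := by
        rintro z z' ⟨t, ht⟩ ⟨t', ht'⟩
        exact ⟨t + t', by push_cast; rw [add_mul, ht, ht']⟩
      zero_mem' := ⟨0, by simp⟩
      smul_mem' := by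
        rintro c z ⟨t, ht⟩
        exact ⟨c * t, by rw [smul_eq_mul]; push_cast; rw [mul_assoc, ht]⟩ }
  have hI : ∀ z : 𝓞 F, z ∈ I ↔ ∃ t : 𝓞 F, (z : F) * y = t := fun z => Iff.rfl
  -- a positive integer in the ideal
  have hex : ∃ k : ℕ, k ≠ 0 ∧ ((k : ℕ) : 𝓞 F) ∈ I := by
    obtain ⟨E, hE, hn⟩ := exists_cden fun i => (integralBasis F).repr y i
    obtain ⟨z, hz⟩ := (integral_iff ((E : F) * y)).mp fun i => by
      rw [repr_natCast_mul]
      exact hn i
    exact ⟨E, hE, z, by push_cast; exact hz⟩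
  obtain ⟨hk0, hkI⟩ := Nat.find_spec hex
  set k := Nat.find hex with hk
  refine ⟨k, hk0, ?_, (hI _).mp hkI⟩
  -- the ideal is comaximal to `r`
  have htop : I ⊔ Ideal.span {(r : 𝓞 F)} = ⊤ := by
    by_contra hne
    obtain ⟨M, hM, hle⟩ := Ideal.exists_le_maximal _ hne
    have hM0 : M ≠ ⊥ := by
      rintro rfl
      have := (le_sup_left.trans hle) hkI
      rw [Ideal.mem_bot] at this
      exact hk0 (by exact_mod_cast this)
    let v : HeightOneSpectrum (𝓞 F) := ⟨M, hM.isPrime, hM0⟩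
    have hv : v.valuation F (r : F) < 1 := by
      have := (v.valuation_lt_one_iff_mem (K := F) (r : 𝓞 F)).mpr
        (hle (le_sup_right (a := I) (Ideal.mem_span_singleton_self _)))
      simpa using this
    obtain ⟨n, d, hd⟩ := v.exists_primeCompl_mul_eq_of_integer y (h v hv)
    exact d.2 (hle (le_sup_left (b := Ideal.span {(r : 𝓞 F)}) ((hI _).mpr ⟨n, by
      rw [mul_comm]; exact hd⟩)))
  -- minimality
  by_contra hco
  obtain ⟨p, hp, hpk, hpr⟩ := Nat.Prime.not_coprime_iff_dvd.mp hco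
  obtain ⟨l, hl⟩ := hpk
  obtain ⟨s, hs⟩ := hpr
  have hl0 : l ≠ 0 := by
    rintro rfl
    exact hk0 (by rw [hl, mul_zero])
  have hlI : ((l : ℕ) : 𝓞 F) ∈ I := by
    have h1 : (1 : 𝓞 F) ∈ I ⊔ Ideal.span {(r : 𝓞 F)} := htop ▸ Submodule.mem_top
    obtain ⟨i, hi, j, hj, hij⟩ := Submodule.mem_sup.mp h1
    obtain ⟨z, rfl⟩ := Ideal.mem_span_singleton'.mp hj
    have h2 : ((l : ℕ) : 𝓞 F) = l * i + (s * z) * (k : 𝓞 F) := by
      calc ((l : ℕ) : 𝓞 F) = l * (i + z * (r : 𝓞 F)) := by rw [hij, mul_one]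
        _ = l * i + (s * z) * (k : 𝓞 F) := by
          rw [hl, hs]; push_cast; ring
    rw [h2]
    exact I.add_mem (I.mul_mem_left _ hi) (I.mul_mem_left _ hkI)
  have hlt : l < k := by
    rw [hl]
    have := hp.two_le
    have := Nat.pos_of_ne_zero hl0
    nlinarith
  exact Nat.find_min hex hlt ⟨hl0, hlI⟩

theorem CB_of_val (r : ℕ) (hr : r ≠ 0) (x : F)
    (h : ∀ v : HeightOneSpectrum (𝓞 F), v.valuation F (r : F) < 1 →
      v.valuation F x ≤ v.valuation F (r : F)) : CB (integralBasis F) r x := by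
  have hr' : (r : F) ≠ 0 := by exact_mod_cast hr
  obtain ⟨m, hm, hmr, z, hz⟩ := exists_coprime_den r (x / r) fun v hv => by
    rw [map_div₀]
    exact div_le_one_of_le₀ (h v hv) zero_le
  refine ⟨m, hm, hmr, fun i => ?_⟩
  obtain ⟨n, hn⟩ := (integral_iff ((m : F) * (x / r))).mpr ⟨z, hz⟩ i
  refine ⟨n, ?_⟩
  rw [repr_natCast_mul] at hn
  have h1 : (integralBasis F).repr x i = r * (integralBasis F).repr (x / r) i := by
    rw [← repr_natCast_mul, mul_div_cancel₀ _ hr']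
  rw [h1, ← hn]
  ring

theorem val_of_CB (r : ℕ) (hr : r ≠ 0) (x : F) (h : CB (integralBasis F) r x)
    (v : HeightOneSpectrum (𝓞 F)) (hv : v.valuation F (r : F) < 1) :
    v.valuation F x ≤ v.valuation F (r : F) := by
  have hr' : (r : F) ≠ 0 := by exact_mod_cast hr
  obtain ⟨m, hm, hmr, h⟩ := h
  obtain ⟨z, hz⟩ := (integral_iff ((m : F) * (x / r))).mp fun i => by
    obtain ⟨n, hn⟩ := h i
    refine ⟨n, ?_⟩
    have h1 : (integralBasis F).repr x i = r * (integralBasis F).repr (x / r) i := by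
      rw [← repr_natCast_mul, mul_div_cancel₀ _ hr']
    have h2 : (r : ℚ) ≠ 0 := by exact_mod_cast hr
    rw [repr_natCast_mul]
    apply mul_left_cancel₀ h2
    rw [← hn, h1]
    ring
  have h3 : v.valuation F ((m : F) * (x / r)) ≤ 1 := by
    rw [hz]
    exact v.valuation_le_one _
  rw [map_mul, val_eq_one_of_coprime v hmr hv, one_mul, map_div₀] at h3
  exact (div_le_one₀ (zero_lt_iff.mpr ((Valuation.ne_zero_iff _).mpr hr'))).mp h3

/-- The coordinates are bounded by the absolute values. -/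
theorem exists_SB : ∃ C : ℝ, 0 < C ∧ ∀ (ρ : ℝ) (x : F), 0 < ρ →
    (∀ w : InfinitePlace F, w x < ρ) → SB (integralBasis F) (C * ρ) x := by
  classical
  set β := integralBasis F with hβ
  have hnd : (Algebra.traceForm ℚ F).Nondegenerate := traceForm_nondegenerate ℚ F
  set γ := (Algebra.traceForm ℚ F).dualBasis hnd β with hγ
  obtain ⟨C₁, hC₁, h₁⟩ := exists_SB_map γ β (LinearMap.id : F →ₗ[ℚ] F)
  have h0 : ∀ i, ∀ σ : F →ₐ[ℚ] ℂ, 0 ≤ ‖σ (β i)‖ := fun _ _ => norm_nonneg _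
  set C₂ : ℝ := (∑ i, ∑ σ : F →ₐ[ℚ] ℂ, ‖σ (β i)‖) + 1 with hC₂
  have hC₂0 : 0 < C₂ := by
    have := Finset.sum_nonneg fun i (_ : i ∈ Finset.univ) =>
      Finset.sum_nonneg fun σ (_ : σ ∈ Finset.univ) => h0 i σ
    linarith
  refine ⟨C₁ * C₂, mul_pos hC₁ hC₂0, fun ρ x hρ hx => ?_⟩
  have h2 : SB γ (C₂ * ρ) x := by
    intro i
    rw [hγ, LinearMap.BilinForm.dualBasis_repr_apply]
    have h3 : (algebraMap ℚ ℂ) (Algebra.trace ℚ F (x * β i)) =
        ∑ σ : F →ₐ[ℚ] ℂ, σ (x * β i) := trace_eq_sum_embeddings ℂ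
    have h4 : |((Algebra.trace ℚ F (x * β i) : ℚ) : ℝ)| ≤ ∑ σ : F →ₐ[ℚ] ℂ, ρ * ‖σ (β i)‖ := by
      have h5 : ‖(algebraMap ℚ ℂ) (Algebra.trace ℚ F (x * β i))‖ =
          |((Algebra.trace ℚ F (x * β i) : ℚ) : ℝ)| := by
        rw [eq_ratCast, Complex.norm_ratCast]
      rw [← h5, h3]
      refine (norm_sum_le _ _).trans (Finset.sum_le_sum fun σ _ => ?_)
      rw [map_mul, norm_mul]
      refine mul_le_mul_of_nonneg_right ?_ (norm_nonneg _)
      have := (hx (InfinitePlace.mk (σ : F →+* ℂ))).le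
      rwa [InfinitePlace.apply] at this
    have h6 : ∑ σ : F →ₐ[ℚ] ℂ, ‖σ (β i)‖ ≤ ∑ i, ∑ σ : F →ₐ[ℚ] ℂ, ‖σ (β i)‖ :=
      Finset.single_le_sum (f := fun i => ∑ σ : F →ₐ[ℚ] ℂ, ‖σ (β i)‖)
        (fun i _ => Finset.sum_nonneg fun σ _ => h0 i σ) (Finset.mem_univ i)
    rw [← Finset.mul_sum] at h4
    refine lt_of_le_of_lt h4 ?_
    nlinarith
  have h3 := h₁ (C₂ * ρ) x (mul_pos hC₂0 hρ) h2
  rw [← mul_assoc] at h3
  exact h3

/-- The absolute values are bounded by the coordinates. -/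
theorem exists_abs : ∃ C : ℝ, 0 < C ∧ ∀ (ρ : ℝ) (x : F), 0 < ρ → SB (integralBasis F) ρ x →
    ∀ w : InfinitePlace F, w x < C * ρ := by
  classical
  set β := integralBasis F with hβ
  have h0 : ∀ i, ∀ w : InfinitePlace F, 0 ≤ w (β i) := fun _ _ => apply_nonneg _ _
  refine ⟨(∑ w : InfinitePlace F, ∑ i, w (β i)) + 1, ?_, fun ρ x hρ hx w => ?_⟩
  · have := Finset.sum_nonneg fun w (_ : w ∈ Finset.univ) =>
      Finset.sum_nonneg fun i (_ : i ∈ Finset.univ) => h0 i w
    linarith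
  · have h1 : w x ≤ ∑ i, ρ * w (β i) := by
      conv_lhs => rw [← β.sum_repr x]
      refine le_trans ?_ (Finset.sum_le_sum fun i _ => mul_le_mul_of_nonneg_right (hx i).le (h0 i w))
      have h2 : ∀ s : Finset _, w (∑ i ∈ s, β.repr x i • β i) ≤ ∑ i ∈ s, w (β.repr x i • β i) := by
        intro s
        induction s using Finset.induction_on with
        | empty => simp
        | insert a s ha ih =>
          rw [Finset.sum_insert ha, Finset.sum_insert ha]
          exact (w.1.add_le _ _).trans (add_le_add le_rfl ih)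
      refine (h2 _).trans (le_of_eq (Finset.sum_congr rfl fun i _ => ?_))
      rw [Algebra.smul_def, map_mul]
      congr 1
      rw [eq_ratCast]
      rw [← w.norm_embedding_eq, map_ratCast, Complex.norm_ratCast]
    have h3 : ∑ i, w (β i) ≤ ∑ w : InfinitePlace F, ∑ i, w (β i) :=
      Finset.single_le_sum (f := fun w : InfinitePlace F => ∑ i, w (β i))
        (fun w _ => Finset.sum_nonneg fun i _ => h0 i w) (Finset.mem_univ w)
    rw [← Finset.mul_sum] at h1
    refine lt_of_le_of_lt h1 ?_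
    nlinarith

end numberField

end Vale.Agent.P011.MPQ
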