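import Vale.Agent.P011.MPQ.CFc
import Vale.Agent.P011.MPQ.TopA

/-!
Quaternion algebras as division algebras over `ℚ`, comparison of the topologies and Theorem CF'
for quaternion algebras.
-/

open NumberField IsDedekindDomain

namespace Vale.Agent.P011.MPQ

open Module

section rational

variable {D : Type*} [DivisionRing D] [Algebra ℚ D] {N : ℕ}

theorem repr_natCast_mul' {ι : Type*} (B : Basis ι ℚ D) (m : ℕ) (x : D) (i : ι) :
    B.repr ((m : D) * x) i = m * B.repr x i := by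
  have h : (m : D) * x = (m : ℚ) • x := by
    rw [Algebra.smul_def, map_natCast]
  rw [h, map_smul, Finsupp.smul_apply, smul_eq_mul]

theorem cong_iff (B : Basis (Fin N) ℚ D) (r : ℕ) (x y : D) : Cong B r x y ↔ CB B r (x - y) := by
  constructor
  · rintro ⟨m, hm, hmr, z, hz, h⟩
    refine ⟨m, hm, hmr, fun i => ?_⟩
    obtain ⟨n, hn⟩ := hz i
    refine ⟨n, ?_⟩
    rw [← repr_natCast_mul', h, repr_natCast_mul', hn]
  · rintro ⟨m, hm, hmr, h⟩
    choose n hn using h
    refine ⟨m, hm, hmr, vec B n, vec_mem B n, B.repr.injective ?_⟩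
    ext i
    rw [repr_natCast_mul', repr_natCast_mul', repr_vec, hn]

theorem sz_lt_iff_SB (B : Basis (Fin N) ℚ D) {ρ : ℝ} (hρ : 0 < ρ) (x : D) :
    sz B x < ρ ↔ SB B ρ x := by
  unfold sz SB
  rw [pi_norm_lt_iff hρ]
  rfl

/-- A division algebra of finite dimension over `ℚ` has a basis spanning an order. -/
theorem exists_order (D : Type*) [DivisionRing D] [Algebra ℚ D] [Module.Finite ℚ D] :
    ∃ (N : ℕ) (B : Basis (Fin N) ℚ D), 0 < N ∧ IsOrder B := by
  classical
  -- a basis containing `1`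
  obtain ⟨N, e, i₀, hi₀⟩ : ∃ (N : ℕ) (e : Basis (Fin N) ℚ D) (i₀ : Fin N), e i₀ = 1 := by
    have hli : LinearIndepOn ℚ id ({1} : Set D) := LinearIndepOn.singleton (by simp)
    have hfin : Finite (hli.extend (Set.subset_univ _)) :=
      Module.Finite.finite_basis (Basis.extend hli)
    let f := Finite.equivFin (hli.extend (Set.subset_univ _))
    refine ⟨_, (Basis.extend hli).reindex f,
      f ⟨1, hli.subset_extend _ (Set.mem_singleton 1)⟩, ?_⟩
    rw [Basis.reindex_apply, Equiv.symm_apply_apply, Basis.extend_apply_self]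
  obtain ⟨E, hE, hden⟩ := exists_cden fun k : Fin N × Fin N × Fin N =>
    e.repr (e k.1 * e k.2.1) k.2.2
  have hE' : (E : ℚ) ≠ 0 := by exact_mod_cast hE
  let w : Fin N → ℚˣ := fun i => if i = i₀ then 1 else Units.mk0 (E : ℚ) hE'
  let B := e.unitsSMul w
  have hw0 : w i₀ = 1 := if_pos rfl
  have hw : ∀ i, i ≠ i₀ → ((w i : ℚˣ) : ℚ) = E := fun i hi => by simp [w, hi]
  have hB : ∀ i, B i = ((w i : ℚˣ) : ℚ) • e i := fun i => by
    rw [Basis.unitsSMul_apply]; rfl
  have hB0 : B i₀ = 1 := by rw [hB, hw0, hi₀]; simp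
  have hrepr : ∀ x i, B.repr x i = ((w i : ℚˣ) : ℚ)⁻¹ * e.repr x i := fun x i => by
    rw [Basis.repr_unitsSMul]
    rw [Units.smul_def, smul_eq_mul, Units.val_inv_eq_inv_val]
  have hBlat : ∀ i, B i ∈ lat B := fun i j => by
    rw [B.repr_self, Finsupp.single_apply]
    exact ⟨if i = j then 1 else 0, by push_cast; rfl⟩
  have hmul : ∀ i j, B i * B j ∈ lat B := by
    intro i j
    by_cases hi : i = i₀
    · rw [hi, hB0, one_mul]; exact hBlat j
    by_cases hj : j = i₀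
    · rw [hj, hB0, mul_one]; exact hBlat i
    intro k
    obtain ⟨n, hn⟩ := hden (i, j, k)
    simp only at hn
    have h1 : B i * B j = ((E : ℚ) * E) • (e i * e j) := by
      rw [hB, hB, hw i hi, hw j hj, smul_mul_smul_comm]
    rw [hrepr, h1, map_smul, Finsupp.smul_apply, smul_eq_mul]
    by_cases hk : k = i₀
    · refine ⟨E * n, ?_⟩
      rw [hk] at hn ⊢
      rw [hw0]
      push_cast
      rw [← hn]
      simp
      ring
    · refine ⟨n, ?_⟩
      rw [hw k hk, ← hn]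
      field_simp
  refine ⟨N, B, Fin.pos i₀, ⟨hB0 ▸ hBlat i₀, ?_⟩⟩
  have hvec : ∀ n : Fin N → ℤ, vec B n = ∑ i, n i • B i := fun n => by
    rw [vec_apply]
    exact Finset.sum_congr rfl fun i _ => Int.cast_smul_eq_zsmul ℚ _ _
  intro x hx y hy
  obtain ⟨n, rfl⟩ := mem_lat_iff_vec.mp hx
  obtain ⟨m, rfl⟩ := mem_lat_iff_vec.mp hy
  rw [hvec, hvec, Finset.sum_mul_sum]
  refine sum_mem fun i _ => sum_mem fun j _ => ?_
  rw [smul_mul_smul_comm]
  exact zsmul_mem (hmul i j) _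

end rational

section quat

variable {F : Type} [Field F]

/-- In an anisotropic quaternion algebra all nonzero elements are invertible. -/
theorem isUnit_or_eq_zero {a b : Fˣ} (hab : Aniso a b) (x : Qt a b) : IsUnit x ∨ x = 0 := by
  by_cases hx : x = 0
  · exact Or.inr hx
  · have hn : nrd x ≠ 0 := fun h => hx (hab x h)
    left
    let y : Qt a b := ⟨(nrd x)⁻¹ * x.re, -((nrd x)⁻¹ * x.imI), -((nrd x)⁻¹ * x.imJ),
      -((nrd x)⁻¹ * x.imK)⟩
    have h1 : x * y = 1 := by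
      ext
      · simp only [y, QuaternionAlgebra.re_mul, QuaternionAlgebra.re_one]
        rw [← inv_mul_cancel₀ hn]
        simp only [nrd]
        ring
      · simp only [y, QuaternionAlgebra.imI_mul, QuaternionAlgebra.imI_one]
        ring
      · simp only [y, QuaternionAlgebra.imJ_mul, QuaternionAlgebra.imJ_one]
        ring
      · simp only [y, QuaternionAlgebra.imK_mul, QuaternionAlgebra.imK_one]
        ring
    have h2 : y * x = 1 := by
      ext
      · simp only [y, QuaternionAlgebra.re_mul, QuaternionAlgebra.re_one]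
        rw [← inv_mul_cancel₀ hn]
        simp only [nrd]
        ring
      · simp only [y, QuaternionAlgebra.imI_mul, QuaternionAlgebra.imI_one]
        ring
      · simp only [y, QuaternionAlgebra.imJ_mul, QuaternionAlgebra.imJ_one]
        ring
      · simp only [y, QuaternionAlgebra.imK_mul, QuaternionAlgebra.imK_one]
        ring
    exact ⟨⟨x, y, h1, h2⟩, rfl⟩

variable [NumberField F]

/-- An anisotropic quaternion algebra is a division ring. -/
theorem exists_div {a b : Fˣ} (hab : Aniso a b) : ∃ (D : Type) (_ : DivisionRing D)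
    (_ : Algebra ℚ D), Nonempty (Qt a b ≃+* D) := by
  let I : DivisionRing (Qt a b) := DivisionRing.ofIsUnitOrEqZero (isUnit_or_eq_zero hab)
  have hc : CharZero (Qt a b) := charZero_of_injective_algebraMap (R := F)
    (algebraMap F (Qt a b)).injective
  exact ⟨Qt a b, I, DivisionRing.toRatAlgebra, ⟨RingEquiv.refl _⟩⟩

/-- The four coordinate lines of the quaternion algebra. -/
def line (a b : Fˣ) : Fin 4 → F →+ Qt a b
  | 0 => { toFun := fun c => ⟨c, 0, 0, 0⟩, map_zero' := rfl, map_add' := by intros; ext <;> simp }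
  | 1 => { toFun := fun c => ⟨0, c, 0, 0⟩, map_zero' := rfl, map_add' := by intros; ext <;> simp }
  | 2 => { toFun := fun c => ⟨0, 0, c, 0⟩, map_zero' := rfl, map_add' := by intros; ext <;> simp }
  | 3 => { toFun := fun c => ⟨0, 0, 0, c⟩, map_zero' := rfl, map_add' := by intros; ext <;> simp }

/-- The four coordinates. -/
def coord (a b : Fˣ) : Fin 4 → Qt a b →+ F
  | 0 => { toFun := fun c => c.re, map_zero' := rfl, map_add' := fun _ _ => rfl }
  | 1 => { toFun := fun c => c.imI, map_zero' := rfl, map_add' := fun _ _ => rfl }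
  | 2 => { toFun := fun c => c.imJ, map_zero' := rfl, map_add' := fun _ _ => rfl }
  | 3 => { toFun := fun c => c.imK, map_zero' := rfl, map_add' := fun _ _ => rfl }

omit [NumberField F] in
theorem line_coord (a b : Fˣ) (x : Qt a b) :
    line a b 0 (coord a b 0 x) + line a b 1 (coord a b 1 x) + line a b 2 (coord a b 2 x) +
      line a b 3 (coord a b 3 x) = x := by
  ext <;> simp [line, coord]

theorem clQ_iff {a b : Fˣ} (r : ℕ) (ρ : ℝ) (x : Qt a b) :
    ClQ r ρ x ↔ ∀ t, Cl r ρ (coord a b t (x - 1)) := by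
  constructor
  · rintro ⟨h0, h1, h2, h3⟩ t
    fin_cases t
    · exact h0
    · simpa [coord] using h1
    · simpa [coord] using h2
    · simpa [coord] using h3
  · intro h
    refine ⟨h 0, ?_, ?_, ?_⟩
    · simpa [coord] using h 1
    · simpa [coord] using h 2
    · simpa [coord] using h 3

/-- Comparison of the topologies, first direction. -/
theorem near_of_clQ {a b : Fˣ} {D : Type} [DivisionRing D] [Algebra ℚ D] (φ : Qt a b ≃+* D)
    {N : ℕ} (B : Module.Basis (Fin N) ℚ D) (r : ℕ) (hr : r ≠ 0) (ρ : ℝ) (hρ : 0 < ρ) :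
    ∃ r' : ℕ, r' ≠ 0 ∧ ∃ ρ' : ℝ, 0 < ρ' ∧ ∀ x : Qt a b, ClQ r' ρ' x →
      Cong B r (φ x) 1 ∧ sz B (φ x - 1) < ρ := by
  set β := integralBasis F
  obtain ⟨E, hE, C, hC, h⟩ := exists_unif β B fun t => (φ : Qt a b →+ D).comp (line a b t)
  obtain ⟨C', hC', h'⟩ := exists_SB (F := F)
  refine ⟨r * E, mul_ne_zero hr hE, ρ / (4 * (C * C')), by positivity, fun x hx => ?_⟩
  rw [clQ_iff] at hx
  have hsum : φ x - 1 = (φ : Qt a b →+ D).comp (line a b 0) (coord a b 0 (x - 1)) +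
      (φ : Qt a b →+ D).comp (line a b 1) (coord a b 1 (x - 1)) +
      (φ : Qt a b →+ D).comp (line a b 2) (coord a b 2 (x - 1)) +
      (φ : Qt a b →+ D).comp (line a b 3) (coord a b 3 (x - 1)) := by
    simp only [AddMonoidHom.comp_apply]
    rw [← map_add, ← map_add, ← map_add, line_coord]
    exact (by rw [map_sub, map_one] : φ x - 1 = φ (x - 1))
  have h1 : ∀ t, CB B r ((φ : Qt a b →+ D).comp (line a b t) (coord a b t (x - 1))) := fun t =>
    (h t _).1 r (CB_of_val _ (mul_ne_zero hr hE) _ (hx t).1)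
  have h2 : ∀ t, SB B (ρ / 4) ((φ : Qt a b →+ D).comp (line a b t) (coord a b t (x - 1))) := by
    intro t
    have h3 := (h t (coord a b t (x - 1))).2 (C' * (ρ / (4 * (C * C')))) (by positivity)
      (h' _ _ (by positivity) (hx t).2)
    have h4 : C * (C' * (ρ / (4 * (C * C')))) = ρ / 4 := by field_simp
    rwa [h4] at h3
  rw [cong_iff, sz_lt_iff_SB B hρ, hsum]
  refine ⟨(((h1 0).add (h1 1)).add (h1 2)).add (h1 3), ?_⟩
  refine ((((h2 0).add (h2 1)).add (h2 2)).add (h2 3)).mono (le_of_eq ?_)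
  ring

/-- Comparison of the topologies, second direction. -/
theorem clQ_of_near {a b : Fˣ} {D : Type} [DivisionRing D] [Algebra ℚ D] (φ : Qt a b ≃+* D)
    {N : ℕ} (B : Module.Basis (Fin N) ℚ D) (r : ℕ) (hr : r ≠ 0) (ρ : ℝ) (hρ : 0 < ρ) :
    ∃ r' : ℕ, r' ≠ 0 ∧ ∃ ρ' : ℝ, 0 < ρ' ∧ ∀ x : Qt a b, Cong B r' (φ x) 1 →
      sz B (φ x - 1) < ρ' → ClQ r ρ x := by
  set β := integralBasis F
  obtain ⟨E, hE, C, hC, h⟩ := exists_unif B β fun t =>
    (coord a b t).comp (φ.symm : D →+ Qt a b)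
  obtain ⟨C', hC', h'⟩ := exists_abs (F := F)
  refine ⟨r * E, mul_ne_zero hr hE, ρ / (C * C'), by positivity, fun x hx hs => ?_⟩
  rw [cong_iff] at hx
  rw [sz_lt_iff_SB B (by positivity)] at hs
  rw [clQ_iff]
  intro t
  have e : (coord a b t).comp (φ.symm : D →+ Qt a b) (φ x - 1) = coord a b t (x - 1) := by
    rw [AddMonoidHom.comp_apply]
    congr 1
    exact (by rw [map_sub, map_one, RingEquiv.symm_apply_apply] : φ.symm (φ x - 1) = x - 1)
  have h1 := (h t (φ x - 1)).1 r hx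
  have h2 := (h t (φ x - 1)).2 _ (by positivity) hs
  rw [e] at h1 h2
  refine ⟨val_of_CB r hr _ h1, fun w => ?_⟩
  have h3 := h' _ _ (by positivity) h2 w
  have h4 : C' * (C * (ρ / (C * C'))) = ρ := by field_simp
  rwa [h4] at h3

/-- THEOREM CF for quaternion algebras. -/
theorem cf_quat_center (a b : Fˣ) (hab : Aniso a b) (U : Subgroup (Qt a b)ˣ)
    (hU : ∃ r : ℕ, r ≠ 0 ∧ ∃ ρ : ℝ, 0 < ρ ∧ ∀ x : (Qt a b)ˣ, ClQ r ρ (x : Qt a b) → x ∈ U)
    {R : Type*} [Group R] [Finite R] (c : U →* R) (hc : Function.Surjective c)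
    (hZ : Subgroup.center R = ⊥) :
    ∃ r : ℕ, r ≠ 0 ∧ ∃ ρ : ℝ, 0 < ρ ∧ ∀ x : U, ClQ r ρ ((x : (Qt a b)ˣ) : Qt a b) → c x = 1 := by
  obtain ⟨D, _, _, ⟨φ⟩⟩ := exists_div hab
  have hfin : Module.Finite ℚ D := by
    have h1 : Module.Finite ℚ (Qt a b) := Module.Finite.trans F (Qt a b)
    exact Module.Finite.of_surjective (φ : Qt a b →+ D).toRatLinearMap φ.surjective
  obtain ⟨N, B, -, hO⟩ := exists_order D
  obtain ⟨r₁, hr₁, ρ₁, hρ₁, hU⟩ := hU
  obtain ⟨r₂, hr₂, ρ₂, hρ₂, h₂⟩ := clQ_of_near φ B r₁ hr₁ ρ₁ hρ₁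
  let f : Dˣ →* (Qt a b)ˣ := Units.map (φ.symm : D →* Qt a b)
  let g : (Qt a b)ˣ →* Dˣ := Units.map (φ : Qt a b →* D)
  have hfg : ∀ x, f (g x) = x := fun x => Units.ext (φ.symm_apply_apply _)
  have hT : TOpen B r₂ ρ₂ (U.comap f) := by
    refine ⟨Nat.pos_of_ne_zero hr₂, hρ₂, fun y hy hs => ?_⟩
    refine hU _ (h₂ _ ?_ ?_)
    · change Cong B r₂ (φ (φ.symm (y : D))) 1
      rwa [φ.apply_symm_apply]
    · change sz B (φ (φ.symm (y : D)) - 1) < ρ₂
      rwa [φ.apply_symm_apply]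
  let ψ : U.comap f →* U := f.subgroupComap U
  have hψ : Function.Surjective ψ := fun x => ⟨⟨g x, by
    rw [Subgroup.mem_comap, hfg]; exact x.2⟩, Subtype.ext (hfg _)⟩
  obtain ⟨r, ρ, hr, hρ, h⟩ := cf hO hT (c.comp ψ) (hc.comp hψ) hZ
  obtain ⟨r', hr', ρ', hρ', h'⟩ := near_of_clQ φ B r hr.ne' ρ hρ
  refine ⟨r', hr', ρ', hρ', fun x hx => ?_⟩
  obtain ⟨h3, h4⟩ := h' _ hx
  have h5 := h ⟨g x, by rw [Subgroup.mem_comap, hfg]; exact x.2⟩ h3 h4
  rw [MonoidHom.comp_apply] at h5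
  rw [← h5]
  congr 1
  exact Subtype.ext (hfg _).symm

/-- THEOREM CF' for quaternion algebras: homomorphisms from an open subgroup to a finite group
take values in the hypercentre of their image near `1`. -/
theorem cf_quat (a b : Fˣ) (hab : Aniso a b) (U : Subgroup (Qt a b)ˣ)
    (hU : ∃ r : ℕ, r ≠ 0 ∧ ∃ ρ : ℝ, 0 < ρ ∧ ∀ x : (Qt a b)ˣ, ClQ r ρ (x : Qt a b) → x ∈ U)
    {R : Type*} [Group R] [Finite R] (c : U →* R) :
    ∃ n r : ℕ, r ≠ 0 ∧ ∃ ρ : ℝ, 0 < ρ ∧ ∀ x : U, ClQ r ρ ((x : (Qt a b)ˣ) : Qt a b) →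
      c.rangeRestrict x ∈ Subgroup.upperCentralSeries c.range n :=
  hyper_of_cf (P := fun r ρ (x : U) => ClQ r ρ ((x : (Qt a b)ˣ) : Qt a b))
    (fun _ _ _ c hc hZ => cf_quat_center a b hab U hU c hc hZ) R c

end quat

end Vale.Agent.P011.MPQ
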