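import Vale.Agent.P011.MPQ.IIIc
import Vale.Agent.P011.MPQ.C2
import Vale.Agent.P011.MPQ.TopB

/-!
Normal subgroups of finite index of the norm-one group of a quaternion division algebra over a
number field are open in the congruence topology.
-/

open NumberField IsDedekindDomain

namespace Vale.Agent.P011.MPQ

open Arith

namespace Opn

section tor

variable {F : Type} [Field F] [NumberField F]

theorem exists_torsion_exp : ∃ w : ℕ, w ≠ 0 ∧ ∀ (y : Fˣ) (j : ℕ), j ≠ 0 → y ^ j = 1 →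
    y ^ w = 1 := by
  refine ⟨Nat.card (NumberField.Units.torsion F), Nat.card_pos.ne', fun y j hj hy => ?_⟩
  have hy' : (y : F) ^ j = 1 := by
    have := congrArg (Units.val : Fˣ → F) hy
    simpa using this
  have hint : IsIntegral ℤ (y : F) := by
    refine IsIntegral.of_pow (Nat.pos_of_ne_zero hj) ?_
    rw [hy']
    exact isIntegral_one
  let Y : 𝓞 F := ⟨(y : F), hint⟩
  have hY : Y ^ j = 1 := by
    ext
    exact hy'
  obtain ⟨i, rfl⟩ := Nat.exists_eq_succ_of_ne_zero hj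
  let u : (𝓞 F)ˣ := ⟨Y, Y ^ i, by rw [← pow_succ']; exact hY, by rw [← pow_succ]; exact hY⟩
  have hu : u ^ (i + 1) = 1 := by
    ext
    exact congrArg _ hY
  have hut : u ∈ NumberField.Units.torsion F :=
    (CommGroup.mem_torsion u).2 (isOfFinOrder_iff_pow_eq_one.2 ⟨i + 1, Nat.succ_pos _, hu⟩)
  have h1 : (⟨u, hut⟩ : NumberField.Units.torsion F) ^
      Nat.card (NumberField.Units.torsion F) = 1 := pow_card_eq_one'
  have h2 : u ^ Nat.card (NumberField.Units.torsion F) = 1 := congrArg Subtype.val h1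
  have h3 : Y ^ Nat.card (NumberField.Units.torsion F) = 1 := by
    have := congrArg (Units.val : (𝓞 F)ˣ → 𝓞 F) h2
    simpa using this
  have h4 : ((y : F)) ^ Nat.card (NumberField.Units.torsion F) = 1 := by
    have := congrArg (algebraMap (𝓞 F) F) h3
    rw [map_pow, map_one] at this
    exact this
  ext
  rw [Units.val_pow_eq_pow_val, h4, Units.val_one]

theorem nat_le_one (v : HeightOneSpectrum (𝓞 F)) (n : ℕ) : v.valuation F (n : F) ≤ 1 := by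
  have h1 := v.valuation_le_one (K := F) (n : 𝓞 F)
  have h2 : (algebraMap (𝓞 F) F) (n : 𝓞 F) = (n : F) := map_natCast _ n
  rw [← h2]
  exact h1

theorem cl_left {r s : ℕ} {ρ ρ' : ℝ} (hρ : ρ ≤ ρ') {x : F} (h : Cl (r * s) ρ x) : Cl r ρ' x := by
  refine ⟨fun v hv => ?_, fun w => (h.2 w).trans_le hρ⟩
  have h1 : v.valuation F ((r * s : ℕ) : F) ≤ v.valuation F (r : F) := by
    rw [Nat.cast_mul, map_mul]
    exact mul_le_of_le_one_right' (nat_le_one v s)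
  exact (h.1 v (h1.trans_lt hv)).trans h1

theorem cl_right {r s : ℕ} {ρ ρ' : ℝ} (hρ : ρ ≤ ρ') {x : F} (h : Cl (s * r) ρ x) : Cl r ρ' x := by
  rw [mul_comm] at h
  exact cl_left hρ h

theorem clQ_left {a b : Fˣ} {r s : ℕ} {ρ ρ' : ℝ} (hρ : ρ ≤ ρ') {x : Qt a b}
    (h : ClQ (r * s) ρ x) : ClQ r ρ' x :=
  ⟨cl_left hρ h.1, cl_left hρ h.2.1, cl_left hρ h.2.2.1, cl_left hρ h.2.2.2⟩

theorem clQ_right {a b : Fˣ} {r s : ℕ} {ρ ρ' : ℝ} (hρ : ρ ≤ ρ') {x : Qt a b}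
    (h : ClQ (s * r) ρ x) : ClQ r ρ' x := by
  rw [mul_comm] at h
  exact clQ_left hρ h

/-- The neighbourhoods of one. -/
def nb (a b : Fˣ) : Filter (Qt a b)ˣ where
  sets := {S | ∃ r : ℕ, r ≠ 0 ∧ ∃ ρ : ℝ, 0 < ρ ∧ ∀ x : (Qt a b)ˣ, ClQ r ρ (x : Qt a b) → x ∈ S}
  univ_sets := ⟨1, one_ne_zero, 1, one_pos, fun _ _ => trivial⟩
  sets_of_superset := by
    rintro S T ⟨r, hr, ρ, hρ, h⟩ hST
    exact ⟨r, hr, ρ, hρ, fun x hx => hST (h x hx)⟩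
  inter_sets := by
    rintro S T ⟨r, hr, ρ, hρ, h⟩ ⟨r', hr', ρ', hρ', h'⟩
    exact ⟨r * r', mul_ne_zero hr hr', min ρ ρ', lt_min hρ hρ', fun x hx =>
      ⟨h x (clQ_left (min_le_left _ _) hx), h' x (clQ_right (min_le_right _ _) hx)⟩⟩

theorem mem_nb {a b : Fˣ} {S : Set (Qt a b)ˣ} : S ∈ nb a b ↔
    ∃ r : ℕ, r ≠ 0 ∧ ∃ ρ : ℝ, 0 < ρ ∧ ∀ x : (Qt a b)ˣ, ClQ r ρ (x : Qt a b) → x ∈ S := Iff.rfl

omit [NumberField F] in
/-- The reduced norm as a homomorphism. -/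
def nu (a b : Fˣ) : (Qt a b)ˣ →* Fˣ :=
  Units.map { toFun := nrd, map_one' := nrd_one, map_mul' := nrd_mul }

omit [NumberField F] in
theorem nu_val {a b : Fˣ} (x : (Qt a b)ˣ) : ((nu a b x : Fˣ) : F) = nrd (x : Qt a b) := rfl

omit [NumberField F] in
theorem ker_nu (a b : Fˣ) : (nu a b).ker = SL1 a b := by
  ext x
  rw [MonoidHom.mem_ker]
  constructor
  · intro h
    have := congrArg (Units.val : Fˣ → F) h
    rw [nu_val] at this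
    exact this
  · intro h
    ext
    rw [nu_val]
    exact h

theorem one_nb {a b : Fˣ} (S : Set (Qt a b)ˣ) (hS : S ∈ nb a b) : (1 : (Qt a b)ˣ) ∈ S := by
  obtain ⟨r, hr, ρ, hρ, h⟩ := hS
  obtain ⟨ε, hε, k⟩ := exists_of_clQ (F := F) hr hρ
  refine h 1 (k _ fun p _ => ?_)
  have : qs (pabv p) (((1 : (Qt a b)ˣ) : Qt a b) - 1) = 0 := by
    simp [qs]
  rw [this]
  exact hε p

theorem mul_nb {a b : Fˣ} (S : Set (Qt a b)ˣ) (hS : S ∈ nb a b) :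
    ∃ T ∈ nb a b, ∀ x ∈ T, ∀ y ∈ T, x * y ∈ S := by
  obtain ⟨r, hr, ρ, hρ, h⟩ := hS
  obtain ⟨ε, hε, k⟩ := exists_of_clQ (F := F) hr hρ
  have hLL : ∀ p : PlI F, 0 < LL (pabv p) a b + 2 := fun p => by
    have := LL_pos (pabv p) a b; linarith
  obtain ⟨m, hm, ρ', hρ', k'⟩ := exists_clQ (F := F) hr
    (fun p => min 1 (ε p / (LL (pabv p) a b + 2)))
    (fun p => lt_min one_pos (div_pos (hε p) (hLL p)))
  refine ⟨{x | ClQ (r ^ m) ρ' (x : Qt a b)}, ⟨r ^ m, pow_ne_zero m hr, ρ', hρ', fun x hx => hx⟩,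
    fun x hx y hy => h _ (k _ fun p hp => ?_)⟩
  have hx1 := lt_min_iff.1 (k' _ hx p hp)
  have hy1 := lt_min_iff.1 (k' _ hy p hp)
  have e : ((x * y : (Qt a b)ˣ) : Qt a b) - 1 = ((x : Qt a b) - 1) * ((y : Qt a b) - 1) +
      (((x : Qt a b) - 1) + ((y : Qt a b) - 1)) := by
    rw [Units.val_mul]; noncomm_ring
  rw [e]
  have h1 := qs_add (pabv p) (((x : Qt a b) - 1) * ((y : Qt a b) - 1))
    (((x : Qt a b) - 1) + ((y : Qt a b) - 1))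
  have h2 := qs_add (pabv p) ((x : Qt a b) - 1) ((y : Qt a b) - 1)
  have h3 := qs_mul (pabv p) ((x : Qt a b) - 1) ((y : Qt a b) - 1)
  have nx := qs_nonneg (pabv p) ((x : Qt a b) - 1)
  have ny := qs_nonneg (pabv p) ((y : Qt a b) - 1)
  have l1 := LL_pos (pabv p) a b
  obtain ⟨L, hL⟩ : ∃ L, L = LL (pabv p) a b := ⟨_, rfl⟩
  obtain ⟨X, hX⟩ : ∃ X, X = qs (pabv p) ((x : Qt a b) - 1) := ⟨_, rfl⟩
  obtain ⟨Y, hY⟩ : ∃ Y, Y = qs (pabv p) ((y : Qt a b) - 1) := ⟨_, rfl⟩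
  rw [← hL, ← hX] at hx1
  rw [← hL, ← hY] at hy1
  rw [← hX] at nx
  rw [← hY] at ny
  rw [← hX, ← hY] at h2
  rw [← hL, ← hX, ← hY] at h3
  rw [← hL] at l1
  rw [lt_div_iff₀ (by linarith)] at hx1 hy1
  have h4 : L * X * Y ≤ L * Y := by
    have : L * X * Y = L * Y * X := by ring
    rw [this]
    exact mul_le_of_le_one_right (mul_nonneg (by linarith) ny) hx1.1.le
  have h5 : X * (L + 2) = X * L + 2 * X := by ring
  have h6 : 0 ≤ X * L := mul_nonneg nx (by linarith)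
  nlinarith

theorem inv_nb {a b : Fˣ} (S : Set (Qt a b)ˣ) (hS : S ∈ nb a b) :
    ∃ T ∈ nb a b, ∀ x ∈ T, x⁻¹ ∈ S := by
  obtain ⟨r, hr, ρ, hρ, h⟩ := hS
  obtain ⟨ε, hε, k⟩ := exists_of_clQ (F := F) hr hρ
  have hLL : ∀ p : PlI F, 0 < LL (pabv p) a b := fun p => by
    have := LL_pos (pabv p) a b; linarith
  obtain ⟨m, hm, ρ', hρ', k'⟩ := exists_clQ (F := F) hr
    (fun p => min (1 / (2 * LL (pabv p) a b)) (ε p / (2 * LL (pabv p) a b)))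
    (fun p => by have := hLL p; have := hε p; exact lt_min (by positivity) (by positivity))
  refine ⟨{x | ClQ (r ^ m) ρ' (x : Qt a b)}, ⟨r ^ m, pow_ne_zero m hr, ρ', hρ', fun x hx => hx⟩,
    fun x hx => h _ (k _ fun p hp => ?_)⟩
  have hx1 := lt_min_iff.1 (k' _ hx p hp)
  have e : ((x⁻¹ : (Qt a b)ˣ) : Qt a b) - 1 = ((-1 : F)) •
      (((x⁻¹ : (Qt a b)ˣ) : Qt a b) * ((x : Qt a b) - 1)) := by
    rw [mul_sub, Units.inv_mul, mul_one, neg_smul, one_smul, neg_sub]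
  have h1 : qs (pabv p) (((x⁻¹ : (Qt a b)ˣ) : Qt a b) - 1) ≤ LL (pabv p) a b *
      qs (pabv p) ((x⁻¹ : (Qt a b)ˣ) : Qt a b) * qs (pabv p) ((x : Qt a b) - 1) := by
    rw [e, qs_smul, AbsoluteValue.map_neg, map_one, one_mul]
    exact qs_mul _ _ _
  have h2 : qs (pabv p) ((x⁻¹ : (Qt a b)ˣ) : Qt a b) ≤
      qs (pabv p) (((x⁻¹ : (Qt a b)ˣ) : Qt a b) - 1) + 1 := by
    have := qs_add (pabv p) (((x⁻¹ : (Qt a b)ˣ) : Qt a b) - 1) 1
    rwa [sub_add_cancel, qs_one] at this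
  have nx := qs_nonneg (pabv p) ((x : Qt a b) - 1)
  have ni := qs_nonneg (pabv p) (((x⁻¹ : (Qt a b)ˣ) : Qt a b) - 1)
  have l1 := LL_pos (pabv p) a b
  obtain ⟨L, hL⟩ : ∃ L, L = LL (pabv p) a b := ⟨_, rfl⟩
  obtain ⟨X, hX⟩ : ∃ X, X = qs (pabv p) ((x : Qt a b) - 1) := ⟨_, rfl⟩
  obtain ⟨Y, hY⟩ : ∃ Y, Y = qs (pabv p) (((x⁻¹ : (Qt a b)ˣ) : Qt a b) - 1) := ⟨_, rfl⟩
  obtain ⟨Z, hZ⟩ : ∃ Z, Z = qs (pabv p) ((x⁻¹ : (Qt a b)ˣ) : Qt a b) := ⟨_, rfl⟩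
  rw [← hL, ← hX] at hx1
  rw [← hL, ← hX, ← hY, ← hZ] at h1
  rw [← hZ, ← hY] at h2
  rw [← hX] at nx
  rw [← hY] at ni ⊢
  rw [← hL] at l1
  obtain ⟨m1, m2⟩ := hx1
  rw [lt_div_iff₀ (by linarith)] at m1 m2
  have h3 : L * Z * X ≤ L * (Y + 1) * X :=
    mul_le_mul_of_nonneg_right (mul_le_mul_of_nonneg_left h2 (by linarith)) nx
  have h4 : Y * (L * X) ≤ Y * (1 / 2) := mul_le_mul_of_nonneg_left (by linarith) ni
  nlinarith

theorem slot_nb {a b : Fˣ} (hab : Aniso a b) (S : Set (Qt a b)ˣ) (hS : S ∈ nb a b) :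
    ∃ T ∈ nb a b, ∀ x ∈ T, ∀ y ∈ T, ∃ c ∈ S, ∃ d ∈ S,
      c * d = d * c ∧ nu a b c = nu a b x ∧ nu a b d = nu a b y := by
  obtain ⟨r, hr, ρ, hρ, h⟩ := hS
  obtain ⟨r', hr', ρ', hρ', h'⟩ := exists_slot a b hab r hr ρ hρ
  obtain ⟨ε, hε, k⟩ := exists_of_cl (F := F) hr' hρ'
  have hcont : ∀ p : PlI F, ∃ δ : ℝ, 0 < δ ∧ ∀ x : Qt a b, qs (pabv p) (x - 1) < δ →
      pabv p (nrd x - 1) < ε p := by
    intro p
    have hCA : CA (pabv p) (![1, 0, 0, 0] : Fin 4 → F) fun t =>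
        nrd (⟨t 0, t 1, t 2, t 3⟩ : Qt a b) - 1 :=
      (CQ_mk (a := a) (b := b)).nrd.sub (CA.const 1)
    obtain ⟨δ, hδ, kδ⟩ := hCA.lt (M := ε p) (by simpa [nrd] using hε p)
    refine ⟨δ, hδ, fun x hx => ?_⟩
    obtain ⟨c0, c1, c2, c3⟩ := coord_le_qs (pabv p) (x - 1)
    have := kδ ![x.re, x.imI, x.imJ, x.imK] (by
      intro i
      fin_cases i
      · simpa using c0.trans_lt hx
      · simpa using c1.trans_lt hx
      · simpa using c2.trans_lt hx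
      · simpa using c3.trans_lt hx)
    simpa using this
  choose δ hδ kδ using hcont
  obtain ⟨m, hm, ρ'', hρ'', k'⟩ := exists_clQ (F := F) hr' δ hδ
  have key : ∀ x : (Qt a b)ˣ, ClQ (r' ^ m) ρ'' (x : Qt a b) →
      Cl r' ρ' (((nu a b x : Fˣ) : F) - 1) := fun x hx =>
    k _ fun p hp => kδ p _ (k' _ hx p hp)
  refine ⟨{x | ClQ (r' ^ m) ρ'' (x : Qt a b)}, ⟨r' ^ m, pow_ne_zero m hr', ρ'', hρ'',
    fun x hx => hx⟩, fun x hx y hy => ?_⟩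
  obtain ⟨c, d, hc, hd, hcd, hnc, hnd⟩ := h' (nu a b x) (nu a b y) (key x hx) (key y hy)
  exact ⟨c, h c hc, d, h d hd, hcd, Units.ext hnc, Units.ext hnd⟩

theorem nearGrp {a b : Fˣ} (hab : Aniso a b) : NearGrp (nu a b) (nb a b) where
  one := one_nb
  mul := mul_nb
  inv := inv_nb
  comm := by
    rintro S ⟨r, hr, ρ, hρ, h⟩
    obtain ⟨r', hr', ρ', hρ', h'⟩ := exists_comm a b hab r hr ρ hρ
    refine ⟨{x | ClQ r' ρ' (x : Qt a b)}, ⟨r', hr', ρ', hρ', fun x hx => hx⟩, fun x hx hν => ?_⟩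
    have hx1 : x ∈ SL1 a b := by rw [← ker_nu]; exact hν
    obtain ⟨y, z, hy, hz, hxyz⟩ := h' x hx1 hx
    exact ⟨y, h y hy, z, h z hz, hxyz⟩
  slot := slot_nb hab
  hyp := by
    intro U hU R _ _ c
    obtain ⟨n, r, hr, ρ, hρ, h⟩ := cf_quat a b hab U hU c
    exact ⟨n, {x | ClQ r ρ (x : Qt a b)}, ⟨r, hr, ρ, hρ, fun x hx => hx⟩, fun x hx => h x hx⟩

end tor

end Opn

variable {F : Type} [Field F] [NumberField F]

/-- III. Normal subgroups of finite index are open. -/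
theorem open_of_normal (a b : Fˣ) (hab : Aniso a b) (N₀ : Subgroup (Qt a b)ˣ)
    (hN : N₀ ≤ SL1 a b) (hn : N₀.Normal) (hfin : N₀.relIndex (SL1 a b) ≠ 0) :
    ∃ r : ℕ, r ≠ 0 ∧ ∃ ρ : ℝ, 0 < ρ ∧ ∀ x ∈ SL1 a b, ClQ r ρ (x : Qt a b) → x ∈ N₀ := by
  obtain ⟨w, hw, htor⟩ := Opn.exists_torsion_exp (F := F)
  rw [← Opn.ker_nu] at hN hfin ⊢
  obtain ⟨T, ⟨r, hr, ρ, hρ, h⟩, k⟩ := (Opn.nearGrp hab).open_abs hw
    (fun x j hj h => htor _ j hj h) N₀ hN hfin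
  exact ⟨r, hr, ρ, hρ, fun x hx hcl => k x (h x hcl) hx⟩

end Vale.Agent.P011.MPQ
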