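import Vale.Agent.P011.MPQ.KDefs

/-!
# P011, quaternion Margulis-Platonov, K1: balanced generators of left ideals

Pigeonhole arguments only: the shortest vector `p` of a left ideal `P` of index `m` satisfies
`|p| ≤ m^(1/N)`, `|p⁻¹| ≤ C m^(-1/N)` and `H P ⊆ Λ p` with `H`, `C` independent of `P`.
-/

namespace Vale.Agent.P011.MPQ

open Module

variable {D : Type*} [DivisionRing D] [Algebra ℚ D] {N : ℕ}

theorem sz_zero (b : Basis (Fin N) ℚ D) : sz b (0 : D) = 0 := by
  unfold sz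
  have : (fun i => ((b.repr (0 : D) i : ℚ) : ℝ)) = 0 := by
    funext i
    simp
  rw [this, norm_zero]

theorem sz_sub_le (b : Basis (Fin N) ℚ D) (x y : D) : sz b (x - y) ≤ sz b x + sz b y := by
  rw [sub_eq_add_neg]
  refine (sz_add_le b _ _).trans ?_
  rw [sz_neg]

theorem sz_sum_le (b : Basis (Fin N) ℚ D) {ι : Type*} (s : Finset ι) (f : ι → D) :
    sz b (∑ i ∈ s, f i) ≤ ∑ i ∈ s, sz b (f i) := by
  classical
  induction s using Finset.induction_on with
  | empty => simp [sz_zero]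
  | insert a s ha ih =>
    rw [Finset.sum_insert ha, Finset.sum_insert ha]
    exact (sz_add_le b _ _).trans (by linarith)

theorem sz_eq_zero {b : Basis (Fin N) ℚ D} {x : D} (h : sz b x = 0) : x = 0 := by
  apply b.repr.injective
  ext i
  have h1 := abs_repr_le b x i
  rw [h] at h1
  have h2 : ((b.repr x i : ℚ) : ℝ) = 0 := abs_nonpos_iff.mp h1
  have h3 : b.repr x i = 0 := by exact_mod_cast h2
  simp [h3]

theorem sz_pos {b : Basis (Fin N) ℚ D} {x : D} (h : x ≠ 0) : 0 < sz b x :=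
  lt_of_le_of_ne (sz_nonneg b x) (fun h0 => h (sz_eq_zero h0.symm))

theorem sz_lt_iff (b : Basis (Fin N) ℚ D) (x : D) {Y : ℝ} (hY : 0 < Y) :
    sz b x < Y ↔ ∀ i, |((b.repr x i : ℚ) : ℝ)| < Y := by
  unfold sz
  rw [pi_norm_lt_iff hY]
  simp only [Real.norm_eq_abs]

theorem sz_le_iff (b : Basis (Fin N) ℚ D) (x : D) {Y : ℝ} (hY : 0 ≤ Y) :
    sz b x ≤ Y ↔ ∀ i, |((b.repr x i : ℚ) : ℝ)| ≤ Y := by
  unfold sz
  rw [pi_norm_le_iff_of_nonneg hY]
  simp only [Real.norm_eq_abs]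

/-- Submultiplicativity of the size up to a constant. -/
theorem exists_mul_bound (b : Basis (Fin N) ℚ D) :
    ∃ C : ℝ, 1 ≤ C ∧ ∀ x y : D, sz b (x * y) ≤ C * sz b x * sz b y := by
  classical
  refine ⟨1 + ∑ i, ∑ j, sz b (b i * b j), ?_, ?_⟩
  · have : 0 ≤ ∑ i, ∑ j, sz b (b i * b j) :=
      Finset.sum_nonneg fun i _ => Finset.sum_nonneg fun j _ => sz_nonneg b _
    linarith
  · intro x y
    have hx := b.sum_repr x
    have hy := b.sum_repr y
    have h1 : x * y = ∑ i, ∑ j, (b.repr x i * b.repr y j) • (b i * b j) := by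
      conv_lhs => rw [← hx, ← hy]
      rw [Finset.sum_mul_sum]
      refine Finset.sum_congr rfl fun i _ => Finset.sum_congr rfl fun j _ => ?_
      rw [smul_mul_smul_comm]
    have h2 : sz b (x * y) ≤ ∑ i, ∑ j, sz b x * sz b y * sz b (b i * b j) := by
      rw [h1]
      refine (sz_sum_le b _ _).trans (Finset.sum_le_sum fun i _ => ?_)
      refine (sz_sum_le b _ _).trans (Finset.sum_le_sum fun j _ => ?_)
      rw [sz_smul]
      refine mul_le_mul_of_nonneg_right ?_ (sz_nonneg b _)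
      rw [Rat.cast_mul, abs_mul]
      exact mul_le_mul (abs_repr_le b x i) (abs_repr_le b y j) (abs_nonneg _) (sz_nonneg b x)
    have h3 : ∑ i, ∑ j, sz b x * sz b y * sz b (b i * b j)
        = sz b x * sz b y * ∑ i, ∑ j, sz b (b i * b j) := by
      rw [Finset.mul_sum]
      refine Finset.sum_congr rfl fun i _ => ?_
      rw [Finset.mul_sum]
    rw [h3] at h2
    have h4 : 0 ≤ sz b x * sz b y := mul_nonneg (sz_nonneg b x) (sz_nonneg b y)
    nlinarith

/-- The rank is positive. -/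
theorem rank_pos (b : Basis (Fin N) ℚ D) : 0 < N := by
  rcases Nat.eq_zero_or_pos N with h | h
  · exfalso
    subst h
    apply one_ne_zero (α := D)
    apply b.repr.injective
    ext i
    exact i.elim0
  · exact h

theorem one_le_sz {b : Basis (Fin N) ℚ D} {x : D} (hx : x ∈ lat b) (h0 : x ≠ 0) :
    1 ≤ sz b x := by
  obtain ⟨n, rfl⟩ := mem_lat_iff_vec.mp hx
  have hn : n ≠ 0 := by
    rintro rfl
    exact h0 (map_zero _)
  obtain ⟨i, hi⟩ := Function.ne_iff.mp hn
  have h1 := abs_repr_le b (vec b n) i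
  rw [repr_vec] at h1
  refine le_trans ?_ h1
  have h2 : (1 : ℤ) ≤ |n i| := Int.one_le_abs hi
  have h3 : ((1 : ℤ) : ℝ) ≤ ((|n i| : ℤ) : ℝ) := by exact_mod_cast h2
  simpa using h3

/-- Pigeonhole in a box: a sublattice of index `m < (k+1)^N` has a nonzero vector of size
at most `k`. -/
theorem exists_small_mem (b : Basis (Fin N) ℚ D) {P : AddSubgroup D} {m : ℕ}
    (hm0 : m ≠ 0) (hm : P.relIndex (lat b) = m) {k : ℕ} (hk : m < (k + 1) ^ N) :
    ∃ p ∈ P, p ≠ 0 ∧ sz b p ≤ k ∧ p ∈ lat b := by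
  classical
  set Q := P.addSubgroupOf (lat b) with hQ
  have hidx : Nat.card ((lat b) ⧸ Q) = m := hm
  have hfin : Finite ((lat b) ⧸ Q) := Nat.finite_of_card_ne_zero (by rw [hidx]; exact hm0)
  have : Fintype ((lat b) ⧸ Q) := Fintype.ofFinite _
  let f : (Fin N → Fin (k + 1)) → (lat b) ⧸ Q := fun v =>
    (QuotientAddGroup.mk ⟨vec b (fun i => ((v i : ℕ) : ℤ)), vec_mem b _⟩)
  have hcard : Fintype.card ((lat b) ⧸ Q) < Fintype.card (Fin N → Fin (k + 1)) := by
    rw [← Nat.card_eq_fintype_card, hidx]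
    simpa using hk
  obtain ⟨v, w, hvw, hf⟩ := Fintype.exists_ne_map_eq_of_card_lt f hcard
  have h1 := QuotientAddGroup.eq.mp hf
  rw [hQ, AddSubgroup.mem_addSubgroupOf] at h1
  have h2 : vec b (fun i => ((w i : ℕ) : ℤ)) - vec b (fun i => ((v i : ℕ) : ℤ)) ∈ P := by
    have : vec b (fun i => ((w i : ℕ) : ℤ)) - vec b (fun i => ((v i : ℕ) : ℤ))
        = -vec b (fun i => ((v i : ℕ) : ℤ)) + vec b (fun i => ((w i : ℕ) : ℤ)) := by abel
    rw [this]
    exact h1
  rw [← map_sub] at h2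
  refine ⟨_, h2, ?_, ?_, vec_mem b _⟩
  · intro h0
    apply hvw
    have h3 : (fun i => ((w i : ℕ) : ℤ)) - (fun i => ((v i : ℕ) : ℤ)) = 0 :=
      vec_injective b (by rw [h0, map_zero])
    funext i
    have h4 := congrFun h3 i
    simp only [Pi.sub_apply, Pi.zero_apply] at h4
    apply Fin.ext
    omega
  · rw [sz_vec_le b _ (Nat.cast_nonneg k)]
    intro i
    have hv : (v i : ℕ) ≤ k := Nat.lt_succ_iff.mp (v i).2
    have hw : (w i : ℕ) ≤ k := Nat.lt_succ_iff.mp (w i).2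
    have h5 : |(((w i : ℕ) : ℤ) - ((v i : ℕ) : ℤ))| ≤ (k : ℤ) := by
      rw [abs_le]
      constructor <;> omega
    have h6 : ((|(((w i : ℕ) : ℤ) - ((v i : ℕ) : ℤ))| : ℤ) : ℝ) ≤ ((k : ℤ) : ℝ) := by
      exact_mod_cast h5
    simpa using h6

/-- Pigeonhole modulo the lattice: among more than `K^N` vectors two are close modulo `Λ`. -/
theorem exists_close (b : Basis (Fin N) ℚ D) {ι : Type*} [Fintype ι] {K : ℕ} (hK : 0 < K)
    (hι : K ^ N < Fintype.card ι) (s : ι → D) :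
    ∃ i j, i ≠ j ∧ ∃ l ∈ lat b, sz b (s i - s j - l) < 1 / K := by
  classical
  have hKr : (0 : ℝ) < K := by exact_mod_cast hK
  have hKq : (0 : ℚ) < K := by exact_mod_cast hK
  have hcell : ∀ i t, (⌊(K : ℚ) * Int.fract (b.repr (s i) t)⌋).toNat < K := by
    intro i t
    have h1 : (K : ℚ) * Int.fract (b.repr (s i) t) < K := by
      have := Int.fract_lt_one (b.repr (s i) t)
      nlinarith
    have h2 : ⌊(K : ℚ) * Int.fract (b.repr (s i) t)⌋ < (K : ℤ) := by
      rw [Int.floor_lt]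
      simpa using h1
    have h3 : 0 ≤ ⌊(K : ℚ) * Int.fract (b.repr (s i) t)⌋ :=
      Int.floor_nonneg.mpr (mul_nonneg hKq.le (Int.fract_nonneg _))
    omega
  let f : ι → (Fin N → Fin K) := fun i t =>
    ⟨(⌊(K : ℚ) * Int.fract (b.repr (s i) t)⌋).toNat, hcell i t⟩
  have hcard : Fintype.card (Fin N → Fin K) < Fintype.card ι := by simpa using hι
  obtain ⟨i, j, hij, hf⟩ := Fintype.exists_ne_map_eq_of_card_lt f hcard
  refine ⟨i, j, hij, vec b (fun t => ⌊b.repr (s i) t⌋ - ⌊b.repr (s j) t⌋), vec_mem b _, ?_⟩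
  rw [sz_lt_iff b _ (by positivity)]
  intro t
  have h1 : b.repr (s i - s j - vec b (fun t => ⌊b.repr (s i) t⌋ - ⌊b.repr (s j) t⌋)) t
      = Int.fract (b.repr (s i) t) - Int.fract (b.repr (s j) t) := by
    rw [map_sub, map_sub, Finsupp.sub_apply, Finsupp.sub_apply, repr_vec]
    unfold Int.fract
    push_cast
    ring
  rw [h1]
  have h2 := congrFun hf t
  have h3 : (⌊(K : ℚ) * Int.fract (b.repr (s i) t)⌋).toNat
      = (⌊(K : ℚ) * Int.fract (b.repr (s j) t)⌋).toNat := congrArg Fin.val h2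
  have hn : ∀ i, 0 ≤ ⌊(K : ℚ) * Int.fract (b.repr (s i) t)⌋ := fun i =>
    Int.floor_nonneg.mpr (mul_nonneg hKq.le (Int.fract_nonneg _))
  have h4 : ⌊(K : ℚ) * Int.fract (b.repr (s i) t)⌋ = ⌊(K : ℚ) * Int.fract (b.repr (s j) t)⌋ := by
    have := hn i
    have := hn j
    omega
  have h5 := Int.abs_sub_lt_one_of_floor_eq_floor h4
  rw [← mul_sub, abs_mul, abs_of_pos hKq] at h5
  have h6 : |Int.fract (b.repr (s i) t) - Int.fract (b.repr (s j) t)| < 1 / K := by
    rw [lt_div_iff₀ hKq]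
    linarith
  have h7 : ((|Int.fract (b.repr (s i) t) - Int.fract (b.repr (s j) t)| : ℚ) : ℝ)
      < ((1 / K : ℚ) : ℝ) := by exact_mod_cast h6
  rw [Rat.cast_abs] at h7
  simpa using h7

/-- The positive real `m^(1/N)`. -/
noncomputable def rt (N m : ℕ) : ℝ := (m : ℝ) ^ ((N : ℝ)⁻¹)

theorem rt_pow {N : ℕ} (hN : 0 < N) (m : ℕ) : rt N m ^ N = m :=
  Real.rpow_inv_natCast_pow (Nat.cast_nonneg m) hN.ne'

theorem rt_nonneg (N m : ℕ) : 0 ≤ rt N m := Real.rpow_nonneg (Nat.cast_nonneg m) _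

theorem one_lt_rt {N : ℕ} (hN : 0 < N) {m : ℕ} (hm : 1 < m) : 1 < rt N m := by
  unfold rt
  apply Real.one_lt_rpow
  · exact_mod_cast hm
  · positivity

/-- The set of nonzero lattice vectors of bounded size is finite, so their inverses are bounded. -/
theorem exists_inv_bound (b : Basis (Fin N) ℚ D) (Y : ℝ) :
    ∃ C : ℝ, 0 < C ∧ ∀ x ∈ lat b, sz b x ≤ Y → sz b x⁻¹ ≤ C := by
  classical
  obtain ⟨k, hk⟩ := exists_nat_ge Y
  let f : (Fin N → Fin (2 * k + 1)) → ℝ := fun v => sz b (vec b (fun i => ((v i : ℕ) : ℤ) - k))⁻¹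
  refine ⟨1 + ∑ v, f v, ?_, ?_⟩
  · have : 0 ≤ ∑ v, f v := Finset.sum_nonneg fun v _ => sz_nonneg b _
    linarith
  · intro x hx hxY
    obtain ⟨n, rfl⟩ := mem_lat_iff_vec.mp hx
    have h0 : (0 : ℝ) ≤ Y := (sz_nonneg b _).trans hxY
    have h1 := (sz_vec_le b n h0).mp hxY
    have h2 : ∀ i, |n i| ≤ (k : ℤ) := by
      intro i
      have : ((|n i| : ℤ) : ℝ) ≤ ((k : ℤ) : ℝ) := by
        push_cast
        exact (h1 i).trans hk
      exact_mod_cast this
    have h3 : ∀ i, (n i + k).toNat < 2 * k + 1 := by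
      intro i
      have := abs_le.mp (h2 i)
      omega
    let v : Fin N → Fin (2 * k + 1) := fun i => ⟨(n i + k).toNat, h3 i⟩
    have h4 : (fun i => ((v i : ℕ) : ℤ) - k) = n := by
      funext i
      have := abs_le.mp (h2 i)
      simp only [v]
      omega
    have h5 : f v ≤ ∑ v, f v :=
      Finset.single_le_sum (f := f) (fun v _ => sz_nonneg b _) (Finset.mem_univ v)
    have h6 : f v = sz b (vec b n)⁻¹ := by
      simp only [f]
      rw [h4]
    linarith

/-- **K1.** Balanced generators of left ideals. -/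
theorem exists_balanced (b : Basis (Fin N) ℚ D) :
    ∃ (H : ℕ) (C : ℝ), 0 < H ∧ 0 < C ∧ ∀ (P : AddSubgroup D) (m : ℕ), P ≤ lat b → 1 < m →
      P.relIndex (lat b) = m → (∀ x ∈ lat b, ∀ y ∈ P, x * y ∈ P) →
      ∃ p ∈ P, p ≠ 0 ∧ sz b p ≤ rt N m ∧ sz b p⁻¹ ≤ C / rt N m ∧
        ∀ x ∈ P, ∃ y ∈ lat b, (H : D) * x = y * p := by
  classical
  obtain ⟨C₁, hC₁, hmul⟩ := exists_mul_bound b
  have hN := rank_pos b
  obtain ⟨Q, hQ⟩ := exists_nat_gt C₁
  have hQ0 : 0 < Q := by
    have : (0 : ℝ) < Q := by linarith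
    exact_mod_cast this
  obtain ⟨C₅, hC₅, hinv⟩ := exists_inv_bound b (2 * C₁)
  refine ⟨(Q ^ N).factorial, 2 * C₁ * C₅, Nat.factorial_pos _, by positivity, ?_⟩
  intro P m hP hm hidx hideal
  have hm0 : m ≠ 0 := by omega
  have hrt := one_lt_rt hN hm
  have hrt0 : 0 < rt N m := by linarith
  -- a short vector
  set k := ⌊rt N m⌋₊ with hk
  have hk1 : (k : ℝ) ≤ rt N m := Nat.floor_le hrt0.le
  have hk2 : rt N m < k + 1 := Nat.lt_floor_add_one _
  have hk3 : m < (k + 1) ^ N := by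
    have h1 : rt N m ^ N < ((k : ℝ) + 1) ^ N := pow_lt_pow_left₀ hk2 hrt0.le hN.ne'
    rw [rt_pow hN] at h1
    exact_mod_cast h1
  obtain ⟨p₀, hp₀, hp₀0, hp₀k, hp₀l⟩ := exists_small_mem b hm0 hidx hk3
  -- the shortest vector: sizes of lattice vectors are natural numbers
  have hsznat : ∀ x ∈ lat b, ∃ a : ℕ, sz b x = a := by
    intro x hx
    obtain ⟨n, rfl⟩ := mem_lat_iff_vec.mp hx
    have : Nonempty (Fin N) := ⟨⟨0, hN⟩⟩
    obtain ⟨i, hi⟩ := Finite.exists_max (fun i => |n i|)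
    refine ⟨(n i).natAbs, le_antisymm ?_ ?_⟩
    · rw [sz_vec_le b _ (Nat.cast_nonneg _)]
      intro j
      have h1 : ((|n j| : ℤ) : ℝ) ≤ ((|n i| : ℤ) : ℝ) := by exact_mod_cast hi j
      rw [Int.abs_eq_natAbs (n i)] at h1
      push_cast at h1 ⊢
      simpa using h1
    · have h1 := abs_repr_le b (vec b n) i
      rw [repr_vec] at h1
      have h2 : (((n i).natAbs : ℕ) : ℝ) = |((n i : ℚ) : ℝ)| := by
        push_cast
        simp
      rw [h2]
      exact h1
  have hex : ∃ a : ℕ, ∃ p ∈ P, p ≠ 0 ∧ sz b p = a := by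
    obtain ⟨a, ha⟩ := hsznat p₀ hp₀l
    exact ⟨a, p₀, hp₀, hp₀0, ha⟩
  obtain ⟨p, hpP, hp0, hpa⟩ := Nat.find_spec hex
  have hmin : ∀ x ∈ P, x ≠ 0 → sz b p ≤ sz b x := by
    intro x hx hx0
    obtain ⟨a, ha⟩ := hsznat x (hP hx)
    rw [hpa, ha]
    exact_mod_cast Nat.find_min' hex ⟨x, hx, hx0, ha⟩
  have hpk : sz b p ≤ rt N m := (hmin p₀ hp₀ hp₀0).trans (hp₀k.trans hk1)
  refine ⟨p, hpP, hp0, hpk, ?_, ?_⟩
  · -- the inverse
    set K := ⌈rt N m⌉₊ - 1 with hKdef
    have hceil : 2 ≤ ⌈rt N m⌉₊ := by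
      have : 1 < ⌈rt N m⌉₊ := by
        rw [Nat.lt_ceil]
        simpa using hrt
      omega
    have hK0 : 0 < K := by omega
    have hKr : (K : ℝ) + 1 = ⌈rt N m⌉₊ := by
      have : K + 1 = ⌈rt N m⌉₊ := by omega
      exact_mod_cast this
    have hKlt : (K : ℝ) < rt N m := by
      have : K < ⌈rt N m⌉₊ := by omega
      exact Nat.lt_ceil.mp this
    have hKge : rt N m / 2 ≤ K := by
      have h1 : rt N m ≤ ⌈rt N m⌉₊ := Nat.le_ceil _
      have h2 : (1 : ℝ) ≤ K := by exact_mod_cast hK0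
      linarith
    have hKm : K ^ N < m := by
      have h1 : (K : ℝ) ^ N < rt N m ^ N := pow_lt_pow_left₀ hKlt (Nat.cast_nonneg _) hN.ne'
      rw [rt_pow hN] at h1
      exact_mod_cast h1
    -- representatives of Λ/P
    set Qg := P.addSubgroupOf (lat b) with hQg
    have hidx' : Nat.card ((lat b) ⧸ Qg) = m := hidx
    have hfin : Finite ((lat b) ⧸ Qg) := Nat.finite_of_card_ne_zero (by rw [hidx']; exact hm0)
    have : Fintype ((lat b) ⧸ Qg) := Fintype.ofFinite _
    have hcard : K ^ N < Fintype.card ((lat b) ⧸ Qg) := by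
      rw [← Nat.card_eq_fintype_card, hidx']
      exact hKm
    obtain ⟨i, j, hij, l, hl, hclose⟩ := exists_close b hK0 hcard
      (fun i => ((Quotient.out i : lat b) : D) * p⁻¹)
    set μ := ((Quotient.out i : lat b) : D) - ((Quotient.out j : lat b) : D) - l * p with hμ
    have hμl : μ ∈ lat b := by
      refine (lat b).sub_mem ((lat b).sub_mem (Quotient.out i).2 (Quotient.out j).2) ?_
      exact hP (hideal l hl p hpP)
    have hμ0 : μ ≠ 0 := by
      intro h0
      apply hij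
      have h1 : ((Quotient.out i : lat b) : D) - ((Quotient.out j : lat b) : D) = l * p :=
        sub_eq_zero.mp h0
      have h2 : -(Quotient.out j : lat b) + (Quotient.out i : lat b) ∈ Qg := by
        refine AddSubgroup.mem_addSubgroupOf.mpr ?_
        have h3 : ((-(Quotient.out j : lat b) + (Quotient.out i : lat b) : lat b) : D) = l * p := by
          rw [← h1]
          push_cast
          abel
        rw [h3]
        exact hideal l hl p hpP
      have h3 : (QuotientAddGroup.mk (Quotient.out j : lat b) : (lat b) ⧸ Qg)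
          = QuotientAddGroup.mk (Quotient.out i : lat b) := QuotientAddGroup.eq.mpr h2
      have h4 : ∀ q : (lat b) ⧸ Qg, (QuotientAddGroup.mk (Quotient.out q : lat b) : (lat b) ⧸ Qg) = q :=
        fun q => QuotientAddGroup.out_eq' q
      rw [h4, h4] at h3
      exact h3.symm
    have hμp : μ * p⁻¹ = ((Quotient.out i : lat b) : D) * p⁻¹
        - ((Quotient.out j : lat b) : D) * p⁻¹ - l := by
      rw [hμ, sub_mul, sub_mul, mul_assoc l, mul_inv_cancel₀ hp0, mul_one]
    have hKr0 : (0 : ℝ) < K := by exact_mod_cast hK0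
    have h1 : sz b (μ * p⁻¹) ≤ 1 / K := by
      rw [hμp]
      exact hclose.le
    have h2 : sz b μ ≤ 2 * C₁ := by
      have h3 : μ = (μ * p⁻¹) * p := by
        rw [mul_assoc, inv_mul_cancel₀ hp0, mul_one]
      rw [h3]
      refine (hmul _ _).trans ?_
      have h4 : sz b (μ * p⁻¹) * sz b p ≤ (1 / K) * rt N m :=
        mul_le_mul h1 hpk (sz_nonneg b _) (by positivity)
      have h5 : (1 / K) * rt N m ≤ 2 := by
        rw [one_div, inv_mul_le_iff₀ hKr0]
        linarith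
      calc C₁ * sz b (μ * p⁻¹) * sz b p = C₁ * (sz b (μ * p⁻¹) * sz b p) := by ring
        _ ≤ C₁ * 2 := by
            refine mul_le_mul_of_nonneg_left (h4.trans h5) (by linarith)
        _ = 2 * C₁ := by ring
    have h3 : p⁻¹ = μ⁻¹ * (μ * p⁻¹) := by
      rw [← mul_assoc, inv_mul_cancel₀ hμ0, one_mul]
    rw [h3]
    refine (hmul _ _).trans ?_
    have h4 : sz b μ⁻¹ * sz b (μ * p⁻¹) ≤ C₅ * (1 / K) :=
      mul_le_mul (hinv μ hμl h2) h1 (sz_nonneg b _) hC₅.le
    have h5 : (1 : ℝ) / K ≤ 2 / rt N m := by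
      rw [div_le_div_iff₀ hKr0 hrt0]
      linarith
    calc C₁ * sz b μ⁻¹ * sz b (μ * p⁻¹) = C₁ * (sz b μ⁻¹ * sz b (μ * p⁻¹)) := by ring
      _ ≤ C₁ * (C₅ * (2 / rt N m)) := by
          refine mul_le_mul_of_nonneg_left (h4.trans ?_) (by linarith)
          exact mul_le_mul_of_nonneg_left h5 hC₅.le
      _ = 2 * C₁ * C₅ / rt N m := by ring
  · -- bounded denominators
    intro x hx
    have hcard : Q ^ N < Fintype.card (Fin (Q ^ N + 1)) := by simp
    obtain ⟨i, j, hij, l, hl, hclose⟩ := exists_close b hQ0 hcard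
      (fun i => (((i : ℕ) : ℤ) : D) * (x * p⁻¹))
    -- the difference of the two multiples
    set a : ℤ := ((i : ℕ) : ℤ) - ((j : ℕ) : ℤ) with ha
    have ha0 : a ≠ 0 := by
      intro h
      apply hij
      apply Fin.ext
      omega
    have haQ : a.natAbs ≤ Q ^ N := by
      have := i.2
      have := j.2
      omega
    have h1 : (((i : ℕ) : ℤ) : D) * (x * p⁻¹) - (((j : ℕ) : ℤ) : D) * (x * p⁻¹) - l
        = ((a : D) * x - l * p) * p⁻¹ := by
      rw [ha, sub_mul, mul_assoc l, mul_inv_cancel₀ hp0, mul_one]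
      push_cast
      simp only [sub_mul, mul_assoc]
    rw [h1] at hclose
    have hax : (a : D) * x ∈ P := by
      rw [← zsmul_eq_mul]
      exact P.zsmul_mem hx a
    have h2 : (a : D) * x - l * p ∈ P := P.sub_mem hax (hideal l hl p hpP)
    have h3 : (a : D) * x - l * p = 0 := by
      by_contra h0
      have h4 := hmin _ h2 h0
      have h5 : (a : D) * x - l * p = (((a : D) * x - l * p) * p⁻¹) * p := by
        rw [mul_assoc, inv_mul_cancel₀ hp0, mul_one]
      have h6 : sz b ((a : D) * x - l * p)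
          ≤ C₁ * sz b (((a : D) * x - l * p) * p⁻¹) * sz b p := by
        conv_lhs => rw [h5]
        exact hmul _ _
      have hQr : (0 : ℝ) < Q := by exact_mod_cast hQ0
      have hszp := sz_pos (b := b) hp0
      have h7 : C₁ * sz b (((a : D) * x - l * p) * p⁻¹) < 1 := by
        calc C₁ * sz b (((a : D) * x - l * p) * p⁻¹) < C₁ * (1 / Q) :=
              mul_lt_mul_of_pos_left hclose (by linarith)
          _ ≤ 1 := by
              rw [mul_one_div, div_le_one hQr]
              exact hQ.le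
      have h8 : C₁ * sz b (((a : D) * x - l * p) * p⁻¹) * sz b p < 1 * sz b p :=
        mul_lt_mul_of_pos_right h7 hszp
      linarith
    have h9 : (a : D) * x = l * p := sub_eq_zero.mp h3
    obtain ⟨d, hd⟩ : a ∣ (((Q ^ N).factorial : ℕ) : ℤ) := by
      have h10 : a.natAbs ∣ (Q ^ N).factorial :=
        Nat.dvd_factorial (Int.natAbs_pos.mpr ha0) haQ
      exact Int.natAbs_dvd.mp (by exact_mod_cast h10)
    refine ⟨(d : D) * l, ?_, ?_⟩
    · rw [← zsmul_eq_mul]
      exact (lat b).zsmul_mem hl d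
    · have h11 : (((Q ^ N).factorial : ℕ) : D) = (d : D) * (a : D) := by
        have : (((((Q ^ N).factorial : ℕ) : ℤ)) : D) = ((a * d : ℤ) : D) := by rw [hd]
        rw [Int.cast_natCast] at this
        rw [this, mul_comm a d]
        push_cast
        rfl
      rw [h11, mul_assoc, h9, mul_assoc]

end Vale.Agent.P011.MPQ
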