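import Vale.Agent.P011.MPQ.K1

/-!
# P011, quaternion Margulis-Platonov, K6: elements of a T-open subgroup on the lattice
-/

namespace Vale.Agent.P011.MPQ

open Module

variable {D : Type*} [DivisionRing D] [Algebra ℚ D] {N : ℕ}
  {b : Basis (Fin N) ℚ D} {r₀ : ℕ} {ρ₀ : ℝ} {U : Subgroup Dˣ}

theorem TOpen.mono (hU : TOpen b r₀ ρ₀ U) {ρ₁ : ℝ} (h0 : 0 < ρ₁) (h : ρ₁ ≤ ρ₀) :
    TOpen b r₀ ρ₁ U :=
  ⟨hU.r_pos, h0, fun x hx hx' => hU.nbhd x hx (hx'.trans_le h), hU.cong⟩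

theorem natCast_ne_zero (D : Type*) [DivisionRing D] [Algebra ℚ D] {n : ℕ} (hn : n ≠ 0) : ((n : ℕ) : D) ≠ 0 := by
  have hc0 : CharZero D := algebraRat.charZero D
  exact Nat.cast_ne_zero.mpr hn

theorem q_zero (q : ℚ) : q • (0 : D) = 0 := by rw [Algebra.smul_def, mul_zero]

theorem q_one (x : D) : (1 : ℚ) • x = x := by rw [Algebra.smul_def, map_one, one_mul]

theorem q_sub (q : ℚ) (x y : D) : q • (x - y) = q • x - q • y := by
  rw [Algebra.smul_def, Algebra.smul_def, Algebra.smul_def, mul_sub]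

theorem q_smul (q r : ℚ) (x : D) : q • (r • x) = (q * r) • x := by
  rw [Algebra.smul_def, Algebra.smul_def, Algebra.smul_def, map_mul, mul_assoc]

theorem add_q (q r : ℚ) (x : D) : (q + r) • x = q • x + r • x := by
  rw [Algebra.smul_def, Algebra.smul_def, Algebra.smul_def, map_add, add_mul]

/-- `x` is the value of an element of `U`. -/
def InU (U : Subgroup Dˣ) (x : D) : Prop := ∃ u ∈ U, ((u : Dˣ) : D) = x

omit [Algebra ℚ D] in
theorem InU.mul {x y : D} (hx : InU U x) (hy : InU U y) : InU U (x * y) := by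
  obtain ⟨u, hu, rfl⟩ := hx
  obtain ⟨v, hv, rfl⟩ := hy
  exact ⟨u * v, U.mul_mem hu hv, by simp⟩

omit [Algebra ℚ D] in
theorem InU.inv {x : D} (hx : InU U x) : InU U x⁻¹ := by
  obtain ⟨u, hu, rfl⟩ := hx
  exact ⟨u⁻¹, U.inv_mem hu, by simp⟩

omit [Algebra ℚ D] in
theorem InU.ne_zero {x : D} (hx : InU U x) : x ≠ 0 := by
  obtain ⟨u, hu, rfl⟩ := hx
  exact u.ne_zero

theorem TOpen.inU_of_near (hU : TOpen b r₀ ρ₀ U) {x : D} (h0 : x ≠ 0) (hc : Cong b r₀ x 1)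
    (hs : sz b (x - 1) < ρ₀) : InU U x :=
  ⟨Units.mk0 x h0, hU.nbhd _ hc hs, rfl⟩

/-- Ratios of consecutive large integers `≡ 1 mod r₀` lie in `U`. -/
theorem TOpen.ratio (hO : IsOrder b) (hU : TOpen b r₀ ρ₀ U) :
    ∃ M₁ : ℕ, 0 < M₁ ∧ ∀ M : ℕ, M₁ ≤ M → M.Coprime r₀ → ∀ j : ℕ,
      InU U (((M + r₀ * j : ℕ) : D) * ((M : ℕ) : D)⁻¹) := by
  obtain ⟨M₁, hM₁⟩ := exists_nat_gt ((r₀ : ℝ) * sz b (1 : D) / ρ₀)
  have hρ := hU.ρ_pos
  refine ⟨M₁ + 1, by omega, ?_⟩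
  -- one step
  have hstep : ∀ M : ℕ, M₁ + 1 ≤ M → M.Coprime r₀ →
      InU U (((M + r₀ : ℕ) : D) * ((M : ℕ) : D)⁻¹) := by
    intro M hM hco
    have hM0 : (M : D) ≠ 0 := natCast_ne_zero D (by omega)
    have hMr0 : ((M + r₀ : ℕ) : D) ≠ 0 := natCast_ne_zero D (by omega)
    have hdiff : ((M + r₀ : ℕ) : D) * ((M : ℕ) : D)⁻¹ - 1 = ((M : ℚ)⁻¹ * r₀) • (1 : D) := by
      rw [Algebra.smul_def, mul_one, map_mul, map_inv₀, map_natCast, map_natCast]
      push_cast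
      rw [add_mul, mul_inv_cancel₀ hM0, add_sub_cancel_left]
      exact (Nat.cast_commute r₀ ((M : D)⁻¹)).eq
    refine hU.inU_of_near (mul_ne_zero hMr0 (inv_ne_zero hM0)) ?_ ?_
    · refine ⟨M, by omega, hco, 1, hO.one, ?_⟩
      rw [mul_one, hdiff, Algebra.smul_def, mul_one, map_mul, map_inv₀, map_natCast, map_natCast,
        ← mul_assoc, mul_inv_cancel₀ hM0, one_mul]
    · rw [hdiff, sz_smul]
      have hMr : (0 : ℝ) < M := by
        have : 0 < M := by omega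
        exact_mod_cast this
      have h1 : ((((M : ℚ)⁻¹ * r₀ : ℚ)) : ℝ) = (M : ℝ)⁻¹ * r₀ := by push_cast; rfl
      rw [h1, abs_of_nonneg (by positivity)]
      have h2 : (M₁ : ℝ) < M := by
        have : M₁ < M := by omega
        exact_mod_cast this
      have h3 : (r₀ : ℝ) * sz b (1 : D) / ρ₀ < M := hM₁.trans h2
      rw [div_lt_iff₀ hρ] at h3
      rw [mul_assoc, inv_mul_lt_iff₀ hMr]
      exact h3
  intro M hM hco j
  have hM0 : (M : D) ≠ 0 := natCast_ne_zero D (by omega)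
  induction j with
  | zero =>
    refine ⟨1, U.one_mem, ?_⟩
    simp [mul_inv_cancel₀ hM0]
  | succ j ih =>
    have h1 := hstep (M + r₀ * j) (by omega) (by
      have h := (Nat.coprime_add_mul_left_left M r₀ j).mpr hco
      exact h)
    have h2 := h1.mul ih
    have h3 : ((M + r₀ * j : ℕ) : D) ≠ 0 := natCast_ne_zero D (by omega)
    have h4 : ((M + r₀ * j + r₀ : ℕ) : D) * ((M + r₀ * j : ℕ) : D)⁻¹
        * (((M + r₀ * j : ℕ) : D) * ((M : ℕ) : D)⁻¹)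
        = ((M + r₀ * (j + 1) : ℕ) : D) * ((M : ℕ) : D)⁻¹ := by
      rw [mul_assoc, ← mul_assoc (((M + r₀ * j : ℕ) : D)⁻¹), inv_mul_cancel₀ h3, one_mul]
      rw [show M + r₀ * j + r₀ = M + r₀ * (j + 1) by ring]
    rw [← h4]
    exact h2

/-- Positive integers `≡ 1 mod r₀` lie in `U`. -/
theorem TOpen.nat (hO : IsOrder b) (hU : TOpen b r₀ ρ₀ U) {k : ℕ} (hk : 0 < k)
    (hk1 : k ≡ 1 [MOD r₀]) : InU U ((k : ℕ) : D) := by
  obtain ⟨M₁, hM₁, h⟩ := hU.ratio hO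
  set M := 1 + r₀ * M₁ with hM
  have hMM : M₁ ≤ M := by
    have := hU.r_pos
    nlinarith
  have hco : M.Coprime r₀ := by
    rw [hM]
    exact (Nat.coprime_add_mul_left_left 1 r₀ M₁).mpr (Nat.coprime_one_left r₀)
  -- k M = M + r₀ j
  obtain ⟨j, hj⟩ : r₀ ∣ k - 1 := (Nat.modEq_iff_dvd' hk).mp hk1.symm
  have h1 := h M hMM hco (j * M)
  have h2 : M + r₀ * (j * M) = k * M := by
    have h3 : k = 1 + r₀ * j := by omega
    rw [h3]
    ring
  rw [h2] at h1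
  have hM0 : (M : D) ≠ 0 := natCast_ne_zero D (by omega)
  have h4 : ((k * M : ℕ) : D) * ((M : ℕ) : D)⁻¹ = ((k : ℕ) : D) := by
    rw [Nat.cast_mul, mul_assoc, mul_inv_cancel₀ hM0, mul_one]
  rwa [h4] at h1

/-- Density: a positive real is approximated by ratios of positive integers `≡ 1 mod r₀`. -/
theorem exists_ratio_near (hr : 0 < r₀) {lam ε : ℝ} (hl : 0 < lam) (hε : 0 < ε) :
    ∃ k l : ℕ, 0 < k ∧ 0 < l ∧ k ≡ 1 [MOD r₀] ∧ l ≡ 1 [MOD r₀] ∧
      |(k : ℝ) / l - lam| < ε := by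
  obtain ⟨a, ha⟩ := exists_nat_gt ((r₀ + 1) / ε + (r₀ + 1) / lam)
  have hr' : (0 : ℝ) < r₀ := by exact_mod_cast hr
  have ha1 : (r₀ + 1) / ε < a := lt_of_le_of_lt (by
    have : 0 < (r₀ + 1) / lam := by positivity
    linarith) ha
  have ha2 : (r₀ + 1) / lam < a := lt_of_le_of_lt (by
    have : 0 < (r₀ + 1) / ε := by positivity
    linarith) ha
  set l := 1 + r₀ * a with hl'
  have hla : (a : ℝ) ≤ l := by
    have : a ≤ l := by nlinarith
    exact_mod_cast this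
  have hlpos : 0 < l := by omega
  have hlr : (0 : ℝ) < l := by exact_mod_cast hlpos
  -- the integer close to lam * l
  set t := ⌊(lam * l - 1) / r₀⌋₊ with ht
  have h1 : r₀ + 1 < lam * a := by
    rw [div_lt_iff₀ hl] at ha2
    linarith
  have h2 : r₀ + 1 < lam * l := h1.trans_le (by nlinarith)
  have h3 : 0 ≤ (lam * l - 1) / r₀ := by
    apply div_nonneg _ hr'.le
    linarith
  have h4 : (t : ℝ) ≤ (lam * l - 1) / r₀ := Nat.floor_le h3
  have h5 : (lam * l - 1) / r₀ < t + 1 := Nat.lt_floor_add_one _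
  rw [le_div_iff₀ hr'] at h4
  rw [div_lt_iff₀ hr'] at h5
  refine ⟨1 + r₀ * t, l, by omega, hlpos, ?_, ?_, ?_⟩
  · have : 1 + r₀ * t ≡ 1 + 0 [MOD r₀] :=
      Nat.ModEq.add_left 1 ((Nat.modEq_zero_iff_dvd).mpr (dvd_mul_right r₀ t))
    simp [Nat.ModEq]
  · have : 1 + r₀ * a ≡ 1 + 0 [MOD r₀] :=
      Nat.ModEq.add_left 1 ((Nat.modEq_zero_iff_dvd).mpr (dvd_mul_right r₀ a))
    simpa [hl'] using this
  · have h6 : ((1 + r₀ * t : ℕ) : ℝ) / l - lam = ((1 + r₀ * t : ℕ) - lam * l) / l := by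
      field_simp
    rw [h6, abs_div, abs_of_pos hlr, div_lt_iff₀ hlr]
    have h7 : r₀ < ε * a := by
      rw [div_lt_iff₀ hε] at ha1
      linarith
    have h8 : (r₀ : ℝ) < ε * l := h7.trans_le (by nlinarith)
    refine lt_of_le_of_lt ?_ h8
    rw [abs_le]
    push_cast
    constructor <;> nlinarith

/-- If `x ≡ 1 mod r₀`, `(k/l)` is a ratio of integers `≡ 1 mod r₀` and `x` is close to `k/l`, then
`x ∈ U`. -/
theorem TOpen.of_ratio (hO : IsOrder b) (hU : TOpen b r₀ ρ₀ U) {x : D} (h0 : x ≠ 0)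
    (hc : Cong b r₀ x 1) {k l : ℕ} (hk : 0 < k) (hl : 0 < l) (hk1 : k ≡ 1 [MOD r₀])
    (hl1 : l ≡ 1 [MOD r₀]) (hs : sz b (((l : ℚ) / k) • x - 1) < ρ₀) : InU U x := by
  have hk0 : (k : D) ≠ 0 := natCast_ne_zero D (by omega)
  have hl0 : (l : D) ≠ 0 := natCast_ne_zero D (by omega)
  have hkco : k.Coprime r₀ := by
    have := hk1.gcd_eq
    rw [Nat.Coprime, this, Nat.gcd_one_left]
  set x' := ((l : ℚ) / k) • x with hx'
  have hx'2 : x' = (l : D) * (k : D)⁻¹ * x := by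
    rw [hx', Algebra.smul_def, map_div₀, map_natCast, map_natCast, div_eq_mul_inv]
  have hkx' : (k : D) * x' = (l : D) * x := by
    rw [hx'2, ← mul_assoc, ← mul_assoc, (Nat.cast_commute k (l : D)).eq, mul_assoc (l : D),
      mul_inv_cancel₀ hk0, mul_one]
  have hx'0 : x' ≠ 0 := by
    rw [hx'2]
    exact mul_ne_zero (mul_ne_zero hl0 (inv_ne_zero hk0)) h0
  have h1 : InU U x' := by
    refine hU.inU_of_near hx'0 ?_ hs
    obtain ⟨m, hm0, hmco, z, hz, hmz⟩ := hc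
    -- k m (x' - 1) = l (m (x - 1)) + m (l - k)
    obtain ⟨e, he⟩ : (r₀ : ℤ) ∣ (l : ℤ) - k :=
      Int.ModEq.dvd ((Int.natCast_modEq_iff.mpr (hk1.trans hl1.symm)))
    refine ⟨k * m, Nat.mul_ne_zero hk.ne' hm0, Nat.Coprime.mul_left hkco hmco,
      (l : D) * z + ((m * e : ℤ) : D) * 1, ?_, ?_⟩
    · refine (lat b).add_mem ?_ ?_
      · rw [← nsmul_eq_mul]
        exact (lat b).nsmul_mem hz l
      · rw [← zsmul_eq_mul]
        exact (lat b).zsmul_mem hO.one _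
    · have h2 : (l : D) - k = (r₀ : D) * e := by
        have : (((l : ℤ) - k : ℤ) : D) = (((r₀ : ℤ) * e : ℤ) : D) := by rw [he]
        push_cast at this
        exact this
      have h3 : ((k * m : ℕ) : D) * (x' - 1) = (l : D) * ((m : D) * (x - 1))
          + (m : D) * ((l : D) - k) := by
        rw [Nat.cast_mul, mul_sub, mul_one, (Nat.cast_commute k (m : D)).eq, mul_assoc, hkx',
          mul_sub, mul_sub, mul_one, mul_sub, ← mul_assoc, ← mul_assoc,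
          (Nat.cast_commute m (l : D)).eq]
        abel
      rw [h3, hmz, h2]
      push_cast
      rw [mul_one, mul_add, ← mul_assoc, ← mul_assoc, ← mul_assoc, ← mul_assoc,
        (Nat.cast_commute r₀ (l : D)).eq, (Nat.cast_commute r₀ (m : D)).eq]
  have h2 : InU U ((l : D)⁻¹ * k) := (hU.nat hO hl hl1).inv.mul (hU.nat hO hk hk1)
  have h3 : x = ((l : D)⁻¹ * k) * x' := by
    rw [mul_assoc, hkx', ← mul_assoc, inv_mul_cancel₀ hl0, one_mul]
  rw [h3]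
  exact h2.mul h1

/-- **K6 (a).** -/
theorem k6a (hO : IsOrder b) (hU : TOpen b r₀ ρ₀ U) {R : Type*} [Group R] [Finite R]
    (c : U →* R) : K6a b c := by
  intro u
  obtain ⟨m, hm0, hmco, z, hz, hmz⟩ := hU.cong u u.2
  -- a positive multiple of m which is ≡ 1 mod r₀ and of trivial colour
  set e := Nat.totient r₀ * Nat.card R with he
  have hR : 0 < Nat.card R := Nat.card_pos
  have he0 : 0 < e := Nat.mul_pos (Nat.totient_pos.mpr hU.r_pos) hR
  have hme : m ^ Nat.totient r₀ ≡ 1 [MOD r₀] := Nat.ModEq.pow_totient hmco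
  obtain ⟨t, ht, htv⟩ := hU.nat hO (pow_pos (Nat.pos_of_ne_zero hm0) _) hme
  set t' : U := ⟨t, ht⟩ ^ Nat.card R with ht'
  have ht'v : (((t' : U) : Dˣ) : D) = ((m ^ e : ℕ) : D) := by
    rw [ht']
    push_cast
    rw [htv]
    push_cast
    rw [← pow_mul]
  have hct' : c t' = 1 := by
    rw [ht', map_pow, pow_card_eq_one']
  refine ⟨((m ^ e : ℕ) : D) * ((u : Dˣ) : D), ?_, t' * u, ?_, ?_⟩
  · obtain ⟨e', he'⟩ : ∃ e', e = e' + 1 := ⟨e - 1, by omega⟩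
    rw [he', pow_succ, Nat.cast_mul, mul_assoc, ← nsmul_eq_mul]
    refine (lat b).nsmul_mem ?_ _
    have h1 : (m : D) * ((u : Dˣ) : D) = (r₀ : D) * z + (m : D) * 1 := by
      rw [← hmz]
      noncomm_ring
    rw [h1]
    refine (lat b).add_mem ?_ ?_
    · rw [← nsmul_eq_mul]
      exact (lat b).nsmul_mem hz _
    · rw [← nsmul_eq_mul]
      exact (lat b).nsmul_mem hO.one _
  · rw [Subgroup.coe_mul, Units.val_mul, ht'v]
  · rw [map_mul, hct', one_mul]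

/-- **K6 (c).** -/
theorem k6c (hO : IsOrder b) (hU : TOpen b r₀ ρ₀ U) (h2 : ρ₀ ≤ 2) : K6c b r₀ ρ₀ U := by
  have hρ := hU.ρ_pos
  obtain ⟨X₀, hX₀⟩ := exists_nat_gt ((r₀ : ℝ) * sz b (1 : D) / (ρ₀ / 2))
  refine ⟨X₀ + 1, ?_⟩
  intro X hX x hx hc hs
  have hXpos : 0 < X := by omega
  have hXr : (0 : ℝ) < X := by exact_mod_cast hXpos
  have hX2 : (r₀ : ℝ) * sz b (1 : D) / (ρ₀ / 2) < X := by
    refine hX₀.trans ?_
    have : X₀ < X := by omega
    exact_mod_cast this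
  rw [div_lt_iff₀ (by positivity)] at hX2
  have hone := one_le_sz hO.one (one_ne_zero (α := D))
  have hx0 : x ≠ 0 := by
    rintro rfl
    have h0 : ((X : ℚ)⁻¹ • (0 : D)) = 0 := q_zero _
    rw [h0, zero_sub, sz_neg] at hs
    linarith
  -- the integer k ≡ 1 mod r₀ with X ≤ k < X + r₀
  obtain ⟨k, hk1, hkX, hkX'⟩ : ∃ k : ℕ, k ≡ 1 [MOD r₀] ∧ X ≤ k ∧ k < X + r₀ := by
    have hr := hU.r_pos
    refine ⟨X + (1 + (r₀ - 1) * X) % r₀, ?_, by omega, ?_⟩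
    · have h1 : X + (1 + (r₀ - 1) * X) % r₀ ≡ X + (1 + (r₀ - 1) * X) [MOD r₀] :=
        Nat.ModEq.add_left X (Nat.mod_modEq _ _)
      refine h1.trans ?_
      have h3 : X + (1 + (r₀ - 1) * X) = 1 + r₀ * X := by
        obtain ⟨s, rfl⟩ : ∃ s, r₀ = s + 1 := ⟨r₀ - 1, by omega⟩
        simp
        ring
      rw [h3]
      have : 1 + r₀ * X ≡ 1 + 0 [MOD r₀] :=
        Nat.ModEq.add_left 1 ((Nat.modEq_zero_iff_dvd).mpr (dvd_mul_right r₀ X))
      simpa using this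
    · have := Nat.mod_lt (1 + (r₀ - 1) * X) hr
      omega
  have hkpos : 0 < k := by omega
  have hkr : (0 : ℝ) < k := by exact_mod_cast hkpos
  refine hU.of_ratio hO hx0 hc hkpos one_pos hk1 rfl ?_
  have h3 : (((1 : ℕ) : ℚ) / k) • x - 1 = ((X : ℚ) / k) • ((X : ℚ)⁻¹ • x - 1) - ((k - X : ℚ) / k) • (1 : D) := by
    have hkq : (k : ℚ) ≠ 0 := by exact_mod_cast hkpos.ne'
    have hXq : (X : ℚ) ≠ 0 := by exact_mod_cast hXpos.ne'
    rw [q_sub, q_smul]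
    have h4 : (X : ℚ) / k * (X : ℚ)⁻¹ = ((1 : ℕ) : ℚ) / k := by
      field_simp
      simp
    rw [h4, sub_sub, ← add_q]
    have h5 : (X : ℚ) / k + (k - X) / k = 1 := by field_simp; ring
    rw [h5, q_one]
  rw [h3]
  refine (sz_sub_le b _ _).trans_lt ?_
  rw [sz_smul, sz_smul]
  have hXk : (X : ℝ) ≤ k := by exact_mod_cast hkX
  have h6 : |((((X : ℚ) / k : ℚ)) : ℝ)| ≤ 1 := by
    push_cast
    rw [abs_of_nonneg (by positivity), div_le_one hkr]
    exact hXk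
  have h7 : |(((((k : ℚ) - X) / k : ℚ)) : ℝ)| ≤ r₀ / X := by
    push_cast
    rw [abs_of_nonneg (div_nonneg (by linarith) hkr.le)]
    have h8 : (k : ℝ) - X ≤ r₀ := by
      have h : (k : ℝ) < ((X + r₀ : ℕ) : ℝ) := by exact_mod_cast hkX'
      push_cast at h
      linarith
    have h9 : (0 : ℝ) ≤ r₀ := Nat.cast_nonneg _
    calc ((k : ℝ) - X) / k ≤ r₀ / k := div_le_div_of_nonneg_right h8 hkr.le
      _ ≤ r₀ / X := div_le_div_of_nonneg_left h9 hXr hXk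
  have h10 : (r₀ : ℝ) / X * sz b (1 : D) < ρ₀ / 2 := by
    rw [div_mul_eq_mul_div, div_lt_iff₀ hXr]
    linarith
  have h11 := sz_nonneg b ((X : ℚ)⁻¹ • x - 1)
  have h12 := sz_nonneg b (1 : D)
  nlinarith [mul_le_mul_of_nonneg_right h6 h11, mul_le_mul_of_nonneg_right h7 h12]

end Vale.Agent.P011.MPQ
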