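import Vale.Agent.P011.MPQ.K6

/-!
# P011, quaternion Margulis-Platonov, K6 (b): every colour has positive lower density
-/

namespace Vale.Agent.P011.MPQ

open Module

variable {D : Type*} [DivisionRing D] [Algebra ℚ D] {N : ℕ}
  {b : Basis (Fin N) ℚ D} {r₀ : ℕ} {ρ₀ : ℝ} {U : Subgroup Dˣ}

/-- The integral coordinates of a lattice vector. -/
noncomputable def co (b : Basis (Fin N) ℚ D) (x : D) : Fin N → ℤ := fun i => (b.repr x i).num

theorem vec_co {x : D} (hx : x ∈ lat b) : vec b (co b x) = x := by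
  apply b.repr.injective
  ext i
  rw [repr_vec]
  obtain ⟨n, hn⟩ := hx i
  unfold co
  rw [hn]
  simp

theorem finite_box (N Y : ℕ) : {n : Fin N → ℤ | ∀ i, |n i| ≤ (Y : ℤ)}.Finite := by
  refine (Set.finite_Icc (fun _ : Fin N => -(Y : ℤ)) (fun _ => (Y : ℤ))).subset ?_
  intro n hn
  refine ⟨fun i => (abs_le.mp (hn i)).1, fun i => (abs_le.mp (hn i)).2⟩

theorem natCast_mul_eq_smul (n : ℕ) (x : D) : (n : D) * x = (n : ℚ) • x := by
  rw [Algebra.smul_def, map_natCast]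

theorem sz_natCast_mul (b : Basis (Fin N) ℚ D) (n : ℕ) (x : D) :
    sz b ((n : D) * x) = n * sz b x := by
  rw [natCast_mul_eq_smul, sz_smul]
  simp

/-- Many lattice vectors of size `≤ C' X` in `U`, parametrised by a box of side `≥ κ X`. -/
theorem k6_region (hO : IsOrder b) (hU : TOpen b r₀ ρ₀ U) :
    ∃ (κ C' : ℝ) (X₁ : ℕ), 0 < κ ∧ 0 < C' ∧ 0 < X₁ ∧ ∀ X : ℕ, X₁ ≤ X →
      ∃ s : ℕ, κ * X ≤ s ∧ ∃ w : (Fin N → Fin s) → U,
        Function.Injective (fun v => ((w v : Dˣ) : D)) ∧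
        ∀ v, ((w v : Dˣ) : D) ∈ lat b ∧ sz b ((w v : Dˣ) : D) ≤ C' * X := by
  classical
  set ρ₁ := min ρ₀ 2 with hρ₁
  have hρ₁0 : 0 < ρ₁ := lt_min hU.ρ_pos (by norm_num)
  have hU₁ : TOpen b r₀ ρ₁ U := hU.mono hρ₁0 (min_le_left _ _)
  obtain ⟨X₀, hX₀⟩ := k6c hO hU₁ (min_le_right _ _)
  have hr : 0 < r₀ := hU.r_pos
  have hrr : (0 : ℝ) < r₀ := by exact_mod_cast hr
  have hr1 : (1 : ℝ) ≤ r₀ := by exact_mod_cast hr
  have hone := one_le_sz hO.one (one_ne_zero (α := D))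
  set σ := sz b (1 : D) with hσ
  obtain ⟨X₁, hX₁⟩ := exists_nat_gt (4 * (r₀ + 1) * σ / ρ₁ + 8 * r₀ / ρ₁ + X₀ + r₀ + 1)
  set κ : ℝ := ρ₁ / (8 * r₀) with hκ
  have hκ0 : 0 < κ := by positivity
  have hpos1 : 0 ≤ 4 * (r₀ + 1) * σ / ρ₁ := by positivity
  have hpos2 : 0 ≤ 8 * r₀ / ρ₁ := by positivity
  have hpos3 : (0 : ℝ) ≤ X₀ := Nat.cast_nonneg _
  refine ⟨κ, 2 * σ + 1, X₁, hκ0, by linarith, ?_, ?_⟩
  · have : (0 : ℝ) < X₁ := by linarith
    exact_mod_cast this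
  intro X hX1
  have hX1r : (X₁ : ℝ) ≤ X := by exact_mod_cast hX1
  have hXbig : 4 * (r₀ + 1) * σ / ρ₁ + 8 * r₀ / ρ₁ + X₀ + r₀ + 1 < X := hX₁.trans_le hX1r
  have hXr : (0 : ℝ) < X := by linarith
  have hXX0 : X₀ ≤ X := by
    have : (X₀ : ℝ) < X := by linarith
    exact_mod_cast this.le
  have hXpos : 0 < X := by exact_mod_cast hXr
  -- the parameters t, s
  set t := X / r₀ with ht
  have htle : t * r₀ ≤ X := Nat.div_mul_le_self X r₀
  have htge : X < t * r₀ + r₀ := Nat.lt_div_mul_add hr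
  set s := ⌊ρ₁ * X / (4 * r₀)⌋₊ with hs
  have hs1 : (s : ℝ) ≤ ρ₁ * X / (4 * r₀) := Nat.floor_le (by positivity)
  have hs2 : κ * X ≤ s := by
    have h1 : ρ₁ * X / (4 * r₀) < s + 1 := Nat.lt_floor_add_one _
    have h2 : ρ₁ * X / (4 * r₀) = 2 * (κ * X) := by
      rw [hκ]
      field_simp
      norm_num
    have h3 : 1 ≤ κ * X := by
      have h4 : 8 * r₀ / ρ₁ ≤ X := by linarith
      rw [div_le_iff₀ hρ₁0] at h4
      rw [hκ, div_mul_eq_mul_div, le_div_iff₀ (by positivity)]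
      linarith
    linarith
  refine ⟨s, hs2, ?_⟩
  -- the elements
  obtain ⟨x, hx⟩ : ∃ x : (Fin N → Fin s) → D, ∀ v, x v =
    ((1 + r₀ * t : ℕ) : D) + (r₀ : D) * vec b (fun i => ((v i : ℕ) : ℤ)) := ⟨_, fun _ => rfl⟩
  have hxl : ∀ v, x v ∈ lat b := by
    intro v
    rw [hx]
    refine (lat b).add_mem ?_ ?_
    · rw [← nsmul_one]
      exact (lat b).nsmul_mem hO.one _
    · rw [← nsmul_eq_mul]
      exact (lat b).nsmul_mem (vec_mem b _) _
  have hxc : ∀ v, Cong b r₀ (x v) 1 := by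
    intro v
    refine ⟨1, one_ne_zero, Nat.coprime_one_left r₀, (t : D) + vec b (fun i => ((v i : ℕ) : ℤ)),
      ?_, ?_⟩
    · refine (lat b).add_mem ?_ (vec_mem b _)
      rw [← nsmul_one]
      exact (lat b).nsmul_mem hO.one _
    · rw [hx]
      push_cast
      noncomm_ring
  have hszv : ∀ v : Fin N → Fin s, sz b (vec b (fun i => ((v i : ℕ) : ℤ))) ≤ s := by
    intro v
    rw [sz_vec_le b _ (Nat.cast_nonneg s)]
    intro i
    have := (v i).2
    have h : ((v i : ℕ) : ℝ) ≤ s := by exact_mod_cast this.le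
    simp
  have hxs : ∀ v, sz b ((X : ℚ)⁻¹ • x v - 1) < ρ₁ / 2 := by
    intro v
    have h1 : (X : ℚ)⁻¹ • x v - 1 = ((X : ℚ)⁻¹ * r₀) • vec b (fun i => ((v i : ℕ) : ℤ))
        - ((X : ℚ)⁻¹ * ((X : ℚ) - (1 + r₀ * t))) • (1 : D) := by
      have hXD : (X : D) ≠ 0 := natCast_ne_zero D hXpos.ne'
      rw [hx]
      simp only [Algebra.smul_def, map_mul, map_inv₀, map_natCast, map_sub, map_add, map_one,
        mul_one]
      push_cast
      have h2 : (X : D)⁻¹ * X = 1 := inv_mul_cancel₀ hXD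
      rw [mul_sub, h2, mul_add, ← mul_assoc]
      abel
    rw [h1]
    refine (sz_sub_le b _ _).trans_lt ?_
    rw [sz_smul, sz_smul, ← hσ]
    have h3 : |(((X : ℚ)⁻¹ * r₀ : ℚ) : ℝ)| = r₀ / X := by
      push_cast
      rw [abs_of_nonneg (by positivity)]
      field_simp
    have h4 : |(((X : ℚ)⁻¹ * ((X : ℚ) - (1 + r₀ * t)) : ℚ) : ℝ)| ≤ (r₀ + 1) / X := by
      push_cast
      rw [abs_mul, abs_of_nonneg (by positivity), inv_mul_eq_div]
      apply div_le_div_of_nonneg_right _ hXr.le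
      have h5 : (t : ℝ) * r₀ ≤ X := by exact_mod_cast htle
      have h6 : (X : ℝ) < t * r₀ + r₀ := by exact_mod_cast htge
      rw [abs_le]
      constructor <;> nlinarith
    rw [h3]
    have h7 : (r₀ : ℝ) / X * sz b (vec b (fun i => ((v i : ℕ) : ℤ))) ≤ ρ₁ / 4 := by
      calc (r₀ : ℝ) / X * sz b (vec b (fun i => ((v i : ℕ) : ℤ)))
          ≤ (r₀ : ℝ) / X * (ρ₁ * X / (4 * r₀)) :=
            mul_le_mul_of_nonneg_left ((hszv v).trans hs1) (by positivity)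
        _ = ρ₁ / 4 := by field_simp
    have h8 : |(((X : ℚ)⁻¹ * ((X : ℚ) - (1 + r₀ * t)) : ℚ) : ℝ)| * σ < ρ₁ / 4 := by
      calc |(((X : ℚ)⁻¹ * ((X : ℚ) - (1 + r₀ * t)) : ℚ) : ℝ)| * σ ≤ (r₀ + 1) / X * σ :=
            mul_le_mul_of_nonneg_right h4 (by linarith)
        _ < ρ₁ / 4 := by
            rw [div_mul_eq_mul_div, div_lt_iff₀ hXr]
            have h9 : 4 * (r₀ + 1) * σ / ρ₁ < X := by linarith
            rw [div_lt_iff₀ hρ₁0] at h9
            linarith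
    linarith
  have hxU : ∀ v, ∃ w : U, ((w : Dˣ) : D) = x v := by
    intro v
    obtain ⟨w, hw, hwv⟩ := hX₀ X hXX0 (x v) (hxl v) (hxc v) (hxs v)
    exact ⟨⟨w, hw⟩, hwv⟩
  choose w hw using hxU
  refine ⟨w, ?_, ?_⟩
  · intro v v' h
    simp only [hw, hx] at h
    have h3 := mul_left_cancel₀ (natCast_ne_zero D hr.ne') (add_left_cancel h)
    have h4 := vec_injective b h3
    funext i
    apply Fin.ext
    have h5 : ((v i : ℕ) : ℤ) = ((v' i : ℕ) : ℤ) := congrFun h4 i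
    exact_mod_cast h5
  · intro v
    rw [hw v]
    refine ⟨hxl v, ?_⟩
    rw [hx]
    refine (sz_add_le b _ _).trans ?_
    rw [sz_natCast_mul]
    have h1 : sz b ((1 + r₀ * t : ℕ) : D) = ((1 + r₀ * t : ℕ) : ℝ) * σ := by
      rw [hσ, ← sz_natCast_mul, mul_one]
    rw [h1]
    have h2 : ((1 + r₀ * t : ℕ) : ℝ) ≤ 2 * X := by
      have h3 : 1 + r₀ * t ≤ 2 * X := by
        rw [mul_comm r₀ t]
        omega
      exact_mod_cast h3
    have h4 : (r₀ : ℝ) * sz b (vec b (fun i => ((v i : ℕ) : ℤ))) ≤ X := by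
      calc (r₀ : ℝ) * sz b (vec b (fun i => ((v i : ℕ) : ℤ)))
          ≤ (r₀ : ℝ) * (ρ₁ * X / (4 * r₀)) :=
            mul_le_mul_of_nonneg_left ((hszv v).trans hs1) hrr.le
        _ = ρ₁ / 4 * X := by field_simp
        _ ≤ X := by
            have : ρ₁ ≤ 2 := min_le_right _ _
            nlinarith
    have h5 : ((1 + r₀ * t : ℕ) : ℝ) * σ ≤ 2 * X * σ :=
      mul_le_mul_of_nonneg_right h2 (by linarith)
    linarith

/-- Lattice vectors of every colour, of bounded size. -/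
theorem k6_colours (hO : IsOrder b) (hU : TOpen b r₀ ρ₀ U) {R : Type*} [Group R] [Finite R]
    (c : U →* R) : ∃ Γ : ℝ, 1 ≤ Γ ∧ ∀ u : U, ∃ g : U, ((g : Dˣ) : D) ∈ lat b ∧ c g = c u ∧
      sz b ((g : Dˣ) : D) ≤ Γ := by
  classical
  have hRfin : Fintype R := Fintype.ofFinite R
  have hG : ∀ s : R, ∃ g : U, (∃ u : U, c u = s) → ((g : Dˣ) : D) ∈ lat b ∧ c g = s := by
    intro s
    by_cases h : ∃ u : U, c u = s
    · obtain ⟨u, rfl⟩ := h
      obtain ⟨x, hx, g, rfl, hgc⟩ := k6a hO hU c u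
      exact ⟨g, fun _ => ⟨hx, hgc⟩⟩
    · exact ⟨1, fun h' => absurd h' h⟩
  choose G hG using hG
  refine ⟨1 + ∑ s, sz b ((G s : Dˣ) : D), ?_, ?_⟩
  · have : 0 ≤ ∑ s, sz b ((G s : Dˣ) : D) := Finset.sum_nonneg fun s _ => sz_nonneg b _
    linarith
  · intro u
    refine ⟨G (c u), (hG (c u) ⟨u, rfl⟩).1, (hG (c u) ⟨u, rfl⟩).2, ?_⟩
    have := Finset.single_le_sum (f := fun s => sz b ((G s : Dˣ) : D))
      (fun s _ => sz_nonneg b _) (Finset.mem_univ (c u))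
    have h2 : sz b ((G (c u) : Dˣ) : D) ≤ ∑ s, sz b ((G s : Dˣ) : D) := this
    linarith

/-- **K6 (b).** -/
theorem k6b (hO : IsOrder b) (hU : TOpen b r₀ ρ₀ U) {R : Type*} [Group R] [Finite R]
    (c : U →* R) : K6b b c := by
  classical
  obtain ⟨κ, C', X₁, hκ0, hC', hX₁, hreg⟩ := k6_region hO hU
  obtain ⟨C₁, hC₁, hmul⟩ := exists_mul_bound b
  obtain ⟨Γ, hΓ0, hΓ⟩ := k6_colours hO hU c
  have hRfin : Fintype R := Fintype.ofFinite R
  have hC₁0 : 0 < C₁ := by linarith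
  have hΓp : 0 < Γ := by linarith
  -- the scale
  obtain ⟨A, hA⟩ := exists_nat_gt (C₁ * C' * Γ)
  have hAr : (0 : ℝ) < A := lt_trans (by positivity) hA
  have hA0 : 0 < A := by exact_mod_cast hAr
  have hRpos : (0 : ℝ) < Fintype.card R := by
    have : 0 < Fintype.card R := Fintype.card_pos
    exact_mod_cast this
  refine ⟨(κ / (2 * A)) ^ N / Fintype.card R, A * X₁, by positivity, ?_⟩
  intro u Y hY
  -- X = Y / A
  set X := Y / A with hX
  have hXle : X * A ≤ Y := Nat.div_mul_le_self Y A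
  have hXge : Y < X * A + A := Nat.lt_div_mul_add hA0
  have hX1 : X₁ ≤ X := by
    rw [hX, Nat.le_div_iff_mul_le hA0, mul_comm]
    exact hY
  have hXpos : 0 < X := by omega
  have hXr : (0 : ℝ) < X := by exact_mod_cast hXpos
  have hYX : (Y : ℝ) ≤ 2 * A * X := by
    have h1 : (Y : ℝ) < X * A + A := by exact_mod_cast hXge
    have h2 : (1 : ℝ) ≤ X := by exact_mod_cast hXpos
    nlinarith
  obtain ⟨s, hs2, w, hwinj, hw⟩ := hreg X hX1
  have hspos : 0 < s := by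
    have : (0 : ℝ) < s := lt_of_lt_of_le (by positivity) hs2
    exact_mod_cast this
  have hsr : (0 : ℝ) < s := by exact_mod_cast hspos
  -- the most popular colour
  obtain ⟨s₀, -, hs₀⟩ := Finset.exists_le_card_fiber_of_nsmul_le_card_of_maps_to
    (s := (Finset.univ : Finset (Fin N → Fin s))) (t := (Finset.univ : Finset R))
    (f := fun v => c (w v)) (b := ((s : ℝ) ^ N / Fintype.card R))
    (fun _ _ => Finset.mem_univ _) Finset.univ_nonempty (by
      rw [Finset.card_univ, Finset.card_univ, nsmul_eq_mul, mul_div_cancel₀ _ hRpos.ne']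
      simp)
  obtain ⟨F, hF⟩ : ∃ F : Finset (Fin N → Fin s),
    F = Finset.univ.filter (fun v : Fin N → Fin s => c (w v) = s₀) := ⟨_, rfl⟩
  rw [← hF] at hs₀
  have hFc : ∀ v ∈ F, c (w v) = s₀ := by
    intro v hv
    rw [hF, Finset.mem_filter] at hv
    exact hv.2
  have hFpos : 0 < (F.card : ℝ) := lt_of_lt_of_le (by positivity) hs₀
  obtain ⟨v₀, hv₀⟩ : F.Nonempty := by
    rw [← Finset.card_pos]
    exact_mod_cast hFpos
  obtain ⟨g, hgl, hgc, hgs⟩ := hΓ ((w v₀)⁻¹ * u)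
  rw [map_mul, map_inv, hFc v₀ hv₀] at hgc
  set γ := ((g : Dˣ) : D) with hγ
  have hγ0 : γ ≠ 0 := (g : Dˣ).ne_zero
  have hYr : (0 : ℝ) ≤ Y := Nat.cast_nonneg _
  have hsz : ∀ v, sz b (((w v : Dˣ) : D) * γ) ≤ Y := by
    intro v
    refine (hmul _ _).trans ?_
    have h2 : C₁ * sz b ((w v : Dˣ) : D) * sz b γ ≤ C₁ * (C' * X) * Γ :=
      mul_le_mul (mul_le_mul_of_nonneg_left (hw v).2 hC₁0.le) hgs (sz_nonneg b _)
        (by positivity)
    have h3 : C₁ * (C' * X) * Γ = (C₁ * C' * Γ) * X := by ring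
    have h4 : (C₁ * C' * Γ) * X ≤ A * X := mul_le_mul_of_nonneg_right hA.le hXr.le
    have h5 : (A : ℝ) * X ≤ Y := by
      have : A * X ≤ Y := by rw [mul_comm]; exact hXle
      exact_mod_cast this
    linarith
  have hl : ∀ v, ((w v : Dˣ) : D) * γ ∈ lat b := fun v => hO.mul _ (hw v).1 _ hgl
  -- the injection
  have hcard : F.card ≤ Set.ncard {n : Fin N → ℤ | (∀ i, |n i| ≤ (Y : ℤ)) ∧
      Col c (vec b n) (c u)} := by
    have hfin : {n : Fin N → ℤ | (∀ i, |n i| ≤ (Y : ℤ)) ∧ Col c (vec b n) (c u)}.Finite :=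
      (finite_box N Y).subset fun n hn => hn.1
    rw [← Set.ncard_coe_finset F]
    refine Set.ncard_le_ncard_of_injOn (fun v => co b (((w v : Dˣ) : D) * γ)) ?_ ?_ hfin
    · intro v hv
      have hvc : c (w v) = s₀ := hFc v hv
      constructor
      · have h1 : sz b (vec b (co b (((w v : Dˣ) : D) * γ))) ≤ Y := by
          rw [vec_co (hl v)]
          exact hsz v
        have h2 := (sz_vec_le b _ hYr).mp h1
        intro i
        have h3 : ((|co b (((w v : Dˣ) : D) * γ) i| : ℤ) : ℝ) ≤ ((Y : ℤ) : ℝ) := by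
          push_cast
          exact h2 i
        exact_mod_cast h3
      · rw [vec_co (hl v)]
        refine ⟨w v * g, ?_, ?_⟩
        · rw [Subgroup.coe_mul, Units.val_mul]
        · rw [map_mul, hvc, hgc, mul_inv_cancel_left]
    · intro v _ v' _ h
      have h1 : ((w v : Dˣ) : D) * γ = ((w v' : Dˣ) : D) * γ := by
        rw [← vec_co (hl v), ← vec_co (hl v')]
        exact congrArg (vec b) h
      exact hwinj (mul_right_cancel₀ hγ0 h1)
  have hcard' : (F.card : ℝ) ≤ Set.ncard {n : Fin N → ℤ | (∀ i, |n i| ≤ (Y : ℤ)) ∧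
      Col c (vec b n) (c u)} := by exact_mod_cast hcard
  refine le_trans ?_ hcard'
  refine le_trans ?_ hs₀
  rw [div_mul_eq_mul_div]
  apply div_le_div_of_nonneg_right _ hRpos.le
  rw [← mul_pow]
  apply pow_le_pow_left₀
  · positivity
  refine le_trans ?_ hs2
  rw [div_mul_eq_mul_div, div_le_iff₀ (by positivity)]
  calc κ * Y ≤ κ * (2 * A * X) := mul_le_mul_of_nonneg_left hYX hκ0.le
    _ = κ * X * (2 * A) := by ring

end Vale.Agent.P011.MPQ
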