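import Mathlib

/-!
# P011, quaternion Margulis-Platonov, block K: definitions and interface statements

`D` is a division algebra over `ℚ` with basis `b : Basis (Fin N) ℚ D`; `lat b` is the lattice of
vectors with integral coordinates.
-/

namespace Vale.Agent.P011.MPQ

open Module

variable {D : Type*} [DivisionRing D] [Algebra ℚ D] {N : ℕ}

/-- The lattice of vectors with integral coordinates. -/
def lat (b : Basis (Fin N) ℚ D) : AddSubgroup D where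
  carrier := {x | ∀ i, ∃ n : ℤ, b.repr x i = n}
  zero_mem' := fun i => ⟨0, by simp⟩
  add_mem' := by
    intro x y hx hy i
    obtain ⟨n, hn⟩ := hx i
    obtain ⟨m, hm⟩ := hy i
    exact ⟨n + m, by simp [hn, hm]⟩
  neg_mem' := by
    intro x hx i
    obtain ⟨n, hn⟩ := hx i
    exact ⟨-n, by simp [hn]⟩

theorem mem_lat {b : Basis (Fin N) ℚ D} {x : D} :
    x ∈ lat b ↔ ∀ i, ∃ n : ℤ, b.repr x i = n := Iff.rfl

/-- The lattice vector with given integral coordinates. -/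
noncomputable def vec (b : Basis (Fin N) ℚ D) : (Fin N → ℤ) →+ D where
  toFun n := ∑ i, ((n i : ℚ) • b i)
  map_zero' := by simp
  map_add' := by
    intro x y
    simp [add_smul, Finset.sum_add_distrib]

theorem vec_apply (b : Basis (Fin N) ℚ D) (n : Fin N → ℤ) :
    vec b n = ∑ i, ((n i : ℚ) • b i) := rfl

@[simp] theorem repr_vec (b : Basis (Fin N) ℚ D) (n : Fin N → ℤ) (i : Fin N) :
    b.repr (vec b n) i = n i := by
  rw [vec_apply, b.repr_sum_self]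

theorem vec_injective (b : Basis (Fin N) ℚ D) : Function.Injective (vec b) := by
  intro x y h
  funext i
  have := congrArg (fun z => b.repr z i) h
  simpa using this

theorem vec_mem (b : Basis (Fin N) ℚ D) (n : Fin N → ℤ) : vec b n ∈ lat b :=
  fun i => ⟨n i, repr_vec b n i⟩

theorem mem_lat_iff_vec {b : Basis (Fin N) ℚ D} {x : D} : x ∈ lat b ↔ ∃ n, vec b n = x := by
  constructor
  · intro h
    choose n hn using h
    refine ⟨n, b.repr.injective ?_⟩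
    ext i
    rw [repr_vec, hn]
  · rintro ⟨n, rfl⟩
    exact vec_mem b n

/-- The size of a vector: the largest absolute value of a coordinate. -/
noncomputable def sz (b : Basis (Fin N) ℚ D) (x : D) : ℝ := ‖fun i => ((b.repr x i : ℚ) : ℝ)‖

theorem sz_nonneg (b : Basis (Fin N) ℚ D) (x : D) : 0 ≤ sz b x := norm_nonneg _

theorem sz_add_le (b : Basis (Fin N) ℚ D) (x y : D) : sz b (x + y) ≤ sz b x + sz b y := by
  unfold sz
  refine le_trans (le_of_eq ?_) (norm_add_le _ _)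
  congr 1
  funext i
  simp

theorem sz_neg (b : Basis (Fin N) ℚ D) (x : D) : sz b (-x) = sz b x := by
  unfold sz
  rw [← norm_neg]
  congr 1
  funext i
  simp

theorem sz_smul (b : Basis (Fin N) ℚ D) (q : ℚ) (x : D) : sz b (q • x) = |(q : ℝ)| * sz b x := by
  unfold sz
  rw [← Real.norm_eq_abs, ← norm_smul]
  congr 1
  funext i
  simp

theorem abs_repr_le (b : Basis (Fin N) ℚ D) (x : D) (i : Fin N) :
    |((b.repr x i : ℚ) : ℝ)| ≤ sz b x :=
  norm_le_pi_norm (fun i => ((b.repr x i : ℚ) : ℝ)) i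

theorem sz_vec_le (b : Basis (Fin N) ℚ D) (n : Fin N → ℤ) {Y : ℝ} (hY : 0 ≤ Y) :
    sz b (vec b n) ≤ Y ↔ ∀ i, |(n i : ℝ)| ≤ Y := by
  unfold sz
  rw [pi_norm_le_iff_of_nonneg hY]
  simp

/-- `x ≡ y mod r`: some multiple `m (x - y)`, `m` positive and prime to `r`, lies in `r Λ`. -/
def Cong (b : Basis (Fin N) ℚ D) (r : ℕ) (x y : D) : Prop :=
  ∃ m : ℕ, m ≠ 0 ∧ m.Coprime r ∧ ∃ z ∈ lat b, (m : D) * (x - y) = (r : D) * z

/-- `Λ` is a subring containing `1`. -/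
structure IsOrder (b : Basis (Fin N) ℚ D) : Prop where
  one : (1 : D) ∈ lat b
  mul : ∀ x ∈ lat b, ∀ y ∈ lat b, x * y ∈ lat b

/-- (PI): for every `M₀` there is a sequence of pairwise comaximal proper left ideals of `Λ`, of
finite index prime to `M₀`, with divergent sum of the reciprocals of the indices. -/
def HasIdeals (b : Basis (Fin N) ℚ D) : Prop :=
  ∀ M₀ : ℕ, M₀ ≠ 0 → ∃ (P : ℕ → AddSubgroup D) (m : ℕ → ℕ),
    (∀ i, P i ≤ lat b) ∧ (∀ i, ∀ x ∈ lat b, ∀ y ∈ P i, x * y ∈ P i) ∧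
    (∀ i, 1 < m i ∧ (m i).Coprime M₀ ∧ (P i).relIndex (lat b) = m i) ∧
    (∀ i j, i ≠ j → P i ⊔ P j = lat b) ∧ ¬ Summable (fun i => (1 : ℝ) / m i)

/-- The subgroup `U` of `D^*` contains the neighbourhood `(r₀, ρ₀)` of `1`. -/
structure TOpen (b : Basis (Fin N) ℚ D) (r₀ : ℕ) (ρ₀ : ℝ) (U : Subgroup Dˣ) : Prop where
  r_pos : 0 < r₀
  ρ_pos : 0 < ρ₀
  nbhd : ∀ x : Dˣ, Cong b r₀ x 1 → sz b ((x : D) - 1) < ρ₀ → x ∈ U

/-- The element `x` of `D` lies in `U` and has colour `s`. -/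
def Col {U : Subgroup Dˣ} {R : Type*} [Group R] (c : U →* R) (x : D) (s : R) : Prop :=
  ∃ u : U, ((u : Dˣ) : D) = x ∧ c u = s

/-- The lattice `J p`. -/
def latMul (b' : Basis (Fin N) ℚ D) (p : D) : AddSubgroup D :=
  (lat b').map (AddMonoidHom.mulRight p)

/-- A family of elements `p i` such that the `J p i` (`J = lat b'`) are sublattices of
`Λ = lat b` of index `m i`, independent in pairs, and `|y| ≤ C₀ |y p i|`. -/
structure KFam (b b' : Basis (Fin N) ℚ D) (C₀ : ℝ) {n : ℕ} (p : Fin n → D) (m : Fin n → ℕ) :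
    Prop where
  p_ne : ∀ i, p i ≠ 0
  p_inj : ∀ i j, i ≠ j → p i ≠ p j
  m_pos : ∀ i, 0 < m i
  sub : ∀ i, latMul b' (p i) ≤ lat b
  idx : ∀ i, (latMul b' (p i)).relIndex (lat b) = m i
  idx2 : ∀ i j, i ≠ j → (latMul b' (p i) ⊓ latMul b' (p j)).relIndex (lat b) = m i * m j
  size : ∀ i (y : D), sz b y ≤ C₀ * sz b (y * p i)

/-- Output of K1, K2, consumed by K5. -/
def K2Out (b : Basis (Fin N) ℚ D) {U : Subgroup Dˣ} {R : Type*} [Group R] (c : U →* R) : Prop :=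
  ∃ (b' : Basis (Fin N) ℚ D) (C₀ : ℝ), 0 < C₀ ∧ ∀ L₀ : ℝ, ∃ (n : ℕ) (p : Fin n → D)
    (m : Fin n → ℕ), KFam b b' C₀ p m ∧ L₀ ≤ ∑ i, (1 : ℝ) / m i ∧
      ∀ i j, Col c ((p i)⁻¹ * p j) 1

/-- Output of K6 (a): every colour occurs on the lattice. -/
def K6a (b : Basis (Fin N) ℚ D) {U : Subgroup Dˣ} {R : Type*} [Group R] (c : U →* R) : Prop :=
  ∀ u : U, ∃ x ∈ lat b, Col c x (c u)

/-- Output of K6 (b): every colour has positive lower density on the lattice. -/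
def K6b (b : Basis (Fin N) ℚ D) {U : Subgroup Dˣ} {R : Type*} [Group R] (c : U →* R) : Prop :=
  ∃ (δ : ℝ) (Y₀ : ℕ), 0 < δ ∧ ∀ u : U, ∀ Y : ℕ, Y₀ ≤ Y →
    δ * (Y : ℝ) ^ N ≤ Set.ncard {n : Fin N → ℤ | (∀ i, |n i| ≤ (Y : ℤ)) ∧ Col c (vec b n) (c u)}

/-- Output of K6 (c): lattice elements `≡ 1 mod r₀` whose direction is near `1` lie in `U`. -/
def K6c (b : Basis (Fin N) ℚ D) (r₀ : ℕ) (ρ₀ : ℝ) (U : Subgroup Dˣ) : Prop :=
  ∃ X₀ : ℕ, ∀ X : ℕ, X₀ ≤ X → ∀ x ∈ lat b, Cong b r₀ x 1 →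
    sz b ((X : ℚ)⁻¹ • x - 1) < ρ₀ / 2 → ∃ u ∈ U, ((u : Dˣ) : D) = x

/-- THEOREM K. -/
def TheoremK (b : Basis (Fin N) ℚ D) : Prop :=
  ∀ (r₀ : ℕ) (ρ₀ : ℝ) (U : Subgroup Dˣ), TOpen b r₀ ρ₀ U →
    ∀ (R : Type) [Group R] [Finite R] (c : U →* R), ∃ (r : ℕ) (ρ : ℝ), 0 < r ∧ 0 < ρ ∧
      ∀ x : U, Cong b r ((x : Dˣ) : D) 1 → sz b (((x : Dˣ) : D) - 1) < ρ → ∀ y : U,
        c x * c y = c y * c x

end Vale.Agent.P011.MPQ
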