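import Vale.Agent.P011.MPQ.KDefs

/-!
# P011, block K: boxes, cells, exponential sums: definitions for K3-K5, K7-K9
-/

namespace Vale.Agent.P011.MPQ

open Module

variable {D : Type*} [DivisionRing D] [Algebra ℚ D] {N : ℕ}

/-- `e(t) = exp (2 π i t)`. -/
noncomputable def ex (t : ℝ) : ℂ := Complex.exp (2 * Real.pi * Complex.I * t)

/-- The scalar product of a real vector and an integral vector. -/
noncomputable def dotp (α : Fin N → ℝ) (n : Fin N → ℤ) : ℝ := ∑ i, α i * (n i : ℝ)

/-- The box `∏ [lo i, hi i)`. -/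
noncomputable def box (lo hi : Fin N → ℤ) : Finset (Fin N → ℤ) :=
  Fintype.piFinset fun i => Finset.Ico (lo i) (hi i)

/-- The cell `(r, κ, h, β)` at scale `X`: the lattice points `≡ κ mod r` in the cube
`∏ [β i X / h, (β i + 1) X / h)`. (Used only for `r h ∣ X`; then it has `(X / (r h)) ^ N`
elements.) -/
noncomputable def cell (r : ℕ) (κ : Fin N → ℤ) (h : ℕ) (β : Fin N → ℤ) (X : ℕ) : Finset (Fin N → ℤ) :=
  (box (fun i => β i * (X / h : ℕ)) (fun i => (β i + 1) * (X / h : ℕ))).filter
    (fun n => ∀ i, (r : ℤ) ∣ n i - κ i)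

/-- Functions on `D` bounded by one and invariant under right multiplication by the kernel of the
colouring `c`. -/
def Inv1 {U : Subgroup Dˣ} {R : Type*} [Group R] (c : U →* R) (f : D → ℂ) : Prop :=
  (∀ x, ‖f x‖ ≤ 1) ∧ ∀ x y, Col c y 1 → f (x * y) = f x

end Vale.Agent.P011.MPQ
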