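import Vale.Agent.P011.MPQ.KDefs2

/-!
# P011, block K: statements K5, K8 (to be proved by helper250), consumed by K7, K9 (helper342)
-/

namespace Vale.Agent.P011.MPQ

open Module

variable {D : Type*} [DivisionRing D] [Algebra ℚ D] {N : ℕ}

theorem card_cell (r : ℕ) (hr : 0 < r) (κ : Fin N → ℤ) (h : ℕ) (hh : 0 < h) (β : Fin N → ℤ)
    (X : ℕ) (hX : r * h ∣ X) : (cell r κ h β X).card = (X / (r * h)) ^ N := sorry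

/-- K5 -/
theorem minor_arcs (b : Basis (Fin N) ℚ D) {U : Subgroup Dˣ} {R : Type*} [Group R] (c : U →* R)
    (h2 : K2Out b c) (ε : ℝ) (hε : 0 < ε) :
    ∃ (q₀ : ℕ) (B₀ : ℝ) (X₀ : ℕ), 0 < q₀ ∧ 0 < B₀ ∧ ∀ f : D → ℂ, Inv1 c f →
      ∀ X : ℕ, X₀ ≤ X → ∀ lo hi : Fin N → ℤ, (∀ i, -(X : ℤ) ≤ lo i ∧ hi i ≤ X) →
        ∀ α : Fin N → ℝ, (∃ a : Fin N → ℤ, ∀ i, |(q₀ : ℝ) * α i - a i| ≤ B₀ / X) ∨
          ‖∑ n ∈ box lo hi, f (vec b n) * ex (dotp α n)‖ ≤ ε * (X : ℝ) ^ N := sorry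

/-- K8, first part: equidistribution on the subcells implies that all Fourier coefficients are
small. -/
theorem fourier_small (b : Basis (Fin N) ℚ D) {U : Subgroup Dˣ} {R : Type*} [Group R]
    (c : U →* R) (h2 : K2Out b c) (r : ℕ) (hr : 0 < r) (κ : Fin N → ℤ) (h : ℕ) (hh : 0 < h)
    (β : Fin N → ℤ) (ε : ℝ) (hε : 0 < ε) :
    ∃ (q k X₀ : ℕ), 0 < q ∧ 0 < k ∧ ∀ X : ℕ, X₀ ≤ X → r * q * (h * k) ∣ X → ∀ f : D → ℂ,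
      Inv1 c f →
      (∑ κ' : Fin N → Fin q, ∑ β' : Fin N → Fin k,
        ‖∑ n ∈ cell (r * q) (fun i => κ i + r * (κ' i : ℕ)) (h * k)
          (fun i => k * β i + (β' i : ℕ)) X, f (vec b n)‖ ≤ ε * (cell r κ h β X).card) →
      ∀ θ : Fin N → ℝ, ‖∑ n ∈ cell r κ h β X, f (vec b n) * ex (dotp θ n)‖ ≤
        2 * ε * (cell r κ h β X).card := sorry

/-- K8, second part: counting pairs. -/
theorem pair_count (C A B T : Finset (Fin N → ℤ)) (hA : A ⊆ C) (hB : B ⊆ C) (dA dB ε : ℝ)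
    (hdA : 0 ≤ dA) (hdA' : dA ≤ 1) (hε : 0 ≤ ε)
    (hFA : ∀ θ : Fin N → ℝ, ‖∑ n ∈ C, (((if n ∈ A then 1 else 0 : ℝ) - dA : ℝ) : ℂ) *
      ex (dotp θ n)‖ ≤ ε * C.card)
    (hFB : ∀ θ : Fin N → ℝ, ‖∑ n ∈ C, (((if n ∈ B then 1 else 0 : ℝ) - dB : ℝ) : ℂ) *
      ex (dotp θ n)‖ ≤ ε * C.card) (hT : T.card ≤ C.card) :
    dA * dB * ∑ t ∈ T, ((C.filter (fun n => n + t ∈ C)).card : ℝ) - 2 * ε * (C.card : ℝ) ^ 2 ≤
      ∑ t ∈ T, ((A.filter (fun n => n + t ∈ B)).card : ℝ) := sorry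

end Vale.Agent.P011.MPQ
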